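import Vale.Agent.P281.MathlibUsed
import Vale.Agent.P281.J

set_option linter.all false

section

namespace Vale.Agent.P281.GIT

open MvPolynomial

set_option linter.unusedSectionVars false
set_option linter.unusedVariables false

section Fock

variable {σ : Type*} [Fintype σ] [DecidableEq σ]

/-- the product of the factorials of the exponents -/
noncomputable def fact (α : σ →₀ ℕ) : ℂ := ∏ i, ((α i).factorial : ℂ)

/-- the Fock (Bombieri) pairing, as a linear map in the first variable. -/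
noncomputable def fock (Q : MvPolynomial σ ℂ) : MvPolynomial σ ℂ →ₗ[ℂ] ℂ :=
  (MvPolynomial.basisMonomials σ ℂ).constr ℂ (fun α => coeff α Q * fact α)

theorem fock_monomial (Q : MvPolynomial σ ℂ) (α : σ →₀ ℕ) (c : ℂ) :
    fock Q (monomial α c) = c * (coeff α Q * fact α) := by
  have h1 : (monomial α c : MvPolynomial σ ℂ) = c • (MvPolynomial.basisMonomials σ ℂ) α := by
    rw [coe_basisMonomials, smul_monomial, smul_eq_mul, mul_one]
  rw [h1, map_smul, fock, Module.Basis.constr_basis, smul_eq_mul]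

theorem fock_add_right (Q Q' : MvPolynomial σ ℂ) (P : MvPolynomial σ ℂ) :
    fock (Q + Q') P = fock Q P + fock Q' P := by
  induction P using MvPolynomial.induction_on' with
  | monomial α c => rw [fock_monomial, fock_monomial, fock_monomial, coeff_add]; ring
  | add P P' h h' => rw [map_add, map_add, map_add, h, h']; ring

theorem fock_smul_right (c : ℂ) (Q : MvPolynomial σ ℂ) (P : MvPolynomial σ ℂ) :
    fock (c • Q) P = c * fock Q P := by
  induction P using MvPolynomial.induction_on' with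
  | monomial α d => rw [fock_monomial, fock_monomial, coeff_smul, smul_eq_mul]; ring
  | add P P' h h' => rw [map_add, map_add, h, h']; ring

theorem fock_sum_right {ι : Type*} (s : Finset ι) (Q : ι → MvPolynomial σ ℂ)
    (P : MvPolynomial σ ℂ) : fock (∑ i ∈ s, Q i) P = ∑ i ∈ s, fock (Q i) P := by
  classical
  induction s using Finset.induction_on with
  | empty =>
    simp only [Finset.sum_empty]
    induction P using MvPolynomial.induction_on' with
    | monomial α d => rw [fock_monomial]; simp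
    | add P P' h h' => rw [map_add, h, h']; ring
  | insert a s ha ih => rw [Finset.sum_insert ha, Finset.sum_insert ha, fock_add_right, ih]

theorem fact_add_single (α : σ →₀ ℕ) (i : σ) :
    fact (α + Finsupp.single i 1) = (α i + 1) * fact α := by
  unfold fact
  rw [← Finset.mul_prod_erase Finset.univ _ (Finset.mem_univ i),
    ← Finset.mul_prod_erase Finset.univ (fun j => ((α j).factorial : ℂ)) (Finset.mem_univ i)]
  have h1 : ∏ j ∈ Finset.univ.erase i,
      (((α + Finsupp.single i 1 : σ →₀ ℕ) j).factorial : ℂ) =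
      ∏ j ∈ Finset.univ.erase i, ((α j).factorial : ℂ) := by
    refine Finset.prod_congr rfl fun j hj => ?_
    have : j ≠ i := Finset.ne_of_mem_erase hj
    rw [Finsupp.add_apply, Finsupp.single_eq_of_ne this, add_zero]
  rw [h1, Finsupp.add_apply, Finsupp.single_eq_same, Nat.factorial_succ]
  push_cast
  ring

theorem coeff_pderiv' (i : σ) (Q : MvPolynomial σ ℂ) (β : σ →₀ ℕ) :
    coeff β (pderiv i Q) = (β i + 1) * coeff (β + Finsupp.single i 1) Q := by
  induction Q using MvPolynomial.induction_on' with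
  | monomial α c =>
    rw [pderiv_monomial, coeff_monomial, coeff_monomial]
    by_cases h : α = β + Finsupp.single i 1
    · subst h
      simp only [add_tsub_cancel_right, ↓reduceIte, Finsupp.coe_add, Pi.add_apply,
        Finsupp.single_eq_same, Nat.cast_add, Nat.cast_one, mul_comm]
    · rw [if_neg h, mul_zero]
      by_cases h2 : α - Finsupp.single i 1 = β
      · rw [if_pos h2]
        by_cases h3 : α i = 0
        · rw [h3]; simp
        · exfalso
          apply h
          rw [← h2]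
          refine (tsub_add_cancel_of_le ?_).symm
          rw [Finsupp.single_le_iff]
          omega
      · rw [if_neg h2]
  | add P P' h h' => rw [map_add, coeff_add, coeff_add, h, h']; ring

theorem fock_X_mul (i : σ) (P Q : MvPolynomial σ ℂ) :
    fock Q (P * X i) = fock (pderiv i Q) P := by
  induction P using MvPolynomial.induction_on' with
  | monomial α c =>
    have : (monomial α c : MvPolynomial σ ℂ) * X i = monomial (α + Finsupp.single i 1) c := by
      rw [X, monomial_mul, mul_one]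
    rw [this, fock_monomial, fock_monomial, fact_add_single, coeff_pderiv']
    ring
  | add P P' h h' => rw [add_mul, map_add, map_add, h, h']

/-- positivity for polynomials with real coefficients. -/
theorem fock_self_ne_zero (Q : MvPolynomial σ ℝ) (hQ : Q ≠ 0) :
    fock (map (algebraMap ℝ ℂ) Q) (map (algebraMap ℝ ℂ) Q) ≠ 0 := by
  have h1 : fock (map (algebraMap ℝ ℂ) Q) (map (algebraMap ℝ ℂ) Q) =
      ((∑ α ∈ Q.support, coeff α Q ^ 2 * ∏ i, ((α i).factorial : ℝ) : ℝ) : ℂ) := by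
    have h2 : (map (algebraMap ℝ ℂ) Q) =
        ∑ α ∈ Q.support, monomial α ((coeff α Q : ℝ) : ℂ) := by
      conv_lhs => rw [Q.as_sum]
      rw [map_sum]
      refine Finset.sum_congr rfl fun α _ => ?_
      rw [map_monomial]
      rfl
    conv_lhs => rw [show fock (map (algebraMap ℝ ℂ) Q) (map (algebraMap ℝ ℂ) Q) =
      fock (map (algebraMap ℝ ℂ) Q) (∑ α ∈ Q.support, monomial α ((coeff α Q : ℝ) : ℂ)) from by
        rw [← h2]]
    rw [map_sum]
    push_cast
    refine Finset.sum_congr rfl fun α _ => ?_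
    rw [fock_monomial, coeff_map]
    unfold fact
    have : (algebraMap ℝ ℂ) (coeff α Q) = ((coeff α Q : ℝ) : ℂ) := rfl
    rw [this]
    ring
  rw [h1]
  have h3 : 0 < ∑ α ∈ Q.support, coeff α Q ^ 2 * ∏ i, ((α i).factorial : ℝ) := by
    refine Finset.sum_pos (fun α hα => ?_) ?_
    · have h4 : coeff α Q ≠ 0 := mem_support_iff.1 hα
      have h5 : 0 < ∏ i, ((α i).factorial : ℝ) :=
        Finset.prod_pos fun i _ => by exact_mod_cast Nat.factorial_pos _
      positivity
    · rw [Finset.nonempty_iff_ne_empty]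
      intro h
      exact hQ (support_eq_empty.1 h)
  exact_mod_cast h3.ne'

end Fock

section Mat

variable {n : ℕ}

/-- the generic matrix -/
noncomputable abbrev XM (n : ℕ) : Matrix (Fin n) (Fin n) (MvPolynomial (Fin n × Fin n) ℂ) :=
  Matrix.mvPolynomialX (Fin n) (Fin n) ℂ

/-- the substitution `X ↦ h X`. -/
noncomputable def subL (h : Matrix (Fin n) (Fin n) ℂ) :
    MvPolynomial (Fin n × Fin n) ℂ →ₐ[ℂ] MvPolynomial (Fin n × Fin n) ℂ :=
  aeval (fun p : Fin n × Fin n => ∑ k, h p.1 k • (X (k, p.2) : MvPolynomial (Fin n × Fin n) ℂ))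

theorem subL_X (h : Matrix (Fin n) (Fin n) ℂ) (i j : Fin n) :
    subL h (X (i, j)) = ∑ k, h i k • (X (k, j) : MvPolynomial (Fin n × Fin n) ℂ) := by
  rw [subL, aeval_X]

theorem subL_mat (h : Matrix (Fin n) (Fin n) ℂ) :
    (XM n).map (subL h) = (h.map C) * XM n := by
  ext1 i j
  have h1 : ∀ i j, XM n i j = X (i, j) := fun i j => rfl
  rw [Matrix.map_apply, Matrix.mul_apply, h1, subL_X]
  refine Finset.sum_congr rfl fun k _ => ?_
  rw [Matrix.map_apply, h1, smul_eq_C_mul]

theorem subL_det (h : Matrix (Fin n) (Fin n) ℂ) :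
    subL h (XM n).det = C h.det * (XM n).det := by
  have h1 : subL h (XM n).det = ((XM n).map (subL h)).det := by
    rw [AlgHom.map_det]; rfl
  rw [h1, subL_mat, Matrix.det_mul]
  congr 1
  have : C h.det = (h.map (C : ℂ → MvPolynomial (Fin n × Fin n) ℂ)).det := by
    rw [RingHom.map_det]; rfl
  rw [this]

/-- chain rule for the substitution -/
theorem pderiv_subL (h : Matrix (Fin n) (Fin n) ℂ) (i j : Fin n)
    (Q : MvPolynomial (Fin n × Fin n) ℂ) :
    pderiv (i, j) (subL h.transpose Q) = ∑ k, h i k • subL h.transpose (pderiv (k, j) Q) := by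
  induction Q using MvPolynomial.induction_on with
  | C c => simp only [subL, Matrix.transpose_apply, aeval_eq_bind₁, algHom_C, algebraMap_eq,
             derivation_C, map_zero, smul_zero, Finset.sum_const_zero]
  | add P P' h1 h2 =>
    simp only [map_add, h1, h2, smul_add, Finset.sum_add_distrib]
  | mul_X P p h1 =>
    obtain ⟨a, b⟩ := p
    rw [map_mul, Derivation.leibniz, h1, subL_X]
    have h2 : pderiv (i, j) (∑ k, h.transpose a k • (X (k, b) : MvPolynomial (Fin n × Fin n) ℂ)) =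
        if j = b then C (h i a) else 0 := by
      rw [map_sum]
      simp only [Derivation.map_smul, pderiv_X, Matrix.transpose_apply]
      by_cases hjb : j = b
      · subst hjb
        rw [if_pos rfl, Finset.sum_eq_single i]
        · simp only [Pi.single_eq_same, smul_eq_C_mul, mul_one]
        · intro k _ hk
          have : ((k, j) : Fin n × Fin n) ≠ (i, j) := fun h => hk (Prod.mk.inj h).1
          simp [this]
        · simp only [Finset.mem_univ, not_true_eq_false, Pi.single_eq_same, smul_eq_zero,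
            one_ne_zero, or_false, IsEmpty.forall_iff]
      · rw [if_neg hjb]
        refine Finset.sum_eq_zero fun k _ => ?_
        have : ((k, b) : Fin n × Fin n) ≠ (i, j) := fun h => hjb (Prod.mk.inj h).2.symm
        simp [this]
    rw [h2]
    have h3 : ∀ k, h i k • subL h.transpose (pderiv (k, j) (P * X (a, b))) =
        subL h.transpose P * (if k = a ∧ j = b then C (h i a) else 0) +
        (h i k • subL h.transpose (pderiv (k, j) P)) * subL h.transpose (X (a, b)) := by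
      intro k
      rw [Derivation.leibniz, map_add, smul_add]
      congr 1
      · rw [smul_eq_mul, map_mul, pderiv_X]
        by_cases hk : k = a ∧ j = b
        · obtain ⟨rfl, rfl⟩ := hk
          simp [smul_eq_C_mul, mul_comm]
        · rw [if_neg hk]
          have : ((a, b) : Fin n × Fin n) ≠ (k, j) := fun h =>
            hk ⟨(Prod.mk.inj h).1.symm, (Prod.mk.inj h).2.symm⟩
          simp only [ne_eq, this, not_false_eq_true, Pi.single_eq_of_ne, map_zero, mul_zero,
            smul_zero]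
      · rw [smul_eq_mul, map_mul, smul_mul_assoc, mul_comm (subL h.transpose (X (a, b)))]
    rw [Finset.sum_congr rfl fun k _ => h3 k, Finset.sum_add_distrib, ← Finset.sum_mul,
      ← Finset.mul_sum, smul_eq_mul, smul_eq_mul, subL_X]
    have h4 : ∑ k, (if k = a ∧ j = b then (C (h i a) : MvPolynomial (Fin n × Fin n) ℂ) else 0) =
        if j = b then C (h i a) else 0 := by
      by_cases hjb : j = b
      · simp only [hjb, and_true, Finset.sum_ite_eq', Finset.mem_univ, ↓reduceIte]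
      · simp only [hjb, and_false, ↓reduceIte, Finset.sum_const_zero]
    rw [h4]
    ring

theorem coeff_zero_subL (h : Matrix (Fin n) (Fin n) ℂ) (Q : MvPolynomial (Fin n × Fin n) ℂ) :
    coeff 0 (subL h Q) = coeff 0 Q := by
  have h1 : (constantCoeff : MvPolynomial (Fin n × Fin n) ℂ →+* ℂ).comp
      ((subL h : MvPolynomial (Fin n × Fin n) ℂ →ₐ[ℂ] MvPolynomial (Fin n × Fin n) ℂ) :
        MvPolynomial (Fin n × Fin n) ℂ →+* MvPolynomial (Fin n × Fin n) ℂ) = constantCoeff := by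
    refine MvPolynomial.ringHom_ext (fun c => ?_) (fun p => ?_)
    · simp only [subL, aeval_eq_bind₁, RingHom.coe_comp, RingHom.coe_coe, Function.comp_apply,
        algHom_C, algebraMap_eq, constantCoeff_C]
    · obtain ⟨i, j⟩ := p
      simp only [RingHom.comp_apply, RingHom.coe_coe, subL_X, map_sum, constantCoeff_X]
      refine Finset.sum_eq_zero fun k _ => ?_
      rw [smul_eq_C_mul, map_mul, constantCoeff_X, mul_zero]
  exact congrArg (fun φ : MvPolynomial (Fin n × Fin n) ℂ →+* ℂ => φ Q) h1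

/-- adjointness -/
theorem fock_subL (h : Matrix (Fin n) (Fin n) ℂ) (P : MvPolynomial (Fin n × Fin n) ℂ) :
    ∀ Q, fock Q (subL h P) = fock (subL h.transpose Q) P := by
  induction P using MvPolynomial.induction_on with
  | C c =>
    intro Q
    have h1 : subL h (C c) = C c := by simp only [subL, aeval_eq_bind₁, algHom_C, algebraMap_eq]
    rw [h1]
    have h2 : (C c : MvPolynomial (Fin n × Fin n) ℂ) = monomial 0 c := rfl
    rw [h2, fock_monomial, fock_monomial, coeff_zero_subL]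
  | add P P' h1 h2 =>
    intro Q
    rw [map_add, map_add, map_add, h1, h2]
  | mul_X P p h1 =>
    intro Q
    obtain ⟨i, j⟩ := p
    rw [map_mul, subL_X, Finset.mul_sum, map_sum, fock_X_mul, pderiv_subL, fock_sum_right]
    refine Finset.sum_congr rfl fun k _ => ?_
    rw [mul_smul_comm, map_smul, fock_X_mul, h1, fock_smul_right, smul_eq_mul]

/-- invariance of the projection to the powers of the determinant. -/
theorem fock_subL_det (h : Matrix (Fin n) (Fin n) ℂ) (P : MvPolynomial (Fin n × Fin n) ℂ)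
    (w : ℕ) : fock ((XM n).det ^ w) (subL h P) = h.det ^ w * fock ((XM n).det ^ w) P := by
  rw [fock_subL, map_pow, subL_det, Matrix.det_transpose, mul_pow, ← map_pow, ← smul_eq_C_mul,
    fock_smul_right]

theorem fock_det_ne_zero (w : ℕ) : fock ((XM n).det ^ w) ((XM n).det ^ w) ≠ 0 := by
  have h1 : (XM n).det ^ w = map (algebraMap ℝ ℂ)
      ((Matrix.mvPolynomialX (Fin n) (Fin n) ℝ).det ^ w) := by
    rw [map_pow, RingHom.map_det]
    congr 2
    ext1 i j
    simp [Matrix.mvPolynomialX_apply]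
  rw [h1]
  refine fock_self_ne_zero _ (pow_ne_zero _ ?_)
  exact Matrix.det_mvPolynomialX_ne_zero (Fin n) ℝ

end Mat

end Vale.Agent.P281.GIT

namespace Vale.Agent.P281

open scoped Manifold ContDiff Topology ENNReal
open Set

universe u

section Divisors

variable (E : Type) [NormedAddCommGroup E] [NormedSpace ℂ E]
variable {X : Type u} [TopologicalSpace X] [ChartedSpace E X]

/-- `g` is a holomorphic function near `x`. -/
def HolAt (g : X → ℂ) (x : X) : Prop := ContMDiffAt 𝓘(ℂ, E) 𝓘(ℂ, ℂ) ω g x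

/-- The differential of the function `g` at `x` (the tangent space at `x` is `E`). -/
noncomputable def dif (g : X → ℂ) (x : X) : E →L[ℂ] ℂ := mfderiv 𝓘(ℂ, E) 𝓘(ℂ, ℂ) g x

/-- `g` is a reduced local equation of the closed set `D` near `x`. -/
def IsLocalEq (D : Set X) (g : X → ℂ) (x : X) : Prop :=
  ∃ W : Set X, IsOpen W ∧ x ∈ W ∧ (∀ z ∈ W, HolAt E g z) ∧ (∀ z ∈ W, z ∈ D ↔ g z = 0) ∧
    D ∩ W ⊆ closure {z | z ∈ D ∧ dif E g z ≠ 0}

/-- Points where the hypersurface `D` is smooth. -/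
def smoothLocus (D : Set X) : Set X := {x | x ∈ D ∧ ∃ g, IsLocalEq E D g x ∧ dif E g x ≠ 0}

/-- Prime divisors: irreducible closed analytic hypersurfaces. -/
def IsPrimeDivisor (D : Set X) : Prop :=
  IsClosed D ∧ (∀ x, ∃ g, IsLocalEq E D g x) ∧ IsConnected (smoothLocus E D)

/-- A boundary is recorded by its coefficient function `Δ : Set X → ℝ` (`Δ D` is the coefficient
of the prime divisor `D`).  This is: `Δ` is a rational SNC boundary. -/
structure IsSNCBoundary (Δ : Set X → ℝ) : Prop where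
  finite : {D | Δ D ≠ 0}.Finite
  prime : ∀ D, Δ D ≠ 0 → IsPrimeDivisor E D
  rational : ∀ D, ∃ q : ℚ, Δ D = q ∧ 0 ≤ q ∧ q ≤ 1
  snc : ∀ (x : X) (g : Set X → X → ℂ), (∀ D, Δ D ≠ 0 → x ∈ D → IsLocalEq E D (g D) x) →
    LinearIndependent ℂ (fun D : {D : Set X // Δ D ≠ 0 ∧ x ∈ D} => dif E (g D.1) x)

/-- `m_Δ(D) = 1 / (1 - Δ_D)` in `[1, ∞]`. -/
noncomputable def mult (Δ : Set X → ℝ) (D : Set X) : ℝ≥0∞ := (1 - ENNReal.ofReal (Δ D))⁻¹

end Divisors

section Maps

variable (E E' : Type) [NormedAddCommGroup E] [NormedSpace ℂ E]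
  [NormedAddCommGroup E'] [NormedSpace ℂ E']
variable {X Y : Type u} [TopologicalSpace X] [ChartedSpace E X]
  [TopologicalSpace Y] [ChartedSpace E' Y]

/-- `ord_D (u^* G)`: near some point of `D`, `u^* g = e ^ k * unit`, where `e`, `g` are local
equations of `D`, `G`. -/
noncomputable def ordAlong (u : X → Y) (G : Set Y) (D : Set X) : ℕ :=
  sInf {k | ∃ x ∈ D, ∃ e g w, IsLocalEq E D e x ∧ IsLocalEq E' G g (u x) ∧ HolAt E w x ∧ w x ≠ 0 ∧
    ∀ᶠ z in 𝓝 x, g (u z) = e z ^ k * w z}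

/-- `m(f, Δ; G)`: infimum of `ord_D (f^* G) * m_Δ(D)` over prime divisors `D` with `f(D) = G`. -/
noncomputable def orbMult (f : X → Y) (Δ : Set X → ℝ) (G : Set Y) : ℝ≥0∞ :=
  ⨅ (D : Set X) (_ : IsPrimeDivisor E D ∧ f '' D = G), (ordAlong E E' f G D : ℝ≥0∞) * mult Δ D

open Classical in
/-- The orbifold base `B(f, Δ)`: coefficient `1 - 1 / m(f, Δ; G)` at the prime divisor `G`. -/
noncomputable def orbBase (f : X → Y) (Δ : Set X → ℝ) : Set Y → ℝ := fun G =>
  if IsPrimeDivisor E' G then (1 - (orbMult E E' f Δ G)⁻¹).toReal else 0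

/-- Closed analytic subsets. -/
def IsAnalytic (A : Set X) : Prop :=
  ∀ x, ∃ W : Set X, IsOpen W ∧ x ∈ W ∧ ∃ (n : ℕ) (g : Fin n → X → ℂ),
    (∀ i, ∀ z ∈ W, HolAt E (g i) z) ∧ ∀ z ∈ W, z ∈ A ↔ ∀ i, g i z = 0

/-- Proper bimeromorphic morphisms: proper surjective holomorphic maps which are isomorphisms over
the complement of a proper analytic subset. -/
structure IsModification (u : X → Y) : Prop where
  hol : ContMDiff 𝓘(ℂ, E) 𝓘(ℂ, E') ω u
  proper : IsProperMap u
  surj : Function.Surjective u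
  iso : ∃ A : Set Y, IsAnalytic E' A ∧ A ≠ univ ∧ ∃ v : Y → X,
    ContMDiffOn 𝓘(ℂ, E') 𝓘(ℂ, E) ω v Aᶜ ∧ (∀ y ∉ A, u (v y) = y) ∧ ∀ x, u x ∉ A → v (u x) = x

end Maps

section Kodaira

variable (E : Type) [NormedAddCommGroup E] [NormedSpace ℂ E]
variable {Z : Type u} [TopologicalSpace Z] [ChartedSpace E Z]

/-- Determinant of the differential of `φ : Z → E` (the tangent space at `z` is `E`). -/
noncomputable def jac (φ : Z → E) (z : Z) : ℂ :=
  ContinuousLinearMap.det (mfderiv 𝓘(ℂ, E) 𝓘(ℂ, E) φ z : E →L[ℂ] E)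

/-- Let `L = ∑ i, c i * L_i` where `L_i` is the effective divisor with local equations `eqn i`,
and let `k i = m * c i` be integers.  Sections of `m (K_Z + L)` are recorded by `s : Z → ℂ`, the
value of the meromorphic `m`-canonical form on the standard frame of the tangent space `E`:
near each `z₀`, `s * ∏ g_i ^ k_i = a * (dz_1 ∧ ... ∧ dz_n) ^ m` with `a` holomorphic,
`g_i` local equation of `L_i` and `z` the chart at `z₀`. -/
def IsSection {ι : Type u} (eqn : ι → Z → (Z → ℂ) → Prop) (m : ℕ) (k : ι → ℕ) (s : Z → ℂ) :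
    Prop :=
  ∀ z₀ : Z, ∃ (T : Finset ι) (g : ι → Z → ℂ) (a : Z → ℂ), (∀ i, k i ≠ 0 → i ∈ T) ∧
    (∀ i ∈ T, eqn i z₀ (g i)) ∧ HolAt E a z₀ ∧
    ∀ᶠ z in 𝓝 z₀, ∏ i ∈ T, g i z ^ k i ≠ 0 →
      s z * ∏ i ∈ T, g i z ^ k i = a z * jac E (chartAt E z₀) z ^ m

/-- `κ(Z, K_Z + L) ≥ j`: for some `m > 0` with `m L` integral there are sections `s_0, ..., s_j`
of `m (K_Z + L)` whose ratios `s_1 / s_0, ..., s_j / s_0` have independent differentials somewhere
(the image of the map given by `|m (K_Z + L)|` has dimension at least `j`). -/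
def KodGE {ι : Type u} (eqn : ι → Z → (Z → ℂ) → Prop) (c : ι → ℝ) (j : ℕ) : Prop :=
  ∃ (m : ℕ) (k : ι → ℕ) (s : Fin (j + 1) → Z → ℂ) (z : Z), 0 < m ∧
    (∀ i, (k i : ℝ) = m * c i) ∧ (∀ b, IsSection E eqn m k (s b)) ∧
    (∀ i, k i ≠ 0 → ∃ g, eqn i z g ∧ g z ≠ 0) ∧ s 0 z ≠ 0 ∧
    LinearIndependent ℂ (fun b : Fin j => dif E (fun w => s b.succ w / s 0 w) z)

/-- The Kodaira dimension `κ(Z, K_Z + L)`. -/
noncomputable def kod {ι : Type u} (eqn : ι → Z → (Z → ℂ) → Prop) (c : ι → ℝ) : WithBot ℕ∞ :=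
  ⨆ (j : ℕ) (_ : KodGE E eqn c j), ((j : ℕ∞) : WithBot ℕ∞)

/-- `κ(Z, K_Z + B)` for `B = ∑ B(D) D`, sum over prime divisors. -/
noncomputable def kodaira (B : Set Z → ℝ) : WithBot ℕ∞ :=
  kod E (fun (D : Set Z) (z : Z) (g : Z → ℂ) => IsLocalEq E D g z) B

end Kodaira

section Fibrations

variable (E E' : Type) [NormedAddCommGroup E] [NormedSpace ℂ E]
  [NormedAddCommGroup E'] [NormedSpace ℂ E']

/-- A fibration `f : X → Y` between compact connected complex manifolds (modelled on `E`, `E'`)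
together with a rational SNC boundary on `X`. -/
structure OrbFib where
  X : Type u
  Y : Type u
  [topX : TopologicalSpace X]
  [topY : TopologicalSpace Y]
  [chX : ChartedSpace E X]
  [chY : ChartedSpace E' Y]
  [manX : IsManifold 𝓘(ℂ, E) ω X]
  [manY : IsManifold 𝓘(ℂ, E') ω Y]
  [t2X : T2Space X]
  [t2Y : T2Space Y]
  [cptX : CompactSpace X]
  [cptY : CompactSpace Y]
  [conX : ConnectedSpace X]
  [conY : ConnectedSpace Y]
  f : X → Y
  hol : ContMDiff 𝓘(ℂ, E) 𝓘(ℂ, E') ω f
  surj : Function.Surjective f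
  fib : ∀ y, IsConnected (f ⁻¹' {y})
  Δ : Set X → ℝ
  snc : IsSNCBoundary E Δ

attribute [instance] OrbFib.topX OrbFib.topY OrbFib.chX OrbFib.chY OrbFib.manX OrbFib.manY
  OrbFib.t2X OrbFib.t2Y OrbFib.cptX OrbFib.cptY OrbFib.conX OrbFib.conY

variable {E E'}

/-- `O'` lies over `O`: a commutative square `f ∘ u = v ∘ f'` with `u`, `v` proper bimeromorphic,
`u_* Δ' = Δ` and `ord_{D'}(u^* D) m_{Δ'}(D') ≥ m_Δ(D)` whenever `ord_{D'}(u^* D) > 0`. -/
def Over (O' O : OrbFib.{u} E E') : Prop :=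
  ∃ (u : O'.X → O.X) (v : O'.Y → O.Y), IsModification E E u ∧ IsModification E' E' v ∧
    (∀ x, O.f (u x) = v (O'.f x)) ∧
    (∀ D', IsPrimeDivisor E D' → IsPrimeDivisor E (u '' D') → O'.Δ D' = O.Δ (u '' D')) ∧
    ∀ D D', IsPrimeDivisor E D → IsPrimeDivisor E D' → 0 < ordAlong E E u D D' →
      mult O.Δ D ≤ (ordAlong E E u D D' : ℝ≥0∞) * mult O'.Δ D'

/-- Campana's orbifold base dimension `κ(f | Δ)`. -/
noncomputable def kodBase (O : OrbFib.{u} E E') : WithBot ℕ∞ :=
  ⨅ (O' : OrbFib.{u} E E') (_ : Relation.EqvGen Over O O'), kodaira E' (orbBase E E' O'.f O'.Δ)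

/-- `i : F → X` identifies the complex manifold `F` with the fibre of `f` over `y`. -/
structure IsFibre (O : OrbFib.{u} E E') (y : O.Y) (E₀ : Type) [NormedAddCommGroup E₀]
    [NormedSpace ℂ E₀] {F : Type u} [TopologicalSpace F] [ChartedSpace E₀ F] (i : F → O.X) :
    Prop where
  hol : ContMDiff 𝓘(ℂ, E₀) 𝓘(ℂ, E) ω i
  emb : Topology.IsEmbedding i
  imm : ∀ p, Function.Injective (mfderiv 𝓘(ℂ, E₀) 𝓘(ℂ, E) i p)
  range_eq : range i = O.f ⁻¹' {y}

/-- Campana's inequality `κ(X, K_X + Δ) ≥ κ(F, K_F + Δ|_F) + κ(f | Δ)` for the very general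
fibre `F` (all fibres over points outside countably many proper analytic subsets). -/
def CampanaInequality (O : OrbFib.{u} E E') : Prop :=
  ∃ A : ℕ → Set O.Y, (∀ n, IsAnalytic E' (A n) ∧ A n ≠ univ) ∧ ∀ y, (∀ n, y ∉ A n) →
    ∀ (E₀ : Type) [NormedAddCommGroup E₀] [NormedSpace ℂ E₀] [FiniteDimensional ℂ E₀],
    Module.finrank ℂ E₀ + Module.finrank ℂ E' = Module.finrank ℂ E →
    ∀ (F : Type u) [TopologicalSpace F] [ChartedSpace E₀ F] [IsManifold 𝓘(ℂ, E₀) ω F] (i : F → O.X),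
    IsFibre O y E₀ i →
    kod E₀ (fun (D : Set O.X) (p : F) (g : F → ℂ) =>
      ∃ e, IsLocalEq E D e (i p) ∧ ∀ᶠ q in 𝓝 p, g q = e (i q)) O.Δ + kodBase O
    ≤ kodaira E O.Δ

end Fibrations

end Vale.Agent.P281

namespace Vale.Agent.P281

open scoped Manifold ContDiff Topology
open Set

universe u

variable (E E' : Type) [NormedAddCommGroup E] [NormedSpace ℂ E]
  [NormedAddCommGroup E'] [NormedSpace ℂ E']
variable {X Y : Type u} [TopologicalSpace X] [ChartedSpace E X]
  [TopologicalSpace Y] [ChartedSpace E' Y]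

/-- `v` is, near `x`, a holomorphic lift of the points of `X` to homogeneous coordinates. -/
def IsLift {r : ℕ} (f : X → Y) (π : Y → (Fin (r + 1) → ℂ) → X) (v : X → (Fin (r + 1) → ℂ))
    (x : X) : Prop :=
  ContMDiffAt 𝓘(ℂ, E) 𝓘(ℂ, Fin (r + 1) → ℂ) ω v x ∧ ∀ᶠ z in 𝓝 x, v z ≠ 0 ∧ π (f z) (v z) = z

/-- A trivialization `f ⁻¹ U ≅ U × ℙ^r` over the open set `U`, given by homogeneous coordinates:
`π y v` is the point over `y` with homogeneous coordinates `v ≠ 0`. -/
structure IsTrivialization {r : ℕ} (f : X → Y) (U : Set Y) (π : Y → (Fin (r + 1) → ℂ) → X) :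
    Prop where
  isOpen : IsOpen U
  proj : ∀ y ∈ U, ∀ v ≠ 0, f (π y v) = y
  hol : ∀ y ∈ U, ∀ v ≠ 0, ContMDiffAt (𝓘(ℂ, E').prod 𝓘(ℂ, Fin (r + 1) → ℂ)) 𝓘(ℂ, E) ω
    (fun p : Y × (Fin (r + 1) → ℂ) => π p.1 p.2) (y, v)
  eq_iff : ∀ y ∈ U, ∀ v ≠ 0, ∀ w ≠ 0, π y v = π y w ↔ ∃ c : ℂ, w = c • v
  lift : ∀ x, f x ∈ U → ∃ v, IsLift E f π v x

/-- A `ℙ^r`-bundle structure on `f : X → Y` (projective linear transition functions). -/
structure ProjectiveBundle (f : X → Y) (r : ℕ) where
  ι : Type u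
  U : ι → Set Y
  π : ι → Y → (Fin (r + 1) → ℂ) → X
  cover : ∀ y, ∃ a, y ∈ U a
  triv : ∀ a, IsTrivialization E E' f (U a) (π a)
  trans : ∀ a b, ∀ y ∈ U a ∩ U b, ∃ g : Y → Matrix (Fin (r + 1)) (Fin (r + 1)) ℂ,
    (∀ i j, HolAt E' (fun y' => g y' i j) y) ∧ ∀ᶠ y' in 𝓝 y, (g y').det ≠ 0 ∧
      ∀ v ≠ 0, π a y' v = π b y' ((g y').mulVec v)

variable {E E'}

/-- `D` is a relative hypersurface of degree `d`: over each `U a` it is the zero divisor of a form
`∑ p_J(y) v_{J 1} ... v_{J d}` of degree `d` in the homogeneous coordinates, with holomorphic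
coefficients (that is, `D` is the zero divisor of a section of `O(d) ⊗ f^* M`). -/
def ProjectiveBundle.IsRelHypersurface {f : X → Y} {r : ℕ} (B : ProjectiveBundle E E' f r)
    (D : Set X) (d : ℕ) : Prop :=
  ∀ a, ∃ p : (Fin d → Fin (r + 1)) → Y → ℂ, (∀ J, ∀ y ∈ B.U a, HolAt E' (p J) y) ∧
    ∀ x v, f x ∈ B.U a → IsLift E f (B.π a) v x →
      IsLocalEq E D (fun z => ∑ J, p J (f z) * ∏ l, v z (J l)) x

/-- The fibre of `f` over `y` is transversal to (all the strata of) the SNC boundary `Δ`. -/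
def IsTransversal (f : X → Y) (Δ : Set X → ℝ) (y : Y) : Prop :=
  ∀ (x : X) (g : Set X → X → ℂ), f x = y →
    (∀ D, Δ D ≠ 0 → x ∈ D → IsLocalEq E D (g D) x) →
    LinearIndependent ℂ (fun D : {D : Set X // Δ D ≠ 0 ∧ x ∈ D} =>
      (dif E (g D.1) x : E →ₗ[ℂ] ℂ).domRestrict
        (LinearMap.ker (mfderiv 𝓘(ℂ, E) 𝓘(ℂ, E') f x : E →L[ℂ] E').toLinearMap))

end Vale.Agent.P281

namespace Vale.Agent.P281

open scoped Manifold ContDiff Topology
open Set Filter

universe u

section Basic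

variable {E : Type} [NormedAddCommGroup E] [NormedSpace ℂ E]
variable {X : Type u} [TopologicalSpace X] [ChartedSpace E X] [IsManifold 𝓘(ℂ, E) ω X]
variable {V : Type*} [NormedAddCommGroup V] [NormedSpace ℂ V]

/-- Holomorphic at `x` for vector valued maps. -/
def HolV (E : Type) [NormedAddCommGroup E] [NormedSpace ℂ E] {X : Type u} [TopologicalSpace X]
    [ChartedSpace E X] {V : Type*} [NormedAddCommGroup V] [NormedSpace ℂ V]
    (h : X → V) (x : X) : Prop := ContMDiffAt 𝓘(ℂ, E) 𝓘(ℂ, V) ω h x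

/-- derivative of vector valued maps. -/
noncomputable def dV (E : Type) [NormedAddCommGroup E] [NormedSpace ℂ E] {X : Type u}
    [TopologicalSpace X]
    [ChartedSpace E X] {V : Type*} [NormedAddCommGroup V] [NormedSpace ℂ V]
    (h : X → V) (x : X) : E →L[ℂ] V := mfderiv 𝓘(ℂ, E) 𝓘(ℂ, V) h x

omit [IsManifold 𝓘(ℂ, E) ω X] in
theorem holAt_iff_holV {g : X → ℂ} {x : X} : HolAt E g x ↔ HolV E g x := Iff.rfl

omit [IsManifold 𝓘(ℂ, E) ω X] in
theorem dif_eq_dV {g : X → ℂ} {x : X} : dif E g x = dV E g x := rfl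

theorem HolV.eventually {h : X → V} {x : X} (hh : HolV E h x) : ∀ᶠ z in 𝓝 x, HolV E h z :=
  (contMDiffAt_iff_contMDiffAt_nhds (by simp)).1 hh

omit [IsManifold 𝓘(ℂ, E) ω X] in
theorem HolV.mdiff {h : X → V} {x : X} (hh : HolV E h x) :
    MDifferentiableAt 𝓘(ℂ, E) 𝓘(ℂ, V) h x :=
  ContMDiffAt.mdifferentiableAt hh (by simp)

omit [IsManifold 𝓘(ℂ, E) ω X] in
theorem HolV.continuousAt {h : X → V} {x : X} (hh : HolV E h x) : ContinuousAt h x :=
  ContMDiffAt.continuousAt hh

omit [IsManifold 𝓘(ℂ, E) ω X] in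
theorem HolV.congr {h h' : X → V} {x : X} (hh : HolV E h x) (he : h' =ᶠ[𝓝 x] h) : HolV E h' x :=
  ContMDiffAt.congr_of_eventuallyEq hh he

/-- local representative -/
theorem HolV.rep {h : X → V} {x₀ x : X} (hx : x ∈ (chartAt E x₀).source) (hh : HolV E h x) :
    ContDiffAt ℂ ω (h ∘ (chartAt E x₀).symm) (chartAt E x₀ x) := by
  have := (contMDiffAt_iff_of_mem_source (I := 𝓘(ℂ, E)) (I' := 𝓘(ℂ, V)) (n := ω)
    (x := x₀) (x' := x) (y := h x) (f := h) hx (by simp)).1 hh
  have h2 := this.2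
  simp only [mfld_simps] at h2
  rw [contDiffWithinAt_univ] at h2
  exact h2

theorem HolV.of_rep {h : X → V} {x₀ x : X} (hx : x ∈ (chartAt E x₀).source)
    (hh : ContDiffAt ℂ ω (h ∘ (chartAt E x₀).symm) (chartAt E x₀ x)) : HolV E h x := by
  refine (contMDiffAt_iff_of_mem_source (I := 𝓘(ℂ, E)) (I' := 𝓘(ℂ, V)) (n := ω)
    (x := x₀) (x' := x) (y := h x) (f := h) hx (by simp)).2 ⟨?_, ?_⟩
  · have h1 : ContinuousAt ((h ∘ (chartAt E x₀).symm) ∘ (chartAt E x₀)) x :=
      ContinuousAt.comp hh.continuousAt ((chartAt E x₀).continuousAt hx)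
    refine h1.congr ?_
    filter_upwards [(chartAt E x₀).open_source.mem_nhds hx] with z hz
    simp [(chartAt E x₀).left_inv hz]
  · simp only [mfld_simps]
    rw [contDiffWithinAt_univ]
    exact hh

theorem HolV.chart {x₀ x : X} (hx : x ∈ (chartAt E x₀).source) :
    HolV E (chartAt E x₀ : X → E) x :=
  contMDiffAt_of_mem_maximalAtlas (IsManifold.chart_mem_maximalAtlas _) hx

/-- chain rule through the chart at `x₀`. -/
theorem dV_eq_chart {h : X → V} {x₀ x : X} (hx : x ∈ (chartAt E x₀).source) (hh : HolV E h x) :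
    dV E h x = (fderiv ℂ (h ∘ (chartAt E x₀).symm) (chartAt E x₀ x)).comp
      (dV E (chartAt E x₀ : X → E) x) := by
  have h1 : h =ᶠ[𝓝 x] (h ∘ (chartAt E x₀).symm) ∘ (chartAt E x₀ : X → E) := by
    filter_upwards [(chartAt E x₀).open_source.mem_nhds hx] with z hz
    simp [(chartAt E x₀).left_inv hz]
  have h2 : dV E h x = dV E ((h ∘ (chartAt E x₀).symm) ∘ (chartAt E x₀ : X → E)) x := by
    unfold dV; rw [h1.mfderiv_eq]
  rw [h2]
  unfold dV
  rw [mfderiv_comp x (I' := 𝓘(ℂ, E))]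
  · rw [mfderiv_eq_fderiv]
    rfl
  · exact ((hh.rep hx).differentiableAt (by simp)).mdifferentiableAt
  · exact (HolV.chart hx).mdiff

/-- a chart has a left inverse for its differential -/
theorem dV_chart_leftInv {x₀ x : X} (hx : x ∈ (chartAt E x₀).source) :
    ∃ A : E →L[ℂ] E, A.comp (dV E (chartAt E x₀ : X → E) x) = ContinuousLinearMap.id ℂ E := by
  have hmem : chartAt E x₀ ∈ IsManifold.maximalAtlas 𝓘(ℂ, E) ω X :=
    IsManifold.chart_mem_maximalAtlas _
  refine ⟨mfderiv 𝓘(ℂ, E) 𝓘(ℂ, E) (chartAt E x₀).symm (chartAt E x₀ x), ?_⟩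
  have h1 : MDifferentiableAt 𝓘(ℂ, E) 𝓘(ℂ, E) (chartAt E x₀).symm (chartAt E x₀ x) :=
    (contMDiffAt_symm_of_mem_maximalAtlas hmem
      ((chartAt E x₀).map_source hx)).mdifferentiableAt (by simp)
  have h2 : MDifferentiableAt 𝓘(ℂ, E) 𝓘(ℂ, E) (chartAt E x₀ : X → E) x :=
    (HolV.chart hx).mdiff
  have h3 := mfderiv_comp x h1 h2
  have h4 : ((chartAt E x₀).symm ∘ (chartAt E x₀ : X → E)) =ᶠ[𝓝 x] id := by
    filter_upwards [(chartAt E x₀).open_source.mem_nhds hx] with z hz
    simp [(chartAt E x₀).left_inv hz]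
  rw [h4.mfderiv_eq, mfderiv_id] at h3
  exact h3.symm

omit [IsManifold 𝓘(ℂ, E) ω X] [TopologicalSpace X] [ChartedSpace E X] in
theorem clm_det_comp (A B : V →L[ℂ] V) : (A.comp B).det = A.det * B.det :=
  LinearMap.det_comp _ _

theorem jac_chart_ne_zero [FiniteDimensional ℂ E] {x₀ x : X}
    (hx : x ∈ (chartAt E x₀).source) : jac E (chartAt E x₀ : X → E) x ≠ 0 := by
  obtain ⟨A, hA⟩ := dV_chart_leftInv (E := E) hx
  intro h
  have : (A.comp (dV E (chartAt E x₀ : X → E) x)).det = 1 := by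
    rw [hA]; simp [ContinuousLinearMap.det]
  have h2 : (A.comp (dV E (chartAt E x₀ : X → E) x)).det =
      A.det * (dV E (chartAt E x₀ : X → E) x).det := clm_det_comp _ _
  rw [h2] at this
  have h3 : (dV E (chartAt E x₀ : X → E) x).det = 0 := h
  rw [h3] at this
  simp at this

theorem dV_smul {lam : X → ℂ} {v : X → V} {x : X} (hl : HolV E lam x) (hv : HolV E v x) :
    dV E (fun z => lam z • v z) x = lam x • dV E v x + (dV E lam x).smulRight (v x) := by
  have hx : x ∈ (chartAt E x).source := mem_chart_source E x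
  have hlr := (hl.rep hx).differentiableAt (by simp)
  have hvr := (hv.rep hx).differentiableAt (by simp)
  have hs : HolV E (fun z => lam z • v z) x := by
    refine HolV.of_rep hx ?_
    exact (hl.rep hx).smul (hv.rep hx)
  rw [dV_eq_chart hx hs, dV_eq_chart hx hl, dV_eq_chart hx hv]
  have : ((fun z => lam z • v z) ∘ (chartAt E x).symm) =
      fun w => (lam ∘ (chartAt E x).symm) w • (v ∘ (chartAt E x).symm) w := rfl
  rw [this, fderiv_fun_smul hlr hvr]
  ext ξ
  simp [(chartAt E x).left_inv hx]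

theorem HolV.smul {lam : X → ℂ} {v : X → V} {x : X} (hl : HolV E lam x) (hv : HolV E v x) :
    HolV E (fun z => lam z • v z) x := by
  have hx : x ∈ (chartAt E x).source := mem_chart_source E x
  exact HolV.of_rep hx ((hl.rep hx).smul (hv.rep hx))

theorem HolV.mul {g h : X → ℂ} {x : X} (hg : HolV E g x) (hh : HolV E h x) :
    HolV E (fun z => g z * h z) x := hg.smul hh

theorem HolV.comp_contDiff {V' : Type*} [NormedAddCommGroup V'] [NormedSpace ℂ V'] {G : V → V'}
    {v : X → V} {x : X} (hG : ContDiffAt ℂ ω G (v x)) (hv : HolV E v x) :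
    HolV E (fun z => G (v z)) x := by
  have hx : x ∈ (chartAt E x).source := mem_chart_source E x
  refine HolV.of_rep hx ?_
  have : ((fun z => G (v z)) ∘ (chartAt E x).symm) = G ∘ (v ∘ (chartAt E x).symm) := rfl
  rw [this]
  refine ContDiffAt.comp _ ?_ (hv.rep hx)
  simpa [(chartAt E x).left_inv hx] using hG

theorem dV_comp_contDiff {V' : Type*} [NormedAddCommGroup V'] [NormedSpace ℂ V'] {G : V → V'}
    {v : X → V} {x : X} (hG : ContDiffAt ℂ ω G (v x)) (hv : HolV E v x) :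
    dV E (fun z => G (v z)) x = (fderiv ℂ G (v x)).comp (dV E v x) := by
  have hx : x ∈ (chartAt E x).source := mem_chart_source E x
  rw [dV_eq_chart hx (HolV.comp_contDiff hG hv), dV_eq_chart hx hv]
  have : ((fun z => G (v z)) ∘ (chartAt E x).symm) = G ∘ (v ∘ (chartAt E x).symm) := rfl
  rw [this, fderiv_comp]
  · simp only [Function.comp_apply, (chartAt E x).left_inv hx, ContinuousLinearMap.comp_assoc]
  · simpa only [Function.comp_apply, (chartAt E x).left_inv hx] using hG.differentiableAt (by simp)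
  · exact (hv.rep hx).differentiableAt (by simp)

omit [IsManifold 𝓘(ℂ, E) ω X] [TopologicalSpace X] [ChartedSpace E X] in
theorem contDiff_det [FiniteDimensional ℂ V] : ContDiff ℂ ω (fun A : V →L[ℂ] V => A.det) := by
  classical
  let b := Module.finBasis ℂ V
  have h : (fun A : V →L[ℂ] V => A.det) =
      fun A : V →L[ℂ] V => ∑ σ : Equiv.Perm (Fin (Module.finrank ℂ V)),
        ((Equiv.Perm.sign σ : ℤ) : ℂ) *
          ∏ i, (LinearMap.toMatrix b b (A : V →ₗ[ℂ] V)) (σ i) i := by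
    funext A
    rw [ContinuousLinearMap.det, ← LinearMap.det_toMatrix b, Matrix.det_apply']
  rw [h]
  refine ContDiff.sum fun σ _ => contDiff_const.mul (contDiff_prod fun i _ => ?_)
  let l : (V →L[ℂ] V) →ₗ[ℂ] ℂ :=
    { toFun := fun A => (LinearMap.toMatrix b b (A : V →ₗ[ℂ] V)) (σ i) i
      map_add' := by intro A B; simp only [ContinuousLinearMap.toLinearMap_add, map_add,
                                  Matrix.add_apply]
      map_smul' := by intro c A; simp }
  exact (LinearMap.toContinuousLinearMap l).contDiff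

end Basic

end Vale.Agent.P281

namespace Vale.Agent.P281

open scoped Manifold ContDiff Topology
open Set Filter

universe u

section Jmap

variable {E E' : Type} [NormedAddCommGroup E] [NormedSpace ℂ E]
  [NormedAddCommGroup E'] [NormedSpace ℂ E']
variable {X Y : Type u} [TopologicalSpace X] [ChartedSpace E X] [IsManifold 𝓘(ℂ, E) ω X]
  [TopologicalSpace Y] [ChartedSpace E' Y] [IsManifold 𝓘(ℂ, E') ω Y]
variable {W : Type} [NormedAddCommGroup W] [NormedSpace ℂ W]

/-- derivative of a map between manifolds. -/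
noncomputable def dM (E E' : Type) [NormedAddCommGroup E] [NormedSpace ℂ E]
    [NormedAddCommGroup E'] [NormedSpace ℂ E'] {X Y : Type u} [TopologicalSpace X]
    [ChartedSpace E X] [TopologicalSpace Y] [ChartedSpace E' Y] (f : X → Y) (x : X) :
    E →L[ℂ] E' := mfderiv 𝓘(ℂ, E) 𝓘(ℂ, E') f x

/-- holomorphic maps near a point. -/
def HolM (E E' : Type) [NormedAddCommGroup E] [NormedSpace ℂ E]
    [NormedAddCommGroup E'] [NormedSpace ℂ E'] {X Y : Type u} [TopologicalSpace X]
    [ChartedSpace E X] [TopologicalSpace Y] [ChartedSpace E' Y] (f : X → Y) (x : X) : Prop :=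
  ContMDiffAt 𝓘(ℂ, E) 𝓘(ℂ, E') ω f x

/-- the map `(ξ, c) ↦ (Df ξ, Dv ξ + c v)`. -/
noncomputable def Lmap (f : X → Y) (v : X → W) (x : X) : (E × ℂ) →L[ℂ] (E' × W) :=
  ((dM E E' f x).comp (ContinuousLinearMap.fst ℂ E ℂ)).prod
    ((dV E v x).comp (ContinuousLinearMap.fst ℂ E ℂ) +
      (ContinuousLinearMap.snd ℂ E ℂ).smulRight (v x))

omit [IsManifold 𝓘(ℂ, E) ω X] [IsManifold 𝓘(ℂ, E') ω Y] in
@[simp] theorem Lmap_apply (f : X → Y) (v : X → W) (x : X) (ξ : E) (c : ℂ) :
    Lmap (E := E) (E' := E') f v x (ξ, c) = (dM E E' f x ξ, dV E v x ξ + c • v x) := by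
  simp only [Lmap, ContinuousLinearMap.prod_apply, ContinuousLinearMap.comp_apply,
    ContinuousLinearMap.coe_fst', add_apply, ContinuousLinearMap.smulRight_apply,
    ContinuousLinearMap.coe_snd']

variable (e : (E × ℂ) ≃L[ℂ] (E' × W))

/-- the relative Jacobian of a homogeneous lift. -/
noncomputable def J (f : X → Y) (v : X → W) (x : X) : ℂ :=
  ((Lmap (E := E) (E' := E') f v x).comp (e.symm : (E' × W) →L[ℂ] (E × ℂ))).det

omit [IsManifold 𝓘(ℂ, E) ω X] [IsManifold 𝓘(ℂ, E') ω Y] [TopologicalSpace X]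
  [ChartedSpace E X] [TopologicalSpace Y] [ChartedSpace E' Y] in
theorem det_conj_e (A : (E × ℂ) →L[ℂ] (E × ℂ)) (L : (E × ℂ) →L[ℂ] (E' × W)) :
    ((L.comp A).comp (e.symm : (E' × W) →L[ℂ] (E × ℂ))).det =
      (L.comp (e.symm : (E' × W) →L[ℂ] (E × ℂ))).det * A.det := by
  have h1 : (L.comp A).comp (e.symm : (E' × W) →L[ℂ] (E × ℂ)) =
      (L.comp (e.symm : (E' × W) →L[ℂ] (E × ℂ))).comp
        (((e : (E × ℂ) →L[ℂ] (E' × W)).comp A).comp (e.symm : (E' × W) →L[ℂ] (E × ℂ))) := by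
    ext w <;> simp
  rw [h1, clm_det_comp]
  congr 1
  exact LinearMap.det_conj (A : (E × ℂ) →ₗ[ℂ] (E × ℂ)) e.toLinearEquiv

omit [IsManifold 𝓘(ℂ, E) ω X] [IsManifold 𝓘(ℂ, E') ω Y] [TopologicalSpace X]
  [ChartedSpace E X] [TopologicalSpace Y] [ChartedSpace E' Y] in
/-- shears have determinant one. -/
theorem det_shear {V V' : Type*} [NormedAddCommGroup V] [NormedSpace ℂ V]
    [NormedAddCommGroup V'] [NormedSpace ℂ V'] [FiniteDimensional ℂ V] [FiniteDimensional ℂ V']
    (N : V →L[ℂ] V') :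
    ((ContinuousLinearMap.fst ℂ V V').prod
      (N.comp (ContinuousLinearMap.fst ℂ V V') + ContinuousLinearMap.snd ℂ V V')).det = 1 := by
  set T : (V →L[ℂ] V') → ((V × V') →L[ℂ] (V × V')) := fun N =>
    (ContinuousLinearMap.fst ℂ V V').prod
      (N.comp (ContinuousLinearMap.fst ℂ V V') + ContinuousLinearMap.snd ℂ V V') with hT
  have hadd : ∀ N N', T (N + N') = (T N).comp (T N') := by
    intro N N'
    ext w <;> simp [hT]
  have hzero : T 0 = ContinuousLinearMap.id ℂ _ := by ext w <;> simp [hT]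
  let D : (V × V') →L[ℂ] (V × V') :=
    (ContinuousLinearMap.fst ℂ V V').prod ((2 : ℂ) • ContinuousLinearMap.snd ℂ V V')
  let D' : (V × V') →L[ℂ] (V × V') :=
    (ContinuousLinearMap.fst ℂ V V').prod ((2 : ℂ)⁻¹ • ContinuousLinearMap.snd ℂ V V')
  have hDD' : D.comp D' = ContinuousLinearMap.id ℂ _ := by ext w <;> simp [D, D']
  have h2 : T (N + N) = (D.comp (T N)).comp D' := by
    refine ContinuousLinearMap.ext fun p => ?_
    obtain ⟨a, b⟩ := p
    simp only [hT, D, D', ContinuousLinearMap.comp_apply, ContinuousLinearMap.prod_apply,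
      ContinuousLinearMap.coe_fst', ContinuousLinearMap.coe_snd', add_apply, smul_apply]
    rw [smul_add, smul_smul, mul_inv_cancel₀ (two_ne_zero), one_smul, two_smul]
  have hid : (ContinuousLinearMap.id ℂ (V × V')).det = 1 := by
    simp [ContinuousLinearMap.det]
  have h3 : (T N).det * (T N).det = (T N).det := by
    have := congrArg ContinuousLinearMap.det h2
    rw [hadd, clm_det_comp, clm_det_comp, clm_det_comp] at this
    have h4 : D.det * D'.det = 1 := by rw [← clm_det_comp, hDD', hid]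
    rw [this]
    calc D.det * (T N).det * D'.det = (D.det * D'.det) * (T N).det := by ring
      _ = (T N).det := by rw [h4, one_mul]
  have h5 : (T N).det ≠ 0 := by
    intro h0
    have h6 : T (N + -N) = (T N).comp (T (-N)) := hadd _ _
    rw [add_neg_cancel, hzero] at h6
    have := congrArg ContinuousLinearMap.det h6
    rw [clm_det_comp, h0, zero_mul, hid] at this
    exact one_ne_zero this
  exact mul_left_cancel₀ h5 (by rw [h3, mul_one])

theorem J_smul [FiniteDimensional ℂ E] [FiniteDimensional ℂ E'] [FiniteDimensional ℂ W]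
    {f : X → Y} {v : X → W} {lam : X → ℂ} {x : X}
    (hl : HolV E lam x) (h0 : lam x ≠ 0) (hv : HolV E v x) :
    J e f (fun z => lam z • v z) x = lam x ^ (Module.finrank ℂ W) * J e f v x := by
  let S : (E' × W) →L[ℂ] (E' × W) :=
    (ContinuousLinearMap.fst ℂ E' W).prod (lam x • ContinuousLinearMap.snd ℂ E' W)
  let Sh : (E × ℂ) →L[ℂ] (E × ℂ) :=
    (ContinuousLinearMap.fst ℂ E ℂ).prod
      (((lam x)⁻¹ • dV E lam x).comp (ContinuousLinearMap.fst ℂ E ℂ) +
        ContinuousLinearMap.snd ℂ E ℂ)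
  have hL : Lmap (E := E) (E' := E') f (fun z => lam z • v z) x =
      S.comp ((Lmap (E := E) (E' := E') f v x).comp Sh) := by
    refine ContinuousLinearMap.ext fun p => ?_
    obtain ⟨ξ, c⟩ := p
    have hSh : Sh (ξ, c) = (ξ, (lam x)⁻¹ * dV E lam x ξ + c) := by
      simp [Sh]
    rw [Lmap_apply, dV_smul hl hv, ContinuousLinearMap.comp_apply,
      ContinuousLinearMap.comp_apply, hSh, Lmap_apply]
    have hSa : ∀ a b, S (a, b) = (a, lam x • b) := by intro a b; simp [S]
    rw [hSa]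
    congr 1
    simp only [add_apply, smul_apply, ContinuousLinearMap.smulRight_apply]
    rw [smul_add, smul_smul, smul_smul, mul_add, mul_inv_cancel_left₀ h0, add_smul, ← add_assoc,
      mul_comm c]
  have hS : S.det = lam x ^ (Module.finrank ℂ W) := by
    have : S.det = LinearMap.det (LinearMap.prodMap (LinearMap.id : E' →ₗ[ℂ] E')
        (lam x • (LinearMap.id : W →ₗ[ℂ] W))) := rfl
    rw [this, LinearMap.det_prodMap]
    simp only [LinearMap.det_id, LinearMap.det_smul, mul_one, one_mul]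
  unfold J
  rw [hL, ContinuousLinearMap.comp_assoc, clm_det_comp, hS, det_conj_e]
  have : Sh.det = 1 := det_shear _
  rw [this, mul_one]

theorem HolV.eval {n : ℕ} {v : X → (Fin n → ℂ)} {x : X} (hv : HolV E v x) (i : Fin n) :
    HolV E (fun z => v z i) x :=
  HolV.comp_contDiff (G := fun w : Fin n → ℂ => w i)
    ((ContinuousLinearMap.proj (R := ℂ) (φ := fun _ : Fin n => ℂ) i).contDiff.contDiffAt) hv

theorem HolV.pi {n : ℕ} {v : X → (Fin n → ℂ)} {x : X} (hv : ∀ i, HolV E (fun z => v z i) x) :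
    HolV E v x := by
  have hx : x ∈ (chartAt E x).source := mem_chart_source E x
  refine HolV.of_rep hx ?_
  rw [contDiffAt_pi]
  intro i
  exact (hv i).rep hx

theorem dV_apply {n : ℕ} {v : X → (Fin n → ℂ)} {x : X} (hv : HolV E v x) (i : Fin n) (ξ : E) :
    dV E v x ξ i = dV E (fun z => v z i) x ξ := by
  have := dV_comp_contDiff (G := fun w : Fin n → ℂ => w i)
    ((ContinuousLinearMap.proj (R := ℂ) (φ := fun _ : Fin n => ℂ) i).contDiff.contDiffAt) hv
  rw [this]
  have h2 : fderiv ℂ (fun w : Fin n → ℂ => w i) (v x) =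
      ContinuousLinearMap.proj (R := ℂ) (φ := fun _ : Fin n => ℂ) i :=
    (ContinuousLinearMap.proj (R := ℂ) (φ := fun _ : Fin n => ℂ) i).fderiv
  rw [h2]
  rfl

/-- composition of a function with a holomorphic map -/
theorem HolV.comp {V : Type*} [NormedAddCommGroup V] [NormedSpace ℂ V] {h : Y → V} {f : X → Y}
    {x : X} (hh : HolV E' h (f x)) (hf : HolM E E' f x) : HolV E (fun z => h (f z)) x :=
  ContMDiffAt.comp x hh hf

omit [IsManifold 𝓘(ℂ, E) ω X] [IsManifold 𝓘(ℂ, E') ω Y] in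
theorem dV_comp {V : Type*} [NormedAddCommGroup V] [NormedSpace ℂ V] {h : Y → V} {f : X → Y}
    {x : X} (hh : HolV E' h (f x)) (hf : HolM E E' f x) :
    dV E (fun z => h (f z)) x = (dV E' h (f x)).comp (dM E E' f x) := by
  have := mfderiv_comp x (hh.mdiff) (ContMDiffAt.mdifferentiableAt hf (by simp))
  exact this

theorem J_mulVec {n : ℕ} [FiniteDimensional ℂ E] [FiniteDimensional ℂ E']
    (e : (E × ℂ) ≃L[ℂ] (E' × (Fin n → ℂ)))
    {f : X → Y} {v : X → (Fin n → ℂ)} {g : Y → Matrix (Fin n) (Fin n) ℂ} {x : X}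
    (hf : HolM E E' f x)
    (hg : ∀ i j, HolV E' (fun y => g y i j) (f x)) (h0 : (g (f x)).det ≠ 0) (hv : HolV E v x) :
    J e f (fun z => (g (f z)).mulVec (v z)) x = (g (f x)).det * J e f v x := by
  classical
  -- derivative of the matrix applied to `v x`
  let N : E' →L[ℂ] (Fin n → ℂ) := ContinuousLinearMap.pi fun i =>
    ∑ j, (dV E' (fun y => g y i j) (f x)).smulRight (v x j)
  let G : (Fin n → ℂ) →L[ℂ] (Fin n → ℂ) :=
    LinearMap.toContinuousLinearMap (Matrix.toLin' (g (f x)))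
  let G' : (Fin n → ℂ) →L[ℂ] (Fin n → ℂ) :=
    LinearMap.toContinuousLinearMap (Matrix.toLin' (g (f x))⁻¹)
  have hGG' : ∀ w, G (G' w) = w := by
    intro w
    simp only [G, G', LinearMap.coe_toContinuousLinearMap', Matrix.toLin'_apply,
      Matrix.mulVec_mulVec]
    rw [Matrix.mul_nonsing_inv _ (Ne.isUnit h0), Matrix.one_mulVec]
  let T : (E' × (Fin n → ℂ)) →L[ℂ] (E' × (Fin n → ℂ)) :=
    (ContinuousLinearMap.fst ℂ E' (Fin n → ℂ)).prod
      ((G'.comp N).comp (ContinuousLinearMap.fst ℂ E' (Fin n → ℂ)) +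
        ContinuousLinearMap.snd ℂ E' (Fin n → ℂ))
  let S : (E' × (Fin n → ℂ)) →L[ℂ] (E' × (Fin n → ℂ)) :=
    (ContinuousLinearMap.fst ℂ E' (Fin n → ℂ)).prod
      (G.comp (ContinuousLinearMap.snd ℂ E' (Fin n → ℂ)))
  have hgi : ∀ i j, HolV E (fun z => g (f z) i j) x := fun i j => (hg i j).comp hf
  have hcomp : ∀ i, HolV E (fun z => (g (f z)).mulVec (v z) i) x := by
    intro i
    have hx : x ∈ (chartAt E x).source := mem_chart_source E x
    refine HolV.of_rep hx ?_
    have : ((fun z => (g (f z)).mulVec (v z) i) ∘ (chartAt E x).symm) =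
        fun w => ∑ j, ((fun z => g (f z) i j) ∘ (chartAt E x).symm) w *
          ((fun z => v z j) ∘ (chartAt E x).symm) w := by
      funext w; simp only [Matrix.mulVec, dotProduct, Function.comp_apply]
    rw [this]
    exact ContDiffAt.sum fun j _ => ((hgi i j).rep hx).mul ((hv.eval j).rep hx)
  have hder : ∀ i (ξ : E), dV E (fun z => (g (f z)).mulVec (v z)) x ξ i =
      ∑ j, (g (f x) i j * dV E v x ξ j + dV E' (fun y => g y i j) (f x) (dM E E' f x ξ) * v x j) := by
    intro i ξ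
    rw [dV_apply (HolV.pi hcomp)]
    have hx : x ∈ (chartAt E x).source := mem_chart_source E x
    rw [dV_eq_chart hx (hcomp i)]
    have : ((fun z => (g (f z)).mulVec (v z) i) ∘ (chartAt E x).symm) =
        fun w => ∑ j, ((fun z => g (f z) i j) ∘ (chartAt E x).symm) w *
          ((fun z => v z j) ∘ (chartAt E x).symm) w := by
      funext w; simp only [Matrix.mulVec, dotProduct, Function.comp_apply]
    rw [this, fderiv_fun_sum]
    · rw [ContinuousLinearMap.comp_apply, ContinuousLinearMap.sum_apply]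
      refine Finset.sum_congr rfl fun j _ => ?_
      rw [fderiv_fun_mul (((hgi i j).rep hx).differentiableAt (by simp))
        (((hv.eval j).rep hx).differentiableAt (by simp))]
      have h1 := congrArg (fun A : E →L[ℂ] ℂ => A ξ) (dV_eq_chart hx (hgi i j))
      have h2 := congrArg (fun A : E →L[ℂ] ℂ => A ξ) (dV_eq_chart hx (hv.eval j))
      simp only [ContinuousLinearMap.comp_apply] at h1 h2
      simp only [add_apply, smul_apply]
      rw [← h1, ← h2, dV_comp (hg i j) hf, dV_apply hv]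
      simp only [Function.comp_apply, (chartAt E x).left_inv hx, smul_eq_mul,
        ContinuousLinearMap.comp_apply]
      ring
    · intro j _
      exact (((hgi i j).rep hx).differentiableAt (by simp)).mul
        (((hv.eval j).rep hx).differentiableAt (by simp))
  have hL : Lmap (E := E) (E' := E') f (fun z => (g (f z)).mulVec (v z)) x =
      (S.comp T).comp (Lmap (E := E) (E' := E') f v x) := by
    refine ContinuousLinearMap.ext fun p => ?_
    obtain ⟨ξ, c⟩ := p
    have hT : ∀ a b, T (a, b) = (a, G' (N a) + b) := by intro a b; simp [T]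
    have hS : ∀ a b, S (a, b) = (a, G b) := by intro a b; simp [S]
    rw [ContinuousLinearMap.comp_apply, ContinuousLinearMap.comp_apply, Lmap_apply, Lmap_apply,
      hT, hS]
    congr 1
    rw [map_add, hGG']
    funext i
    rw [Pi.add_apply, hder, Pi.add_apply]
    simp only [Finset.sum_add_distrib, Pi.smul_apply, Matrix.mulVec, dotProduct, smul_eq_mul,
      ContinuousLinearMap.coe_pi', ContinuousLinearMap.sum_apply,
      ContinuousLinearMap.smulRight_apply, LinearMap.coe_toContinuousLinearMap',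
      Matrix.toLin'_apply, Pi.add_apply, mul_add, N, G]
    rw [Finset.mul_sum]
    have : ∀ j, c * (g (f x) i j * v x j) = g (f x) i j * (c * v x j) := fun j => by ring
    simp only [this]
    ring
  have hS : S.det = (g (f x)).det := by
    have : S.det = LinearMap.det (LinearMap.prodMap (LinearMap.id : E' →ₗ[ℂ] E')
        (Matrix.toLin' (g (f x)))) := rfl
    rw [this, LinearMap.det_prodMap, LinearMap.det_toLin']
    simp only [LinearMap.det_id, one_mul]
  have hT : T.det = 1 := det_shear _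
  unfold J
  rw [hL, ContinuousLinearMap.comp_assoc, clm_det_comp, clm_det_comp, hS, hT, mul_one]

end Jmap

end Vale.Agent.P281

namespace Vale.Agent.P281

open scoped Manifold ContDiff Topology
open Set Filter

universe u

variable {E E' : Type} [NormedAddCommGroup E] [NormedSpace ℂ E]
  [NormedAddCommGroup E'] [NormedSpace ℂ E']
variable {X Y : Type u} [TopologicalSpace X] [ChartedSpace E X] [IsManifold 𝓘(ℂ, E) ω X]
  [TopologicalSpace Y] [ChartedSpace E' Y] [IsManifold 𝓘(ℂ, E') ω Y]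
variable {W : Type} [NormedAddCommGroup W] [NormedSpace ℂ W]

omit [IsManifold 𝓘(ℂ, E) ω X] [IsManifold 𝓘(ℂ, E') ω Y] in
theorem HolM.continuousAt {f : X → Y} {x : X} (hf : HolM E E' f x) : ContinuousAt f x :=
  ContMDiffAt.continuousAt hf

theorem HolM.eventually {f : X → Y} {x : X} (hf : HolM E E' f x) :
    ∀ᶠ z in 𝓝 x, HolM E E' f z :=
  (contMDiffAt_iff_contMDiffAt_nhds (by simp)).1 hf

theorem J_local [FiniteDimensional ℂ E] [FiniteDimensional ℂ E'] [FiniteDimensional ℂ W]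
    (e : (E × ℂ) ≃L[ℂ] (E' × W)) {f : X → Y} {v : X → W} {x₀ : X}
    (hf : HolM E E' f x₀) (hv : HolV E v x₀) :
    ∃ H : X → ℂ, HolV E H x₀ ∧ ∀ᶠ x in 𝓝 x₀,
      jac E' (chartAt E' (f x₀)) (f x) * J e f v x = H x * jac E (chartAt E x₀) x := by
  set φ := chartAt E x₀ with hφ
  set ψ := chartAt E' (f x₀) with hψ
  let F : X → E' := fun x => ψ (f x)
  have hF : HolV E F x₀ :=
    HolV.comp (h := (ψ : Y → E')) (HolV.chart (mem_chart_source E' (f x₀))) hf
  let A : E → ((E' × W) →L[ℂ] (E' × W)) := fun w =>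
    (((fderiv ℂ (F ∘ φ.symm) w).comp (ContinuousLinearMap.fst ℂ E ℂ)).prod
      ((fderiv ℂ (v ∘ φ.symm) w).comp (ContinuousLinearMap.fst ℂ E ℂ) +
      (ContinuousLinearMap.snd ℂ E ℂ).smulRight ((v ∘ φ.symm) w))).comp
        (e.symm : (E' × W) →L[ℂ] (E × ℂ))
  have hx0 : x₀ ∈ φ.source := mem_chart_source E x₀
  have hA : ContDiffAt ℂ ω A (φ x₀) := by
    have h1 : ContDiffAt ℂ ω (fderiv ℂ (F ∘ φ.symm)) (φ x₀) :=
      (hF.rep hx0).fderiv_right (by simp)
    have h2 : ContDiffAt ℂ ω (fderiv ℂ (v ∘ φ.symm)) (φ x₀) :=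
      (hv.rep hx0).fderiv_right (by simp)
    have h3 : ContDiffAt ℂ ω (v ∘ φ.symm) (φ x₀) := hv.rep hx0
    refine ContDiffAt.clm_comp ?_ contDiffAt_const
    have hform : (fun w => ((fderiv ℂ (F ∘ φ.symm) w).comp (ContinuousLinearMap.fst ℂ E ℂ)).prod
        ((fderiv ℂ (v ∘ φ.symm) w).comp (ContinuousLinearMap.fst ℂ E ℂ) +
        (ContinuousLinearMap.snd ℂ E ℂ).smulRight ((v ∘ φ.symm) w))) = fun w =>
        (ContinuousLinearMap.inl ℂ E' W).comp
          ((fderiv ℂ (F ∘ φ.symm) w).comp (ContinuousLinearMap.fst ℂ E ℂ)) +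
        (ContinuousLinearMap.inr ℂ E' W).comp
          ((fderiv ℂ (v ∘ φ.symm) w).comp (ContinuousLinearMap.fst ℂ E ℂ) +
        (ContinuousLinearMap.snd ℂ E ℂ).smulRight ((v ∘ φ.symm) w)) := by
      funext w
      refine ContinuousLinearMap.ext fun p => ?_
      simp
    rw [hform]
    refine ContDiffAt.add ?_ ?_
    · exact contDiffAt_const.clm_comp (h1.clm_comp contDiffAt_const)
    · exact contDiffAt_const.clm_comp
        ((h2.clm_comp contDiffAt_const).add (contDiffAt_const.smulRight h3))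
  refine ⟨fun x => (A (φ x)).det, ?_, ?_⟩
  · refine HolV.of_rep hx0 ?_
    have : ContDiffAt ℂ ω (fun w => (A w).det) (φ x₀) :=
      (contDiff_det.contDiffAt).comp _ hA
    refine this.congr_of_eventuallyEq ?_
    filter_upwards [φ.open_target.mem_nhds (φ.map_source hx0)] with w hw
    have : φ ((chartAt E x₀).symm w) = w := φ.right_inv hw
    simp [this]
  · have hfe := hf.eventually
    have hve := hv.eventually
    have hsrc : ∀ᶠ x in 𝓝 x₀, x ∈ φ.source := φ.open_source.mem_nhds hx0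
    have htgt : ∀ᶠ x in 𝓝 x₀, f x ∈ ψ.source :=
      hf.continuousAt.eventually (ψ.open_source.mem_nhds (mem_chart_source E' (f x₀)))
    filter_upwards [hfe, hve, hsrc, htgt, hF.eventually] with x hfx hvx hxs hxt hFx
    -- `jac ψ (f x)` is the determinant of `Dψ × id`
    let S : (E' × W) →L[ℂ] (E' × W) :=
      ((dV E' (ψ : Y → E') (f x)).comp (ContinuousLinearMap.fst ℂ E' W)).prod
        (ContinuousLinearMap.snd ℂ E' W)
    let R : (E × ℂ) →L[ℂ] (E × ℂ) :=
      ((dV E (φ : X → E) x).comp (ContinuousLinearMap.fst ℂ E ℂ)).prod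
        (ContinuousLinearMap.snd ℂ E ℂ)
    have hS : S.det = jac E' ψ (f x) := by
      have : S.det = LinearMap.det (LinearMap.prodMap
        ((dV E' (ψ : Y → E') (f x) : E' →L[ℂ] E') : E' →ₗ[ℂ] E')
        (LinearMap.id : W →ₗ[ℂ] W)) := rfl
      rw [this, LinearMap.det_prodMap, LinearMap.det_id, mul_one]
      rfl
    have hR : R.det = jac E φ x := by
      have : R.det = LinearMap.det (LinearMap.prodMap
        ((dV E (φ : X → E) x : E →L[ℂ] E) : E →ₗ[ℂ] E)
        (LinearMap.id : ℂ →ₗ[ℂ] ℂ)) := rfl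
      rw [this, LinearMap.det_prodMap, LinearMap.det_id, mul_one]
      rfl
    rw [← hS, ← hR]
    unfold J
    rw [← clm_det_comp]
    have key : S.comp ((Lmap (E := E) (E' := E') f v x).comp
        (e.symm : (E' × W) →L[ℂ] (E × ℂ))) =
        ((((fderiv ℂ (F ∘ φ.symm) (φ x)).comp (ContinuousLinearMap.fst ℂ E ℂ)).prod
          ((fderiv ℂ (v ∘ φ.symm) (φ x)).comp (ContinuousLinearMap.fst ℂ E ℂ) +
          (ContinuousLinearMap.snd ℂ E ℂ).smulRight ((v ∘ φ.symm) (φ x)))).comp R).comp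
          (e.symm : (E' × W) →L[ℂ] (E × ℂ)) := by
      rw [← ContinuousLinearMap.comp_assoc]
      congr 1
      refine ContinuousLinearMap.ext fun p => ?_
      obtain ⟨ξ, c⟩ := p
      have hRa : R (ξ, c) = (dV E (φ : X → E) x ξ, c) := rfl
      have hSa : ∀ a b, S (a, b) = (dV E' (ψ : Y → E') (f x) a, b) := fun a b => rfl
      rw [ContinuousLinearMap.comp_apply, ContinuousLinearMap.comp_apply, Lmap_apply, hRa, hSa]
      have h1 : dV E' (ψ : Y → E') (f x) (dM E E' f x ξ) = dV E F x ξ := by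
        have := dV_comp (h := (ψ : Y → E')) (HolV.chart hxt) hfx
        rw [show F = fun z => ψ (f z) from rfl, this]
        rfl
      rw [h1, dV_eq_chart hxs hFx, dV_eq_chart hxs hvx]
      simp only [ContinuousLinearMap.comp_apply, ContinuousLinearMap.prod_apply, add_apply,
        ContinuousLinearMap.smulRight_apply, ContinuousLinearMap.coe_fst',
        ContinuousLinearMap.coe_snd', Function.comp_apply, φ.left_inv hxs]
      rfl
    rw [key, det_conj_e]

omit [IsManifold 𝓘(ℂ, E) ω X] [IsManifold 𝓘(ℂ, E') ω Y] [TopologicalSpace X]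
  [ChartedSpace E X] [TopologicalSpace Y] [ChartedSpace E' Y] in
theorem clm_aux (Q : (E' × W) →L[ℂ] E) (w : W)
    (h : (0 : ℂ →L[ℂ] E) = Q.comp ((0 : ℂ →L[ℂ] E').prod
      (ContinuousLinearMap.toSpanSingleton ℂ w))) : Q (0, w) = 0 := by
  have h5 := congrArg (fun A : ℂ →L[ℂ] E => A 1) h
  simpa only [ContinuousLinearMap.comp_apply, ContinuousLinearMap.prod_apply, zero_apply,
    ContinuousLinearMap.toSpanSingleton_apply, one_smul] using h5.symm

omit [IsManifold 𝓘(ℂ, E) ω X] [IsManifold 𝓘(ℂ, E') ω Y] in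
/-- nonvanishing of the relative Jacobian for lifts in a projective trivialization. -/
theorem J_ne_zero {r : ℕ} [FiniteDimensional ℂ E] [FiniteDimensional ℂ E']
    (e : (E × ℂ) ≃L[ℂ] (E' × (Fin (r + 1) → ℂ))) {f : X → Y} (hf : ContMDiff 𝓘(ℂ, E) 𝓘(ℂ, E') ω f)
    {U : Set Y} {π : Y → (Fin (r + 1) → ℂ) → X} (ht : IsTrivialization E E' f U π)
    {x : X} (hx : f x ∈ U) {v : X → (Fin (r + 1) → ℂ)} (hv : IsLift E f π v x) :
    J e f v x ≠ 0 ∧ Function.Bijective (Lmap (E := E) (E' := E') f v x) := by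
  have hv0 : v x ≠ 0 := hv.2.self_of_nhds.1
  have hπ := ht.hol (f x) hx (v x) hv0
  have hvh : HolV E v x := hv.1
  -- the differential of `π`
  have hpair : MDifferentiableAt 𝓘(ℂ, E) (𝓘(ℂ, E').prod 𝓘(ℂ, Fin (r + 1) → ℂ))
      (fun z => (f z, v z)) x :=
    ((hf x).mdifferentiableAt (by simp)).prodMk hvh.mdiff
  have hπd : MDifferentiableAt (𝓘(ℂ, E').prod 𝓘(ℂ, Fin (r + 1) → ℂ)) 𝓘(ℂ, E)
      (fun p : Y × (Fin (r + 1) → ℂ) => π p.1 p.2) (f x, v x) :=
    hπ.mdifferentiableAt (by simp)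
  let P : (E' × (Fin (r + 1) → ℂ)) →L[ℂ] E :=
    mfderiv (𝓘(ℂ, E').prod 𝓘(ℂ, Fin (r + 1) → ℂ)) 𝓘(ℂ, E)
      (fun p : Y × (Fin (r + 1) → ℂ) => π p.1 p.2) (f x, v x)
  have hid : ∀ ξ : E, P (dM E E' f x ξ, dV E v x ξ) = ξ := by
    intro ξ
    have h1 : (fun z => (fun p : Y × (Fin (r + 1) → ℂ) => π p.1 p.2) ((f z, v z))) =ᶠ[𝓝 x]
        id := by
      filter_upwards [hv.2] with z hz
      exact hz.2
    have h2 := mfderiv_comp x hπd hpair
    have h3 : mfderiv 𝓘(ℂ, E) 𝓘(ℂ, E)
        ((fun p : Y × (Fin (r + 1) → ℂ) => π p.1 p.2) ∘ fun z => (f z, v z)) x =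
        mfderiv 𝓘(ℂ, E) 𝓘(ℂ, E) id x := Filter.EventuallyEq.mfderiv_eq h1
    rw [h3, mfderiv_id, mfderiv_prodMk ((hf x).mdifferentiableAt (by simp)) hvh.mdiff] at h2
    have h4 := congrArg (fun A : E →L[ℂ] E => A ξ) h2
    exact h4.symm
  have hker : P (0, v x) = 0 := by
    have hc : MDifferentiableAt 𝓘(ℂ, ℂ) (𝓘(ℂ, E').prod 𝓘(ℂ, Fin (r + 1) → ℂ))
        (fun t : ℂ => (f x, (1 + t) • v x)) 0 := by
      refine (mdifferentiableAt_const).prodMk ?_
      exact (DifferentiableAt.smul_const (by fun_prop) _).mdifferentiableAt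
    have hev : (fun t : ℂ => (fun p : Y × (Fin (r + 1) → ℂ) => π p.1 p.2)
        (f x, (1 + t) • v x)) =ᶠ[𝓝 0] fun _ => π (f x) (v x) := by
      have : ∀ᶠ t : ℂ in 𝓝 0, 1 + t ≠ 0 := by
        have hcont : ContinuousAt (fun t : ℂ => 1 + t) 0 := by fun_prop
        exact hcont.eventually_ne (by simp)
      filter_upwards [this] with t ht'
      have := (ht.eq_iff (f x) hx (v x) hv0 ((1 + t) • v x) (smul_ne_zero ht' hv0)).2 ⟨1 + t, rfl⟩
      exact this.symm
    have hπd' : MDifferentiableAt (𝓘(ℂ, E').prod 𝓘(ℂ, Fin (r + 1) → ℂ)) 𝓘(ℂ, E)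
      (fun p : Y × (Fin (r + 1) → ℂ) => π p.1 p.2) ((fun t : ℂ => (f x, (1 + t) • v x)) 0) := by
      simpa using hπd
    have h2 := mfderiv_comp (0 : ℂ) hπd' hc
    have h3 : mfderiv 𝓘(ℂ, ℂ) 𝓘(ℂ, E)
        ((fun p : Y × (Fin (r + 1) → ℂ) => π p.1 p.2) ∘ fun t : ℂ => (f x, (1 + t) • v x)) 0 =
        mfderiv 𝓘(ℂ, ℂ) 𝓘(ℂ, E) (fun _ : ℂ => π (f x) (v x)) 0 :=
      Filter.EventuallyEq.mfderiv_eq hev
    have hsm : DifferentiableAt ℂ (fun t : ℂ => (1 + t) • v x) 0 :=
      DifferentiableAt.smul_const (by fun_prop) _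
    rw [h3, mfderiv_const, mfderiv_prodMk mdifferentiableAt_const hsm.mdifferentiableAt] at h2
    have hD : (mfderiv 𝓘(ℂ, ℂ) 𝓘(ℂ, Fin (r + 1) → ℂ) (fun t : ℂ => (1 + t) • v x) 0) =
        ContinuousLinearMap.toSpanSingleton ℂ (v x) := by
      rw [mfderiv_eq_fderiv]
      have : HasDerivAt (fun t : ℂ => (1 + t) • v x) ((1 : ℂ) • v x) 0 := by
        refine HasDerivAt.smul_const ?_ _
        simpa using (hasDerivAt_id (0 : ℂ)).const_add 1
      have h6 := this.hasFDerivAt.fderiv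
      rw [h6, one_smul]
    have hC : (mfderiv 𝓘(ℂ, ℂ) 𝓘(ℂ, E') (fun _ : ℂ => f x) 0) = 0 := mfderiv_const
    have hpt : (f x, ((1 : ℂ) + 0) • v x) = (f x, v x) := by simp
    have h4 : ∀ (q : Y × (Fin (r + 1) → ℂ)), q = (f x, v x) →
        (0 : ℂ →L[ℂ] E) = (mfderiv (𝓘(ℂ, E').prod 𝓘(ℂ, Fin (r + 1) → ℂ)) 𝓘(ℂ, E)
          (fun p : Y × (Fin (r + 1) → ℂ) => π p.1 p.2) q : (E' × (Fin (r + 1) → ℂ)) →L[ℂ] E).comp
          ((0 : ℂ →L[ℂ] E').prod (ContinuousLinearMap.toSpanSingleton ℂ (v x))) →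
        P (0, v x) = 0 := by
      intro q hq h
      subst hq
      exact clm_aux P (v x) h
    refine h4 _ hpt ?_
    rw [hD, hC] at h2
    exact h2
  have hinj : Function.Injective (Lmap (E := E) (E' := E') f v x) := by
    rw [injective_iff_map_eq_zero]
    rintro ⟨ξ, c⟩ hd
    rw [Lmap_apply, Prod.mk_eq_zero] at hd
    obtain ⟨hd1, hd2⟩ := hd
    have h1 := hid ξ
    have h2 : dV E v x ξ = -(c • v x) := eq_neg_of_add_eq_zero_left hd2
    have h3 : ((0 : E'), -(c • v x)) = (-c) • ((0 : E'), v x) := by simp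
    rw [hd1, h2, h3, map_smul, hker, smul_zero] at h1
    have hξ : ξ = 0 := h1.symm
    subst hξ
    rw [map_zero, zero_add] at hd2
    have hc := (smul_eq_zero.1 hd2).resolve_right hv0
    rw [hc]
    rfl
  have hfin : Module.finrank ℂ (E × ℂ) = Module.finrank ℂ (E' × (Fin (r + 1) → ℂ)) :=
    e.toLinearEquiv.finrank_eq
  have hbij : Function.Bijective (Lmap (E := E) (E' := E') f v x) :=
    ⟨hinj, (LinearMap.injective_iff_surjective_of_finrank_eq_finrank hfin).1 hinj⟩
  refine ⟨?_, hbij⟩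
  unfold J
  have hb : Function.Bijective
      ((Lmap (E := E) (E' := E') f v x).comp
        (e.symm : (E' × (Fin (r + 1) → ℂ)) →L[ℂ] (E × ℂ))) :=
    hbij.comp e.symm.bijective
  rw [ContinuousLinearMap.det]
  have := LinearEquiv.isUnit_det' (LinearEquiv.ofBijective
    (((Lmap (E := E) (E' := E') f v x).comp
      (e.symm : (E' × (Fin (r + 1) → ℂ)) →L[ℂ] (E × ℂ)) :
        (E' × (Fin (r + 1) → ℂ)) →L[ℂ] (E' × (Fin (r + 1) → ℂ))) :
        (E' × (Fin (r + 1) → ℂ)) →ₗ[ℂ] (E' × (Fin (r + 1) → ℂ))) hb)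
  exact this.ne_zero

end Vale.Agent.P281

namespace Vale.Agent.P281

open scoped Manifold ContDiff Topology
open Set Filter Metric

universe u

section Flat

variable {E : Type} [NormedAddCommGroup E] [NormedSpace ℂ E] [FiniteDimensional ℂ E]

theorem flat_bound {g g' : E → ℂ} {x : E}
    (hg : ContDiffAt ℂ 1 g x) (hg' : ContDiffAt ℂ 1 g' x) (hd : fderiv ℂ g x ≠ 0) (hx : g x = 0)
    (hz : ∀ᶠ z in 𝓝 x, g z = 0 → g' z = 0) :
    ∃ C : ℝ, ∀ᶠ z in 𝓝 x, ‖g' z‖ ≤ C * ‖g z‖ := by
  have : CompleteSpace E := FiniteDimensional.complete ℂ E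
  have hs : HasStrictFDerivAt g (fderiv ℂ g x) x := hg.hasStrictFDerivAt (by simp)
  have hsurj : (fderiv ℂ g x).range = ⊤ := by
    obtain ⟨ξ, hξ⟩ : ∃ ξ, fderiv ℂ g x ξ ≠ 0 := by
      by_contra hcon
      push Not at hcon
      exact hd (ContinuousLinearMap.ext hcon)
    refine LinearMap.range_eq_top.2 fun c => ⟨(c / fderiv ℂ g x ξ) • ξ, ?_⟩
    simp only [map_smul, ContinuousLinearMap.coe_coe, smul_eq_mul, isUnit_iff_ne_zero, ne_eq, hξ,
      not_false_eq_true, IsUnit.div_mul_cancel]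
  set f'symm := (fderiv ℂ g x).nonlinearRightInverseOfSurjective hsurj with hsymm
  set K : NNReal := f'symm.nnnorm with hK
  have hKpos : 0 < K := (fderiv ℂ g x).nonlinearRightInverseOfSurjective_nnnorm_pos hsurj
  obtain ⟨s, hsx, hs'⟩ := hs.approximates_deriv_on_nhds (c := K⁻¹ / 2)
    (Or.inr (by positivity))
  obtain ⟨L, t, htx, hL⟩ := hg'.exists_lipschitzOnWith
  obtain ⟨R, hR, hball⟩ := Metric.mem_nhds_iff.1 (inter_mem (inter_mem hsx htx) hz)
  refine ⟨L * (2 * K), ?_⟩
  have hsmall : ∀ᶠ z in 𝓝 x, ‖g z‖ * (2 * K) < R / 2 := by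
    have hc : ContinuousAt (fun z => ‖g z‖ * (2 * K)) x :=
      (hg.continuousAt.norm).mul continuousAt_const
    have : (fun z => ‖g z‖ * (2 * (K : ℝ))) x < R / 2 := by simp only [hx, norm_zero, zero_mul,
                                                              Nat.ofNat_pos,
                                                              div_pos_iff_of_pos_right]; exact hR
    exact hc.eventually_lt continuousAt_const this
  filter_upwards [hsmall, ball_mem_nhds x (half_pos hR)] with z hz1 hz2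
  have hε0 : 0 ≤ ‖g z‖ * (2 * K) := by (clear * - hKpos; positivity)
  have hsub : closedBall z (‖g z‖ * (2 * K)) ⊆ ball x R := by
    intro w hw
    rw [mem_ball] at hz2 ⊢
    rw [mem_closedBall] at hw
    calc dist w x ≤ dist w z + dist z x := dist_triangle _ _ _
      _ < R / 2 + R / 2 := by linarith
      _ = R := by ring
  have hsur := hs'.surjOn_closedBall_of_nonlinearRightInverse f'symm hε0
    (hsub.trans (hball.trans (inter_subset_left.trans inter_subset_left)))
  have hmem : (0 : ℂ) ∈ closedBall (g z)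
      (((f'symm.nnnorm : ℝ)⁻¹ - ((K⁻¹ / 2 : NNReal) : ℝ)) * (‖g z‖ * (2 * K))) := by
    rw [mem_closedBall, dist_comm, dist_zero_right]
    have hK' : (K : ℝ) ≠ 0 := by exact_mod_cast hKpos.ne'
    have : ((f'symm.nnnorm : ℝ)⁻¹ - ((K⁻¹ / 2 : NNReal) : ℝ)) * (‖g z‖ * (2 * K)) = ‖g z‖ := by
      rw [← hK]
      push_cast
      field_simp
      ring
    rw [this]
  obtain ⟨z', hz', hz'0⟩ := hsur hmem
  have h1 : g' z' = 0 := (hball (hsub hz')).2 hz'0
  have h2 : ‖g' z - g' z'‖ ≤ L * ‖z - z'‖ := by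
    have := hL.dist_le_mul z (hball (hsub (mem_closedBall_self hε0))).1.2 z'
      (hball (hsub hz')).1.2
    rwa [dist_eq_norm, dist_eq_norm] at this
  rw [h1, sub_zero] at h2
  have h3 : ‖z - z'‖ ≤ ‖g z‖ * (2 * K) := by
    rw [← dist_eq_norm, dist_comm]; exact hz'
  calc ‖g' z‖ ≤ L * ‖z - z'‖ := h2
    _ ≤ L * (‖g z‖ * (2 * K)) := by (clear * - h3; gcongr)
    _ = L * (2 * K) * ‖g z‖ := by ring

end Flat

section Mfd

variable {E : Type} [NormedAddCommGroup E] [NormedSpace ℂ E]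
variable {X : Type u} [TopologicalSpace X] [ChartedSpace E X] [IsManifold 𝓘(ℂ, E) ω X]

omit [IsManifold 𝓘(ℂ, E) ω X] in
theorem IsLocalEq.holAt {D : Set X} {g : X → ℂ} {x : X} (h : IsLocalEq E D g x) : HolV E g x := by
  obtain ⟨W, -, hx, h1, -, -⟩ := h
  exact h1 x hx

omit [IsManifold 𝓘(ℂ, E) ω X] in
theorem IsLocalEq.eventually {D : Set X} {g : X → ℂ} {x : X} (h : IsLocalEq E D g x) :
    ∀ᶠ z in 𝓝 x, IsLocalEq E D g z := by
  obtain ⟨W, hW, hx, h1, h2, h3⟩ := h
  filter_upwards [hW.mem_nhds hx] with z hz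
  exact ⟨W, hW, hz, h1, h2, h3⟩

omit [IsManifold 𝓘(ℂ, E) ω X] in
theorem IsLocalEq.mem_iff {D : Set X} {g : X → ℂ} {x : X} (h : IsLocalEq E D g x) :
    x ∈ D ↔ g x = 0 := by
  obtain ⟨W, hW, hx, h1, h2, h3⟩ := h
  exact h2 x hx

omit [IsManifold 𝓘(ℂ, E) ω X] in
theorem IsLocalEq.congr {D : Set X} {g g' : X → ℂ} {x : X} (h : IsLocalEq E D g x)
    (he : g' =ᶠ[𝓝 x] g) : IsLocalEq E D g' x := by
  obtain ⟨W, hW, hx, h1, h2, h3⟩ := h
  obtain ⟨V, hV, hVo, hxV⟩ := eventually_nhds_iff.1 he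
  refine ⟨W ∩ V, hW.inter hVo, ⟨hx, hxV⟩, fun z hz => ?_, fun z hz => ?_, ?_⟩
  · exact HolV.congr (h1 z hz.1) (Filter.eventuallyEq_of_mem (hVo.mem_nhds hz.2) hV)
  · rw [h2 z hz.1, hV z hz.2]
  · rintro z ⟨hzD, hzW, hzV⟩
    have hcl := h3 ⟨hzD, hzW⟩
    rw [mem_closure_iff_nhds] at hcl ⊢
    intro t ht
    obtain ⟨w, ⟨hwt, hwV⟩, hwD, hwd⟩ := hcl (t ∩ V) (inter_mem ht (hVo.mem_nhds hzV))
    refine ⟨w, hwt, hwD, ?_⟩
    have : dif E g' w = dif E g w := by
      unfold dif
      exact Filter.EventuallyEq.mfderiv_eq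
        (Filter.eventuallyEq_of_mem (hVo.mem_nhds hwV) hV)
    rwa [this]

theorem IsLocalEq.of_dif_ne {D : Set X} {g : X → ℂ} {x : X} [FiniteDimensional ℂ E]
    (hg : HolV E g x) (hD : ∀ᶠ z in 𝓝 x, z ∈ D ↔ g z = 0) (hd : dif E g x ≠ 0) :
    IsLocalEq E D g x := by
  have hx : x ∈ (chartAt E x).source := mem_chart_source E x
  -- the set where the differential is nonzero is a neighbourhood
  have hev : ∀ᶠ z in 𝓝 x, dif E g z ≠ 0 := by
    have h1 : ContinuousAt (fun z => fderiv ℂ (g ∘ (chartAt E x).symm) (chartAt E x z)) x := by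
      have : ContinuousAt (fderiv ℂ (g ∘ (chartAt E x).symm)) (chartAt E x x) :=
        ((hg.rep hx).fderiv_right (m := ω) (by simp)).continuousAt
      exact ContinuousAt.comp this ((chartAt E x).continuousAt hx)
    have h2 : fderiv ℂ (g ∘ (chartAt E x).symm) (chartAt E x x) ≠ 0 := by
      intro h0
      apply hd
      rw [dif_eq_dV, dV_eq_chart hx hg, h0]
      ext; simp
    have h3 := h1.eventually_ne h2
    filter_upwards [h3, hg.eventually, (chartAt E x).open_source.mem_nhds hx] with z hz hgz hzs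
    intro h0
    rw [dif_eq_dV, dV_eq_chart hzs hgz] at h0
    -- the differential of the chart is surjective
    apply hz
    have hdet : (dV E (chartAt E x : X → E) z).det ≠ 0 := jac_chart_ne_zero hzs
    have hsurj : Function.Surjective (dV E (chartAt E x : X → E) z) := by
      have hu := LinearMap.equivOfDetNeZero
        ((dV E (chartAt E x : X → E) z : E →L[ℂ] E) : E →ₗ[ℂ] E) hdet
      intro w
      refine ⟨(LinearMap.equivOfDetNeZero
        ((dV E (chartAt E x : X → E) z : E →L[ℂ] E) : E →ₗ[ℂ] E) hdet).symm w, ?_⟩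
      exact (LinearMap.equivOfDetNeZero
        ((dV E (chartAt E x : X → E) z : E →L[ℂ] E) : E →ₗ[ℂ] E) hdet).apply_symm_apply w
    refine ContinuousLinearMap.ext fun w => ?_
    obtain ⟨ξ, rfl⟩ := hsurj w
    exact congrArg (fun A : E →L[ℂ] ℂ => A ξ) h0
  obtain ⟨V, hV, hVo, hxV⟩ := eventually_nhds_iff.1 ((hg.eventually.and hD).and hev)
  refine ⟨V, hVo, hxV, fun z hz => (hV z hz).1.1, fun z hz => (hV z hz).1.2, ?_⟩
  rintro z ⟨hzD, hzV⟩
  exact subset_closure ⟨hzD, (hV z hzV).2⟩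

/-- bounded lemma on the manifold. -/
theorem IsLocalEq.bound [FiniteDimensional ℂ E] {D : Set X} {g g' : X → ℂ} {x : X}
    (h : IsLocalEq E D g x) (h' : IsLocalEq E D g' x) (hd : x ∈ D → dif E g x ≠ 0) :
    ∃ C : ℝ, ∀ᶠ z in 𝓝 x, ‖g' z‖ ≤ C * ‖g z‖ := by
  by_cases hxD : x ∈ D
  · have hx : x ∈ (chartAt E x).source := mem_chart_source E x
    have hg := h.holAt
    have hg' := h'.holAt
    have hcont : ContinuousAt (chartAt E x).symm (chartAt E x x) :=
      (chartAt E x).continuousAt_symm ((chartAt E x).map_source hx)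
    have key := flat_bound (g := g ∘ (chartAt E x).symm) (g' := g' ∘ (chartAt E x).symm)
      (x := chartAt E x x) ((hg.rep hx).of_le (by simp)) ((hg'.rep hx).of_le (by simp))
      (by
        intro h0
        apply hd hxD
        rw [dif_eq_dV, dV_eq_chart hx hg, h0]
        ext; simp only [ContinuousLinearMap.zero_comp, zero_apply])
      (by
        simp only [Function.comp_apply, (chartAt E x).left_inv hx]
        exact h.mem_iff.1 hxD)
      (by
        have hev : ∀ᶠ z in 𝓝 x, g z = 0 → g' z = 0 := by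
          filter_upwards [h.eventually, h'.eventually] with z hz hz' h0
          exact hz'.mem_iff.1 (hz.mem_iff.2 h0)
        have : Tendsto (chartAt E x).symm (𝓝 (chartAt E x x)) (𝓝 x) := by
          have := hcont.tendsto
          rwa [(chartAt E x).left_inv hx] at this
        exact this.eventually hev)
    obtain ⟨C, hC⟩ := key
    refine ⟨C, ?_⟩
    have h1 := ((chartAt E x).continuousAt hx).tendsto.eventually hC
    filter_upwards [h1, (chartAt E x).open_source.mem_nhds hx] with z hz hzs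
    simpa only [Function.comp_apply, (chartAt E x).left_inv hzs] using hz
  · have hgx : g x ≠ 0 := fun h0 => hxD (h.mem_iff.2 h0)
    refine ⟨(‖g' x‖ + 1) / (‖g x‖ / 2), ?_⟩
    have h1 : ∀ᶠ z in 𝓝 x, ‖g x‖ / 2 < ‖g z‖ :=
      h.holAt.continuousAt.norm.eventually_const_lt (by
        have := norm_pos_iff.2 hgx
        linarith only [this])
    have h2 : ∀ᶠ z in 𝓝 x, ‖g' z‖ < ‖g' x‖ + 1 :=
      h'.holAt.continuousAt.norm.eventually_lt_const (by linarith)
    have hpos := norm_pos_iff.2 hgx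
    filter_upwards [h1, h2] with z hz1 hz2
    rw [div_mul_eq_mul_div, le_div_iff₀ (by positivity)]
    have h0 : 0 ≤ ‖g' x‖ := norm_nonneg _
    nlinarith only [hpos, hz1, hz2, h0]

omit [IsManifold 𝓘(ℂ, E) ω X] in
/-- a hypersurface has empty interior. -/
theorem IsLocalEq.exists_notMem {D : Set X} (h : ∀ x, ∃ g, IsLocalEq E D g x) {U : Set X}
    (hU : IsOpen U) (hne : U.Nonempty) : ∃ x ∈ U, x ∉ D := by
  by_contra hcon
  push Not at hcon
  obtain ⟨x, hx⟩ := hne
  obtain ⟨g, W, hW, hxW, h1, h2, h3⟩ := h x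
  have hcl := h3 ⟨hcon x hx, hxW⟩
  rw [mem_closure_iff_nhds] at hcl
  obtain ⟨w, ⟨hwU, hwW⟩, hwD, hwd⟩ := hcl (U ∩ W) (inter_mem (hU.mem_nhds hx) (hW.mem_nhds hxW))
  apply hwd
  have : g =ᶠ[𝓝 w] fun _ => (0 : ℂ) := by
    filter_upwards [(hU.inter hW).mem_nhds ⟨hwU, hwW⟩] with z hz
    exact (h2 z hz.2).1 (hcon z hz.1)
  unfold dif
  rw [this.mfderiv_eq, mfderiv_const]
  rfl

/-- identity theorem: a nonempty set which is locally the nonvanishing set of a holomorphic
function is dense. -/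
theorem dense_of_local [PreconnectedSpace X] {S : Set X} (hne : S.Nonempty)
    (h : ∀ x, ∃ θ : X → ℂ, HolV E θ x ∧ ∀ᶠ z in 𝓝 x, z ∈ S ↔ θ z ≠ 0) : Dense S := by
  have hZ : IsClopen (interior Sᶜ) := by
    refine ⟨?_, isOpen_interior⟩
    refine isClosed_of_closure_subset fun x hx => ?_
    obtain ⟨θ, hθ, hS⟩ := h x
    rw [mem_interior_iff_mem_nhds]
    have hxs : x ∈ (chartAt E x).source := mem_chart_source E x
    have han : AnalyticAt ℂ (θ ∘ (chartAt E x).symm) (chartAt E x x) :=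
      (hθ.rep hxs).analyticAt
    obtain ⟨ρ, hρ, hball⟩ := Metric.mem_nhds_iff.1
      (inter_mem han.eventually_analyticAt
        ((chartAt E x).open_target.mem_nhds ((chartAt E x).map_source hxs)))
    -- neighbourhood in `X`
    obtain ⟨V, hV, hVo, hxV⟩ := eventually_nhds_iff.1 hS
    have hcs : ContinuousOn (chartAt E x).symm (chartAt E x).target :=
      (chartAt E x).continuousOn_symm
    have hev : ∀ᶠ w in 𝓝 (chartAt E x x), (chartAt E x).symm w ∈ V := by
      have hc : ContinuousAt (chartAt E x).symm (chartAt E x x) :=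
        (chartAt E x).continuousAt_symm ((chartAt E x).map_source hxs)
      exact hc.eventually (by rw [(chartAt E x).left_inv hxs]; exact hVo.mem_nhds hxV)
    obtain ⟨ρ', hρ', hball'⟩ := Metric.mem_nhds_iff.1 hev
    set σ := min ρ ρ' with hσ
    have hσpos : 0 < σ := lt_min hρ hρ'
    have hsub1 : ball (chartAt E x x) σ ⊆ ball (chartAt E x x) ρ :=
      ball_subset_ball (min_le_left _ _)
    have hsub2 : ball (chartAt E x x) σ ⊆ ball (chartAt E x x) ρ' :=
      ball_subset_ball (min_le_right _ _)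
    have hana : AnalyticOnNhd ℂ (θ ∘ (chartAt E x).symm) (ball (chartAt E x x) σ) :=
      fun w hw => (hball (hsub1 hw)).1
    -- a point of `interior Sᶜ` in the neighbourhood
    have hN : (chartAt E x).source ∩ (chartAt E x) ⁻¹' (ball (chartAt E x x) σ) ∈ 𝓝 x :=
      inter_mem ((chartAt E x).open_source.mem_nhds hxs)
        (((chartAt E x).continuousAt hxs).preimage_mem_nhds (ball_mem_nhds _ hσpos))
    obtain ⟨w, ⟨hws, hwb⟩, hwi⟩ := mem_closure_iff_nhds.1 hx _ hN
    have hzero : (θ ∘ (chartAt E x).symm) =ᶠ[𝓝 (chartAt E x w)] 0 := by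
      have hc : ContinuousAt (chartAt E x).symm (chartAt E x w) :=
        (chartAt E x).continuousAt_symm ((chartAt E x).map_source hws)
      have h1 : ∀ᶠ v in 𝓝 (chartAt E x w), (chartAt E x).symm v ∈ interior Sᶜ :=
        hc.eventually (by rw [(chartAt E x).left_inv hws]; exact isOpen_interior.mem_nhds hwi)
      have h2 : ∀ᶠ v in 𝓝 (chartAt E x w), v ∈ ball (chartAt E x x) σ :=
        isOpen_ball.mem_nhds hwb
      filter_upwards [h1, h2] with v hv1 hv2
      have hvV : (chartAt E x).symm v ∈ V := hball' (hsub2 hv2)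
      have := (hV _ hvV)
      by_contra hne0
      exact (interior_subset hv1) (this.2 hne0)
    have hall := hana.eqOn_zero_of_preconnected_of_eventuallyEq_zero
      (convex_ball _ _).isPreconnected hwb hzero
    filter_upwards [hN, hVo.mem_nhds hxV] with z hz hzV
    intro hzS
    have h3 := hall hz.2
    have h4 := (hV z hzV).1 hzS
    apply h4
    simpa [(chartAt E x).left_inv hz.1] using h3
  rcases isClopen_iff.1 hZ with h0 | h1
  · rwa [interior_eq_empty_iff_dense_compl, compl_compl] at h0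
  · exfalso
    obtain ⟨x, hx⟩ := hne
    have : x ∈ interior Sᶜ := by rw [h1]; trivial
    exact (interior_subset this) hx

end Mfd

end Vale.Agent.P281

namespace Vale.Agent.P281

open scoped Manifold ContDiff Topology ENNReal
open Set Filter Metric

universe u

set_option linter.unusedSectionVars false
set_option linter.unusedVariables false

section Lifts

variable {E E' : Type} [NormedAddCommGroup E] [NormedSpace ℂ E]
  [NormedAddCommGroup E'] [NormedSpace ℂ E']
variable {X Y : Type u} [TopologicalSpace X] [ChartedSpace E X] [IsManifold 𝓘(ℂ, E) ω X]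
  [TopologicalSpace Y] [ChartedSpace E' Y] [IsManifold 𝓘(ℂ, E') ω Y]

theorem IsLift.hol {r : ℕ} {f : X → Y} {π : Y → (Fin (r + 1) → ℂ) → X}
    {v : X → (Fin (r + 1) → ℂ)} {x : X} (h : IsLift E f π v x) : HolV E v x := h.1

omit [IsManifold 𝓘(ℂ, E) ω X] in
theorem IsLift.ne_zero {r : ℕ} {f : X → Y} {π : Y → (Fin (r + 1) → ℂ) → X}
    {v : X → (Fin (r + 1) → ℂ)} {x : X} (h : IsLift E f π v x) : v x ≠ 0 :=
  h.2.self_of_nhds.1

omit [IsManifold 𝓘(ℂ, E) ω X] in
theorem IsLift.eq {r : ℕ} {f : X → Y} {π : Y → (Fin (r + 1) → ℂ) → X}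
    {v : X → (Fin (r + 1) → ℂ)} {x : X} (h : IsLift E f π v x) : π (f x) (v x) = x :=
  h.2.self_of_nhds.2

theorem IsLift.eventually {r : ℕ} {f : X → Y} {π : Y → (Fin (r + 1) → ℂ) → X}
    {v : X → (Fin (r + 1) → ℂ)} {x : X} (h : IsLift E f π v x) :
    ∀ᶠ z in 𝓝 x, IsLift E f π v z := by
  filter_upwards [h.hol.eventually, eventually_eventually_nhds.2 h.2] with z hz1 hz2
  exact ⟨hz1, hz2⟩

end Lifts

section Vertical

variable {E E' : Type} [NormedAddCommGroup E] [NormedSpace ℂ E]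
  [NormedAddCommGroup E'] [NormedSpace ℂ E']
variable {X Y : Type u} [TopologicalSpace X] [ChartedSpace E X] [IsManifold 𝓘(ℂ, E) ω X]
  [TopologicalSpace Y] [ChartedSpace E' Y] [IsManifold 𝓘(ℂ, E') ω Y]

/-- local sections through the trivialization. -/
theorem nhds_le_of_triv {r : ℕ} {f : X → Y} {U : Set Y} {π : Y → (Fin (r + 1) → ℂ) → X}
    (ht : IsTrivialization E E' f U π) {x : X} (hx : f x ∈ U) : 𝓝 (f x) ≤ map f (𝓝 x) := by
  obtain ⟨v, hv⟩ := ht.lift x hx
  intro N hN
  have hπ := (ht.hol (f x) hx (v x) hv.ne_zero).continuousAt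
  have h1 : ContinuousAt (fun y => π y (v x)) (f x) := by
    have h2 : ContinuousAt (fun y : Y => (y, v x)) (f x) := by fun_prop
    exact ContinuousAt.comp (g := fun p : Y × (Fin (r + 1) → ℂ) => π p.1 p.2)
      (f := fun y : Y => (y, v x)) (x := f x) hπ h2
  have h3 : (fun y => π y (v x)) ⁻¹' (f ⁻¹' N) ∈ 𝓝 (f x) := by
    apply h1.preimage_mem_nhds
    rw [hv.eq]
    exact hN
  filter_upwards [h3, ht.isOpen.mem_nhds hx] with y hy hyU
  have := ht.proj y hyU (v x) hv.ne_zero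
  simpa [this] using hy

theorem isOpenMap_of_bundle {r : ℕ} {f : X → Y} (B : ProjectiveBundle E E' f r) : IsOpenMap f := by
  refine IsOpenMap.of_nhds_le fun x => ?_
  obtain ⟨a, ha⟩ := B.cover (f x)
  exact nhds_le_of_triv (B.triv a) ha

theorem submersion_of_bundle [FiniteDimensional ℂ E] [FiniteDimensional ℂ E'] {r : ℕ} {f : X → Y}
    (hf : ContMDiff 𝓘(ℂ, E) 𝓘(ℂ, E') ω f)
    (hdim : Module.finrank ℂ E = Module.finrank ℂ E' + r)
    (B : ProjectiveBundle E E' f r) (x : X) :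
    Function.Surjective (dM E E' f x) := by
  obtain ⟨a, ha⟩ := B.cover (f x)
  obtain ⟨v, hv⟩ := (B.triv a).lift x ha
  have hfin : Module.finrank ℂ (E × ℂ) = Module.finrank ℂ (E' × (Fin (r + 1) → ℂ)) := by
    simp [hdim]; ring
  let e : (E × ℂ) ≃L[ℂ] (E' × (Fin (r + 1) → ℂ)) := ContinuousLinearEquiv.ofFinrankEq hfin
  have := (J_ne_zero e hf (B.triv a) ha hv).2.2
  intro η
  obtain ⟨⟨ξ, c⟩, h⟩ := this (η, 0)
  rw [Lmap_apply] at h
  exact ⟨ξ, (Prod.mk.inj h).1⟩

omit [IsManifold 𝓘(ℂ, E) ω X] [IsManifold 𝓘(ℂ, E') ω Y] in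
theorem dif_comp {g : Y → ℂ} {f : X → Y} {x : X} (hg : HolV E' g (f x)) (hf : HolM E E' f x) :
    dif E (fun z => g (f z)) x = (dif E' g (f x)).comp (dM E E' f x) :=
  dV_comp hg hf

variable {f : X → Y} (hf : ∀ x, HolM E E' f x) (hopen : IsOpenMap f)
  (hsub : ∀ x, Function.Surjective (dM E E' f x)) (hsurj : Function.Surjective f)
  (hfib : ∀ y, IsConnected (f ⁻¹' {y}))

include hf hopen hsub in
theorem isLocalEq_comp {G : Set Y} {g : Y → ℂ} {x : X} (hg : IsLocalEq E' G g (f x)) :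
    IsLocalEq E (f ⁻¹' G) (fun z => g (f z)) x := by
  obtain ⟨W, hW, hx, h1, h2, h3⟩ := hg
  have hcont : Continuous f := continuous_iff_continuousAt.2 fun x => (hf x).continuousAt
  refine ⟨f ⁻¹' W, hW.preimage hcont, hx, fun z hz => HolV.comp (h1 _ hz) (hf z),
    fun z hz => h2 _ hz, ?_⟩
  rintro z ⟨hzG, hzW⟩
  have hcl : f z ∈ closure ({y | y ∈ G ∧ dif E' g y ≠ 0} ∩ W) := by
    have := h3 ⟨hzG, hzW⟩
    rw [mem_closure_iff_nhds] at this ⊢
    intro t ht
    obtain ⟨w, ⟨hwt, hwW⟩, hw⟩ := this (t ∩ W) (inter_mem ht (hW.mem_nhds hzW))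
    exact ⟨w, hwt, hw, hwW⟩
  have h4 : z ∈ closure (f ⁻¹' ({y | y ∈ G ∧ dif E' g y ≠ 0} ∩ W)) :=
    hopen.preimage_closure_subset_closure_preimage hcl
  refine closure_mono ?_ h4
  rintro w ⟨⟨hwG, hwd⟩, hwW⟩
  refine ⟨hwG, ?_⟩
  rw [dif_comp (h1 _ hwW) (hf w)]
  intro h0
  apply hwd
  refine ContinuousLinearMap.ext fun η => ?_
  obtain ⟨ξ, rfl⟩ := hsub w η
  exact congrArg (fun A : E →L[ℂ] ℂ => A ξ) h0

omit [ChartedSpace E X] [IsManifold 𝓘(ℂ, E) ω X] [ChartedSpace E' Y]
  [IsManifold 𝓘(ℂ, E') ω Y] in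
include hopen hsurj hfib in
theorem isConnected_preimage' {S : Set Y} (hS : IsConnected S) : IsConnected (f ⁻¹' S) := by
  refine ⟨?_, ?_⟩
  · obtain ⟨y, hy⟩ := hS.1
    obtain ⟨x, rfl⟩ := hsurj y
    exact ⟨x, hy⟩
  · intro u v hu hv hcov hu' hv'
    by_contra hcon
    rw [not_nonempty_iff_eq_empty] at hcon
    obtain ⟨x1, hx1, hx1u⟩ := hu'
    obtain ⟨x2, hx2, hx2v⟩ := hv'
    have hcov' : S ⊆ f '' u ∪ f '' v := by
      intro y hy
      obtain ⟨x, rfl⟩ := hsurj y
      rcases hcov (show x ∈ f ⁻¹' S from hy) with h | h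
      · exact Or.inl ⟨x, h, rfl⟩
      · exact Or.inr ⟨x, h, rfl⟩
    obtain ⟨y, hyS, ⟨z1, hz1, hz1y⟩, ⟨z2, hz2, hz2y⟩⟩ := hS.2 (f '' u) (f '' v) (hopen u hu)
      (hopen v hv) hcov' ⟨f x1, hx1, x1, hx1u, rfl⟩ ⟨f x2, hx2, x2, hx2v, rfl⟩
    have hsubf : f ⁻¹' {y} ⊆ f ⁻¹' S := by
      intro z hz
      rw [mem_preimage, mem_singleton_iff] at hz
      rw [mem_preimage, hz]
      exact hyS
    obtain ⟨z, hzf, hz⟩ := (hfib y).2 u v hu hv (hsubf.trans hcov) ⟨z1, hz1y, hz1⟩ ⟨z2, hz2y, hz2⟩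
    have : z ∈ f ⁻¹' S ∩ (u ∩ v) := ⟨hsubf hzf, hz⟩
    rw [hcon] at this
    exact this

include hf hopen hsub hsurj hfib in
theorem isPrimeDivisor_preimage {G : Set Y} (hG : IsPrimeDivisor E' G) :
    IsPrimeDivisor E (f ⁻¹' G) := by
  have hcont : Continuous f := continuous_iff_continuousAt.2 fun x => (hf x).continuousAt
  obtain ⟨hcl, hloc, hconn⟩ := hG
  refine ⟨hcl.preimage hcont, fun x => ?_, ?_⟩
  · obtain ⟨g, hg⟩ := hloc (f x)
    exact ⟨_, isLocalEq_comp hf hopen hsub hg⟩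
  · have h1 := isConnected_preimage' hopen hsurj hfib hconn
    refine h1.subset_closure ?_ ?_
    · rintro x ⟨hxG, g, hg, hd⟩
      refine ⟨hxG, _, isLocalEq_comp hf hopen hsub hg, ?_⟩
      rw [dif_comp hg.holAt (hf x)]
      intro h0
      apply hd
      refine ContinuousLinearMap.ext fun η => ?_
      obtain ⟨ξ, rfl⟩ := hsub x η
      exact congrArg (fun A : E →L[ℂ] ℂ => A ξ) h0
    · rintro x ⟨hxG, -⟩
      apply hopen.preimage_closure_subset_closure_preimage
      obtain ⟨g, W, hW, hxW, h1, h2, h3⟩ := hloc (f x)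
      have := h3 ⟨hxG, hxW⟩
      rw [mem_closure_iff_nhds] at this
      rw [mem_preimage, mem_closure_iff_nhds]
      intro t ht
      obtain ⟨w, ⟨hwt, hwW⟩, hwG, hwd⟩ := this (t ∩ W) (inter_mem ht (hW.mem_nhds hxW))
      exact ⟨w, hwt, hwG, g, ⟨W, hW, hwW, h1, h2, h3⟩, hwd⟩

include hf hopen hsub hsurj in
theorem ordAlong_le_one {G : Set Y} (hG : IsPrimeDivisor E' G) :
    ordAlong E E' f G (f ⁻¹' G) ≤ 1 := by
  refine Nat.sInf_le ?_
  obtain ⟨hcl, hloc, hconn⟩ := hG
  obtain ⟨y, hy⟩ := hconn.1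
  obtain ⟨x, rfl⟩ := hsurj y
  obtain ⟨g, hg⟩ := hloc (f x)
  refine ⟨x, hy.1, fun z => g (f z), g, fun _ => 1, isLocalEq_comp hf hopen hsub hg, hg,
    contMDiffAt_const, one_ne_zero, Filter.Eventually.of_forall fun z => ?_⟩
  simp

include hf hopen hsub hsurj hfib in
theorem orbBase_le {Δ : Set X → ℝ} {G : Set Y} (h0 : 0 ≤ Δ (f ⁻¹' G)) (h1 : Δ (f ⁻¹' G) ≤ 1) :
    orbBase E E' f Δ G ≤ Δ (f ⁻¹' G) := by
  unfold orbBase
  by_cases hG : IsPrimeDivisor E' G
  · rw [if_pos hG]
    have hle : orbMult E E' f Δ G ≤ mult Δ (f ⁻¹' G) := by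
      unfold orbMult
      refine (iInf_le _ (f ⁻¹' G)).trans ((iInf_le _
        ⟨isPrimeDivisor_preimage hf hopen hsub hsurj hfib hG,
          image_preimage_eq G hsurj⟩).trans ?_)
      have := ordAlong_le_one hf hopen hsub hsurj hG
      calc (ordAlong E E' f G (f ⁻¹' G) : ℝ≥0∞) * mult Δ (f ⁻¹' G)
          ≤ (1 : ℕ) * mult Δ (f ⁻¹' G) := by gcongr
        _ = mult Δ (f ⁻¹' G) := by simp
    have hinv : (mult Δ (f ⁻¹' G))⁻¹ ≤ (orbMult E E' f Δ G)⁻¹ := ENNReal.inv_le_inv.2 hle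
    have h2 : (1 - (orbMult E E' f Δ G)⁻¹) ≤ ENNReal.ofReal (Δ (f ⁻¹' G)) := by
      calc (1 - (orbMult E E' f Δ G)⁻¹) ≤ 1 - (mult Δ (f ⁻¹' G))⁻¹ := tsub_le_tsub_left hinv 1
        _ = 1 - (1 - ENNReal.ofReal (Δ (f ⁻¹' G))) := by unfold mult; rw [inv_inv]
        _ ≤ ENNReal.ofReal (Δ (f ⁻¹' G)) := by
          rw [tsub_le_iff_right]
          exact le_add_tsub
    calc (1 - (orbMult E E' f Δ G)⁻¹).toReal ≤ (ENNReal.ofReal (Δ (f ⁻¹' G))).toReal :=
          ENNReal.toReal_mono ENNReal.ofReal_ne_top h2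
      _ = Δ (f ⁻¹' G) := ENNReal.toReal_ofReal h0
  · rw [if_neg hG]; exact h0

end Vertical

end Vale.Agent.P281

namespace Vale.Agent.P281

open scoped Manifold ContDiff Topology
open Set Filter Metric

set_option linter.unusedSectionVars false
set_option linter.unusedVariables false

universe u

/-- Liouville's theorem with finitely many removable singularities. -/
theorem liouville_finite {Z : Set ℂ} (hZ : Z.Finite) :
    ∀ (h : ℂ → ℂ), (∀ z ∉ Z, DifferentiableAt ℂ h z) → ∀ C : ℝ, (∀ z ∉ Z, ‖h z‖ ≤ C) →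
      ∀ z ∉ Z, ∀ w ∉ Z, h z = h w := by
  induction Z, hZ using Set.Finite.induction_on with
  | empty =>
    intro h hd C hC z _ w _
    have hd' : Differentiable ℂ h := fun z => hd z (by simp)
    refine hd'.apply_eq_apply_of_bounded ?_ z w
    refine (isBounded_iff_forall_norm_le).2 ⟨C, ?_⟩
    rintro _ ⟨z, rfl⟩
    exact hC z (by simp)
  | @insert c Z hc hZf ih =>
    intro h hd C hC z hz w hw
    set s : Set ℂ := Zᶜ with hs
    have hso : IsOpen s := hZf.isClosed.isOpen_compl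
    have hsc : s ∈ 𝓝 c := hso.mem_nhds hc
    have hdon : DifferentiableOn ℂ h (s \ {c}) := by
      intro z hz
      refine (hd z ?_).differentiableWithinAt
      simp only [mem_insert_iff, not_or]
      exact ⟨hz.2, hz.1⟩
    have hbd : BddAbove (norm ∘ h '' (s \ {c})) := by
      refine ⟨C, ?_⟩
      rintro _ ⟨z, hz, rfl⟩
      refine hC z ?_
      simp only [mem_insert_iff, not_or]
      exact ⟨hz.2, hz.1⟩
    have hup := Complex.differentiableOn_update_limUnder_of_bddAbove hsc hdon hbd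
    set h' := Function.update h c (limUnder (𝓝[≠] c) h) with hh'
    have hd' : ∀ z ∉ Z, DifferentiableAt ℂ h' z := fun z hz =>
      (hup z hz).differentiableAt (hso.mem_nhds hz)
    have hne : ∀ z ≠ c, h' z = h z := fun z hz => Function.update_of_ne hz _ _
    have hC' : ∀ z ∉ Z, ‖h' z‖ ≤ C := by
      intro z hz
      by_cases hzc : z = c
      · rw [hzc]
        have hct : ContinuousAt h' c := (hd' c hc).continuousAt
        have ht : Tendsto (fun w => ‖h' w‖) (𝓝[≠] c) (𝓝 ‖h' c‖) :=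
          (hct.norm.tendsto).mono_left nhdsWithin_le_nhds
        refine le_of_tendsto ht ?_
        filter_upwards [self_mem_nhdsWithin, nhdsWithin_le_nhds hsc] with w hw1 hw2
        rw [hne w hw1]
        refine hC w ?_
        simp only [mem_insert_iff, not_or]
        exact ⟨hw1, hw2⟩
      · rw [hne z hzc]
        refine hC z ?_
        simp only [mem_insert_iff, not_or]
        exact ⟨hzc, hz⟩
    simp only [mem_insert_iff, not_or] at hz hw
    have := ih h' hd' C hC' z hz.2 w hw.2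
    rwa [hne z hz.1, hne w hw.1] at this

/-- the form with coefficients `p`. -/
def form {n d : ℕ} (p : (Fin d → Fin n) → ℂ) (v : Fin n → ℂ) : ℂ := ∑ J, p J * ∏ l, v (J l)

theorem form_smul {n d : ℕ} (p : (Fin d → Fin n) → ℂ) (c : ℂ) (v : Fin n → ℂ) :
    form p (c • v) = c ^ d * form p v := by
  unfold form
  rw [Finset.mul_sum]
  refine Finset.sum_congr rfl fun J _ => ?_
  simp only [Pi.smul_apply, smul_eq_mul, Finset.prod_mul_distrib, Finset.prod_const,
    Finset.card_univ, Fintype.card_fin]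
  ring

theorem form_line {n d : ℕ} (p : (Fin d → Fin n) → ℂ) (v w : Fin n → ℂ) :
    ∃ P : Polynomial ℂ, ∀ t : ℂ, form p (v + t • w) = P.eval t := by
  refine ⟨∑ J : Fin d → Fin n, Polynomial.C (p J) *
    ∏ l, (Polynomial.C (v (J l)) + Polynomial.C (w (J l)) * Polynomial.X), fun t => ?_⟩
  simp only [form, Polynomial.eval_finsetSum, Polynomial.eval_prod, Polynomial.eval_mul,
    Polynomial.eval_add, Polynomial.eval_C, Polynomial.eval_X, Pi.add_apply, Pi.smul_apply,
    smul_eq_mul]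
  refine Finset.sum_congr rfl fun J _ => ?_
  congr 1
  exact Finset.prod_congr rfl fun l _ => by ring

theorem form_contDiff {n d : ℕ} (p : (Fin d → Fin n) → ℂ) : ContDiff ℂ ω (form p) := by
  unfold form
  exact ContDiff.sum fun J _ => contDiff_const.mul (contDiff_prod fun l _ => contDiff_apply ℂ ℂ _)

theorem sphere_bound {n : ℕ} (A B : (Fin n → ℂ) → ℝ) (hB : ∀ w, 0 ≤ B w)
    (h : ∀ w₀ ≠ 0, ∃ C : ℝ, ∀ᶠ w in 𝓝 w₀, A w ≤ C * B w) :
    ∃ C : ℝ, ∀ w : Fin n → ℂ, ‖w‖ = 1 → A w ≤ C * B w := by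
  have hcomp : IsCompact (sphere (0 : Fin n → ℂ) 1) := isCompact_sphere _ _
  have := hcomp.induction_on (p := fun S => ∃ C : ℝ, ∀ w ∈ S, A w ≤ C * B w)
    ⟨0, fun w hw => absurd hw (by simp)⟩
    (fun S T hST ⟨C, hC⟩ => ⟨C, fun w hw => hC w (hST hw)⟩)
    (fun S T ⟨C, hC⟩ ⟨C', hC'⟩ => ⟨max C C', fun w hw => by
      rcases hw with hw | hw
      · exact (hC w hw).trans (mul_le_mul_of_nonneg_right (le_max_left _ _) (hB w))
      · exact (hC' w hw).trans (mul_le_mul_of_nonneg_right (le_max_right _ _) (hB w))⟩)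
    (fun w hw => by
      have hw0 : w ≠ 0 := by
        intro h0
        rw [h0, mem_sphere, dist_self] at hw
        exact zero_ne_one hw
      obtain ⟨C, hC⟩ := h w hw0
      exact ⟨_, nhdsWithin_le_nhds hC, C, fun w hw => hw⟩)
  obtain ⟨C, hC⟩ := this
  exact ⟨C, fun w hw => hC w (by simpa only [mem_sphere_iff_norm, sub_zero] using hw)⟩

theorem form_ratio {n d : ℕ} (hn : 0 < n) (p q : (Fin d → Fin n) → ℂ)
    (A : Matrix (Fin n) (Fin n) ℂ)
    (h1 : ∃ C : ℝ, ∀ w : Fin n → ℂ, ‖w‖ = 1 → ‖form p w‖ ≤ C * ‖form q (A.mulVec w)‖)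
    (h2 : ∃ C : ℝ, ∀ w : Fin n → ℂ, ‖w‖ = 1 → ‖form q (A.mulVec w)‖ ≤ C * ‖form p w‖) :
    ∃ c : ℂ, c ≠ 0 ∧ ∀ w, form p w = c * form q (A.mulVec w) := by
  obtain ⟨C1, h1⟩ := h1
  obtain ⟨C2, h2⟩ := h2
  -- extend to all vectors
  obtain ⟨u, hu⟩ : ∃ u : Fin n → ℂ, ‖u‖ = 1 := by
    have : Nonempty (Fin n) := ⟨⟨0, hn⟩⟩
    exact ⟨fun _ => 1, by rw [pi_norm_const]; simp⟩
  have hall : ∀ w : Fin n → ℂ, ∃ (c : ℂ) (u : Fin n → ℂ), ‖u‖ = 1 ∧ w = c • u := by
    intro w
    by_cases hw : w = 0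
    · exact ⟨0, u, hu, by rw [hw, zero_smul]⟩
    · refine ⟨(‖w‖ : ℂ), ((‖w‖ : ℂ))⁻¹ • w, ?_, ?_⟩
      · rw [norm_smul, norm_inv, Complex.norm_real, norm_norm,
          inv_mul_cancel₀ (norm_ne_zero_iff.2 hw)]
      · rw [smul_smul, mul_inv_cancel₀ (by exact_mod_cast (norm_ne_zero_iff.2 hw)), one_smul]
  have g1 : ∀ w : Fin n → ℂ, ‖form p w‖ ≤ C1 * ‖form q (A.mulVec w)‖ := by
    intro w
    obtain ⟨c, u, hu, rfl⟩ := hall w
    rw [Matrix.mulVec_smul, form_smul, form_smul, norm_mul, norm_mul]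
    have := mul_le_mul_of_nonneg_left (h1 u hu) (norm_nonneg (c ^ d))
    nlinarith only [this]
  have g2 : ∀ w : Fin n → ℂ, ‖form q (A.mulVec w)‖ ≤ C2 * ‖form p w‖ := by
    intro w
    obtain ⟨c, u, hu, rfl⟩ := hall w
    rw [Matrix.mulVec_smul, form_smul, form_smul, norm_mul, norm_mul]
    have := mul_le_mul_of_nonneg_left (h2 u hu) (norm_nonneg (c ^ d))
    nlinarith only [this]
  by_cases hq : ∀ w, form q (A.mulVec w) = 0
  · refine ⟨1, one_ne_zero, fun w => ?_⟩
    have := g1 w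
    rw [hq w, norm_zero, mul_zero] at this
    rw [hq w, mul_zero]
    exact norm_le_zero_iff.1 this
  · push Not at hq
    obtain ⟨v, hv⟩ := hq
    have hpv : form p v ≠ 0 := by
      intro h0
      have := g2 v
      rw [h0, norm_zero, mul_zero] at this
      exact hv (norm_le_zero_iff.1 this)
    refine ⟨form p v / form q (A.mulVec v), div_ne_zero hpv hv, fun w => ?_⟩
    -- restrict to the line through `v` and `w`
    obtain ⟨P, hP⟩ := form_line p v (w - v)
    obtain ⟨Q, hQ⟩ := form_line q (A.mulVec v) (A.mulVec (w - v))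
    have hQ' : ∀ t : ℂ, form q (A.mulVec (v + t • (w - v))) = Q.eval t := by
      intro t
      rw [Matrix.mulVec_add, Matrix.mulVec_smul, hQ]
    have hQ0 : Q ≠ 0 := by
      intro h0
      apply hv
      have := hQ' 0
      rw [zero_smul, add_zero, h0, Polynomial.eval_zero] at this
      exact this
    have hZ : {t : ℂ | Q.eval t = 0}.Finite := by
      have := Q.roots.toFinset.finite_toSet
      refine this.subset fun t ht => ?_
      simp only [Finset.mem_coe, Multiset.mem_toFinset, Polynomial.mem_roots hQ0]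
      exact ht
    by_cases hw : form q (A.mulVec w) = 0
    · have := g1 w
      rw [hw, norm_zero, mul_zero] at this
      rw [hw, mul_zero]
      exact norm_le_zero_iff.1 this
    · have hL := liouville_finite hZ (fun t => P.eval t / Q.eval t)
        (fun t ht => (P.differentiable t).div (Q.differentiable t) ht) (|C1|)
        (fun t ht => by
          rw [norm_div, div_le_iff₀ (norm_pos_iff.2 ht), ← hP, ← hQ']
          exact (g1 _).trans (mul_le_mul_of_nonneg_right (le_abs_self _) (norm_nonneg _)))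
        0 (by
          rw [mem_ofPred_eq, ← hQ', zero_smul, add_zero]; exact hv)
        1 (by
          rw [mem_ofPred_eq, ← hQ', one_smul, add_sub_cancel]; exact hw)
      simp only [← hP, ← hQ', zero_smul, add_zero, one_smul, add_sub_cancel] at hL
      rw [hL, div_mul_cancel₀ _ hw]

end Vale.Agent.P281

namespace Vale.Agent.P281

open scoped Manifold ContDiff Topology
open Set Filter Metric

set_option linter.unusedSectionVars false
set_option linter.unusedVariables false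

universe u

variable {E E' : Type} [NormedAddCommGroup E] [NormedSpace ℂ E]
  [NormedAddCommGroup E'] [NormedSpace ℂ E']
variable {X Y : Type u} [TopologicalSpace X] [ChartedSpace E X] [IsManifold 𝓘(ℂ, E) ω X]
  [TopologicalSpace Y] [ChartedSpace E' Y] [IsManifold 𝓘(ℂ, E') ω Y]

/-- a choice of local forms defining the hypersurfaces in `T`. -/
structure FormData {f : X → Y} {r : ℕ} (B : ProjectiveBundle E E' f r) (T : Set (Set X)) where
  deg : Set X → ℕ
  p : B.ι → (D : Set X) → (Fin (deg D) → Fin (r + 1)) → Y → ℂ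
  hol : ∀ a, ∀ D ∈ T, ∀ J, ∀ y ∈ B.U a, HolV E' (p a D J) y
  eqn : ∀ a, ∀ D ∈ T, ∀ x v, f x ∈ B.U a → IsLift E f (B.π a) v x →
      IsLocalEq E D (fun z => form (fun J => p a D J (f z)) (v z)) x

theorem exists_formData {f : X → Y} {r : ℕ} (B : ProjectiveBundle E E' f r) (T : Set (Set X))
    (hT : ∀ D ∈ T, ∃ d, B.IsRelHypersurface D d) : Nonempty (FormData B T) := by
  classical
  have h : ∀ D, ∃ d : ℕ, ∀ a, ∃ p : (Fin d → Fin (r + 1)) → Y → ℂ, D ∈ T →
      (∀ J, ∀ y ∈ B.U a, HolAt E' (p J) y) ∧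
      ∀ x v, f x ∈ B.U a → IsLift E f (B.π a) v x →
        IsLocalEq E D (fun z => ∑ J, p J (f z) * ∏ l, v z (J l)) x := by
    intro D
    by_cases hD : D ∈ T
    · obtain ⟨d, hd⟩ := hT D hD
      refine ⟨d, fun a => ?_⟩
      obtain ⟨p, hp⟩ := hd a
      exact ⟨p, fun _ => hp⟩
    · exact ⟨0, fun a => ⟨fun _ _ => 0, fun h => absurd h hD⟩⟩
  choose d p hp using h
  exact ⟨⟨d, fun a D => p D a, fun a D hD => (hp D a hD).1, fun a D hD => (hp D a hD).2⟩⟩

/-- all members of `T` are smooth hypersurfaces. -/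
def Smooth (E : Type) [NormedAddCommGroup E] [NormedSpace ℂ E] {X : Type u} [TopologicalSpace X]
    [ChartedSpace E X] (T : Set (Set X)) : Prop :=
  ∀ D ∈ T, ∀ x ∈ D, ∀ g, IsLocalEq E D g x → dif E g x ≠ 0

omit [IsManifold 𝓘(ℂ, E) ω X] in
theorem smooth_of_snc {Δ : Set X → ℝ} (h : IsSNCBoundary E Δ) : Smooth E {D | Δ D ≠ 0} := by
  classical
  intro D hD x hx g hg
  have hex : ∀ D' : Set X, ∃ g', Δ D' ≠ 0 → IsLocalEq E D' g' x := by
    intro D'
    by_cases h' : Δ D' = 0
    · exact ⟨fun _ => 0, fun h'' => absurd h' h''⟩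
    · obtain ⟨g', hg'⟩ := (h.prime D' h').2.1 x
      exact ⟨g', fun _ => hg'⟩
  choose G hG using hex
  have := h.snc x (fun D' => if D' = D then g else G D') (fun D' hD' _ => by
    by_cases h' : D' = D
    · subst h'; rw [if_pos rfl]; exact hg
    · rw [if_neg h']; exact hG D' hD')
  have h2 := this.ne_zero ⟨D, hD, hx⟩
  simpa using h2

variable {f : X → Y} {r : ℕ} (B : ProjectiveBundle E E' f r) {T : Set (Set X)}

theorem mulVec_ne_zero {n : ℕ} {M : Matrix (Fin n) (Fin n) ℂ} (hM : M.det ≠ 0) {w : Fin n → ℂ}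
    (hw : w ≠ 0) : M.mulVec w ≠ 0 := by
  intro h0
  apply hw
  have := congrArg (fun u => M⁻¹.mulVec u) h0
  simpa only [Matrix.mulVec_mulVec, Matrix.nonsing_inv_mul _ (Ne.isUnit hM), Matrix.one_mulVec,
    Matrix.mulVec_zero] using this

theorem pi_continuousAt (a : B.ι) {y : Y} (hy : y ∈ B.U a) {M : Matrix (Fin (r+1)) (Fin (r+1)) ℂ}
    (hM : M.det ≠ 0) {w : Fin (r + 1) → ℂ} (hw : w ≠ 0) :
    ContinuousAt (fun w => B.π a y (M.mulVec w)) w := by
  have hπ := ((B.triv a).hol y hy (M.mulVec w) (mulVec_ne_zero hM hw)).continuousAt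
  have h2 : ContinuousAt (fun w : Fin (r + 1) → ℂ => (y, M.mulVec w)) w := by
    refine ContinuousAt.prodMk continuousAt_const ?_
    have : Continuous fun w : Fin (r + 1) → ℂ => M.mulVec w := by (clear * -; fun_prop)
    exact this.continuousAt
  exact ContinuousAt.comp (g := fun p : Y × (Fin (r + 1) → ℂ) => B.π a p.1 p.2)
      (f := fun w => (y, M.mulVec w)) (x := w) hπ h2

theorem local_ratio (fd : FormData B T) (hsm : Smooth E T) [FiniteDimensional ℂ E]
    {D : Set X} (hD : D ∈ T) {a b : B.ι} {y : Y}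
    (hya : y ∈ B.U a) (hyb : y ∈ B.U b) {M N : Matrix (Fin (r + 1)) (Fin (r + 1)) ℂ}
    (hM : M.det ≠ 0) (hN : N.det ≠ 0)
    (hMN : ∀ w ≠ 0, B.π a y (M.mulVec w) = B.π b y (N.mulVec w)) (w₀ : Fin (r + 1) → ℂ)
    (hw₀ : w₀ ≠ 0) :
    ∃ C : ℝ, ∀ᶠ w in 𝓝 w₀, ‖form (fun J => fd.p a D J y) (M.mulVec w)‖ ≤
      C * ‖form (fun J => fd.p b D J y) (N.mulVec w)‖ := by
  set x₀ := B.π a y (M.mulVec w₀) with hx₀
  have hfx : f x₀ = y := (B.triv a).proj y hya _ (mulVec_ne_zero hM hw₀)
  obtain ⟨v, hv⟩ := (B.triv a).lift x₀ (by rw [hfx]; exact hya)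
  obtain ⟨v', hv'⟩ := (B.triv b).lift x₀ (by rw [hfx]; exact hyb)
  have ha := fd.eqn a D hD x₀ v (by rw [hfx]; exact hya) hv
  have hb := fd.eqn b D hD x₀ v' (by rw [hfx]; exact hyb) hv'
  obtain ⟨C, hC⟩ := hb.bound ha (fun hx => hsm D hD x₀ hx _ hb)
  have hcont := pi_continuousAt B a hya hM hw₀
  -- the comparison function
  set z : (Fin (r + 1) → ℂ) → X := fun w => B.π a y (M.mulVec w) with hz
  have hz0 : z w₀ = x₀ := rfl
  set F : (Fin (r + 1) → ℂ) → ℝ := fun w =>
    (‖M.mulVec w‖ / ‖v (z w)‖) / (‖N.mulVec w‖ / ‖v' (z w)‖) with hF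
  have hvc : ContinuousAt (fun w => v (z w)) w₀ :=
    ContinuousAt.comp (g := v) (f := z) hv.hol.continuousAt hcont
  have hvc' : ContinuousAt (fun w => v' (z w)) w₀ :=
    ContinuousAt.comp (g := v') (f := z) hv'.hol.continuousAt hcont
  have hMc : Continuous fun w : Fin (r + 1) → ℂ => M.mulVec w := by fun_prop
  have hNc : Continuous fun w : Fin (r + 1) → ℂ => N.mulVec w := by fun_prop
  have hFc : ContinuousAt F w₀ := by
    refine ContinuousAt.div (ContinuousAt.div hMc.continuousAt.norm hvc.norm ?_)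
      (ContinuousAt.div hNc.continuousAt.norm hvc'.norm ?_) ?_
    · exact norm_ne_zero_iff.2 hv.ne_zero
    · exact norm_ne_zero_iff.2 hv'.ne_zero
    · exact div_ne_zero (norm_ne_zero_iff.2 (mulVec_ne_zero hN hw₀))
        (norm_ne_zero_iff.2 hv'.ne_zero)
  have hFb : ∀ᶠ w in 𝓝 w₀, F w < F w₀ + 1 := hFc.eventually_lt_const (by linarith only [])
  refine ⟨|C| * (F w₀ + 1) ^ fd.deg D, ?_⟩
  have e1 : ∀ᶠ w in 𝓝 w₀, ‖form (fun J => fd.p a D J (f (z w))) (v (z w))‖ ≤
      C * ‖form (fun J => fd.p b D J (f (z w))) (v' (z w))‖ := hcont.eventually hC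
  have e2 := hcont.eventually (p := fun z => IsLift E f (B.π a) v z) hv.eventually
  have e3 := hcont.eventually (p := fun z => IsLift E f (B.π b) v' z) hv'.eventually
  have e4 : ∀ᶠ w in 𝓝 w₀, w ≠ 0 := isOpen_ne.mem_nhds hw₀
  filter_upwards [hFb, e1, e2, e3, e4] with w hFw h1 h2 h3 hw
  have hMw := mulVec_ne_zero hM hw
  have hNw := mulVec_ne_zero hN hw
  have hfz : f (z w) = y := (B.triv a).proj y hya _ hMw
  rw [hfz] at h1
  obtain ⟨c, hc⟩ := ((B.triv a).eq_iff y hya (v (z w)) h2.ne_zero (M.mulVec w) hMw).1 (by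
    have := h2.eq
    rw [hfz] at this
    rw [this])
  obtain ⟨c', hc'⟩ := ((B.triv b).eq_iff y hyb (v' (z w)) h3.ne_zero (N.mulVec w) hNw).1 (by
    have := h3.eq
    rw [hfz] at this
    rw [this, ← hMN w hw])
  have hc0 : c' ≠ 0 := by
    intro h0
    rw [h0, zero_smul] at hc'
    exact hNw hc'
  have hnc : ‖c‖ = ‖M.mulVec w‖ / ‖v (z w)‖ := by
    rw [hc, norm_smul, mul_div_assoc, div_self (norm_ne_zero_iff.2 h2.ne_zero), mul_one]
  have hnc' : ‖c'‖ = ‖N.mulVec w‖ / ‖v' (z w)‖ := by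
    rw [hc', norm_smul, mul_div_assoc, div_self (norm_ne_zero_iff.2 h3.ne_zero), mul_one]
  have hFw' : F w = ‖c‖ / ‖c'‖ := by rw [hF, hnc, hnc']
  have hFpos : 0 ≤ F w := by rw [hFw']; (clear * - hc0; positivity)
  have hpow : F w ^ fd.deg D ≤ (F w₀ + 1) ^ fd.deg D := pow_le_pow_left₀ hFpos hFw.le _
  rw [hc, hc', form_smul, form_smul, norm_mul, norm_mul, norm_pow, norm_pow]
  set A := ‖form (fun J => fd.p a D J y) (v (z w))‖ with hA
  set Bb := ‖form (fun J => fd.p b D J y) (v' (z w))‖ with hBb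
  have hB0 : 0 ≤ Bb := norm_nonneg _
  have hcpos : 0 < ‖c'‖ := norm_pos_iff.2 hc0
  calc ‖c‖ ^ fd.deg D * A ≤ ‖c‖ ^ fd.deg D * (C * Bb) := by (clear * - h1; gcongr)
    _ ≤ ‖c‖ ^ fd.deg D * (|C| * Bb) := by gcongr; exact le_abs_self _
    _ = |C| * (F w ^ fd.deg D) * (‖c'‖ ^ fd.deg D * Bb) := by
        rw [hFw', div_pow]
        (clear * - hc0; field_simp)
    _ ≤ |C| * ((F w₀ + 1) ^ fd.deg D) * (‖c'‖ ^ fd.deg D * Bb) := by (clear * - hc0 hpow; gcongr)

theorem compat (fd : FormData B T) (hsm : Smooth E T) [FiniteDimensional ℂ E]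
    {D : Set X} (hD : D ∈ T) {a b : B.ι} {y : Y}
    (hya : y ∈ B.U a) (hyb : y ∈ B.U b) {M : Matrix (Fin (r + 1)) (Fin (r + 1)) ℂ}
    (hM : M.det ≠ 0)
    (hMπ : ∀ w ≠ 0, B.π a y w = B.π b y (M.mulVec w)) :
    ∃ c : ℂ, c ≠ 0 ∧ ∀ w, form (fun J => fd.p a D J y) w =
      c * form (fun J => fd.p b D J y) (M.mulVec w) := by
  refine form_ratio (Nat.succ_pos r) _ _ M ?_ ?_
  · refine sphere_bound _ _ (fun w => norm_nonneg _) fun w₀ hw₀ => ?_
    have := local_ratio B fd hsm hD hya hyb (M := 1) (N := M) (by simp) hM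
      (fun w hw => by rw [Matrix.one_mulVec]; exact hMπ w hw) w₀ hw₀
    simpa only [Matrix.one_mulVec] using this
  · refine sphere_bound _ _ (fun w => norm_nonneg _) fun w₀ hw₀ => ?_
    have := local_ratio B fd hsm hD hyb hya (M := M) (N := 1) hM (by simp)
      (fun w hw => by rw [Matrix.one_mulVec]; exact (hMπ w hw).symm) w₀ hw₀
    simpa only [Matrix.one_mulVec] using this

/-- membership in `D` in terms of the form. -/
theorem mem_iff_form (fd : FormData B T) {D : Set X} (hD : D ∈ T) {a : B.ι} {y : Y}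
    (hya : y ∈ B.U a) {w : Fin (r + 1) → ℂ} (hw : w ≠ 0) :
    B.π a y w ∈ D ↔ form (fun J => fd.p a D J y) w = 0 := by
  have hfx : f (B.π a y w) = y := (B.triv a).proj y hya _ hw
  obtain ⟨v, hv⟩ := (B.triv a).lift (B.π a y w) (by rw [hfx]; exact hya)
  have ha := fd.eqn a D hD _ v (by rw [hfx]; exact hya) hv
  rw [ha.mem_iff, hfx]
  obtain ⟨c, hc⟩ := ((B.triv a).eq_iff y hya _ hv.ne_zero w hw).1 (by
    have := hv.eq
    rw [hfx] at this
    rw [this])
  have hc0 : c ≠ 0 := by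
    intro h0
    rw [h0, zero_smul] at hc
    exact hw hc
  have hfw : form (fun J => fd.p a D J y) w =
      c ^ fd.deg D * form (fun J => fd.p a D J y) (v (B.π a y w)) := by
    conv_lhs => rw [hc]
    rw [form_smul]
  rw [hfw]
  constructor
  · intro h
    rw [h, mul_zero]
  · intro h
    exact (mul_eq_zero.1 h).resolve_left (pow_ne_zero _ hc0)

end Vale.Agent.P281

namespace Vale.Agent.P281

open scoped Manifold ContDiff Topology
open Set Filter Metric

set_option linter.unusedSectionVars false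
set_option linter.unusedVariables false

universe u

section HolV

variable {E : Type} [NormedAddCommGroup E] [NormedSpace ℂ E]
variable {X : Type u} [TopologicalSpace X] [ChartedSpace E X] [IsManifold 𝓘(ℂ, E) ω X]

theorem HolV.const {V : Type*} [NormedAddCommGroup V] [NormedSpace ℂ V] (c : V) (x : X) :
    HolV E (fun _ => c) x := contMDiffAt_const

theorem HolV.prodMk {V V' : Type*} [NormedAddCommGroup V] [NormedSpace ℂ V]
    [NormedAddCommGroup V'] [NormedSpace ℂ V'] {h : X → V} {h' : X → V'} {x : X}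
    (hh : HolV E h x) (hh' : HolV E h' x) : HolV E (fun z => (h z, h' z)) x := by
  have hx : x ∈ (chartAt E x).source := mem_chart_source E x
  exact HolV.of_rep hx ((hh.rep hx).prodMk (hh'.rep hx))

theorem HolV.piF {ι : Type*} [Fintype ι] {V : ι → Type*} [∀ i, NormedAddCommGroup (V i)]
    [∀ i, NormedSpace ℂ (V i)] {h : X → ∀ i, V i} {x : X}
    (hh : ∀ i, HolV E (fun z => h z i) x) : HolV E h x := by
  have hx : x ∈ (chartAt E x).source := mem_chart_source E x
  refine HolV.of_rep hx ?_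
  rw [contDiffAt_pi]
  exact fun i => (hh i).rep hx

theorem HolV.add {V : Type*} [NormedAddCommGroup V] [NormedSpace ℂ V] {g h : X → V} {x : X}
    (hg : HolV E g x) (hh : HolV E h x) : HolV E (fun z => g z + h z) x := by
  have hx : x ∈ (chartAt E x).source := mem_chart_source E x
  exact HolV.of_rep hx ((hg.rep hx).add (hh.rep hx))

theorem HolV.pow {g : X → ℂ} {x : X} (hg : HolV E g x) (k : ℕ) : HolV E (fun z => g z ^ k) x := by
  have hx : x ∈ (chartAt E x).source := mem_chart_source E x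
  exact HolV.of_rep hx ((hg.rep hx).pow k)

theorem HolV.prod {ι : Type*} {s : Finset ι} {g : ι → X → ℂ} {x : X}
    (hg : ∀ i ∈ s, HolV E (g i) x) : HolV E (fun z => ∏ i ∈ s, g i z) x := by
  have hx : x ∈ (chartAt E x).source := mem_chart_source E x
  refine HolV.of_rep hx ?_
  have : ((fun z => ∏ i ∈ s, g i z) ∘ (chartAt E x).symm) =
      fun w => ∏ i ∈ s, (g i ∘ (chartAt E x).symm) w := rfl
  rw [this]
  exact contDiffAt_prod fun i hi => (hg i hi).rep hx

theorem HolV.sum {ι : Type*} {s : Finset ι} {g : ι → X → ℂ} {x : X}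
    (hg : ∀ i ∈ s, HolV E (g i) x) : HolV E (fun z => ∑ i ∈ s, g i z) x := by
  have hx : x ∈ (chartAt E x).source := mem_chart_source E x
  refine HolV.of_rep hx ?_
  have : ((fun z => ∑ i ∈ s, g i z) ∘ (chartAt E x).symm) =
      fun w => ∑ i ∈ s, (g i ∘ (chartAt E x).symm) w := rfl
  rw [this]
  exact ContDiffAt.sum fun i hi => (hg i hi).rep hx

theorem HolV.div {g h : X → ℂ} {x : X} (hg : HolV E g x) (hh : HolV E h x) (h0 : h x ≠ 0) :
    HolV E (fun z => g z / h z) x := by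
  have hx : x ∈ (chartAt E x).source := mem_chart_source E x
  refine HolV.of_rep hx ?_
  have : ((fun z => g z / h z) ∘ (chartAt E x).symm) =
      fun w => (g ∘ (chartAt E x).symm) w / (h ∘ (chartAt E x).symm) w := rfl
  rw [this]
  refine (hg.rep hx).div (hh.rep hx) ?_
  simpa [(chartAt E x).left_inv hx] using h0

theorem dV_prodMk {V V' : Type*} [NormedAddCommGroup V] [NormedSpace ℂ V]
    [NormedAddCommGroup V'] [NormedSpace ℂ V'] {h : X → V} {h' : X → V'} {x : X}
    (hh : HolV E h x) (hh' : HolV E h' x) :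
    dV E (fun z => (h z, h' z)) x = (dV E h x).prod (dV E h' x) := by
  have hx : x ∈ (chartAt E x).source := mem_chart_source E x
  rw [dV_eq_chart hx (hh.prodMk hh'), dV_eq_chart hx hh, dV_eq_chart hx hh']
  have : ((fun z => (h z, h' z)) ∘ (chartAt E x).symm) =
      fun w => ((h ∘ (chartAt E x).symm) w, (h' ∘ (chartAt E x).symm) w) := rfl
  rw [this, DifferentiableAt.fderiv_prodMk ((hh.rep hx).differentiableAt (by simp))
    ((hh'.rep hx).differentiableAt (by simp))]
  ext ξ <;> simp only [ContinuousLinearMap.comp_apply, ContinuousLinearMap.prod_apply]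

theorem dV_congr {V : Type*} [NormedAddCommGroup V] [NormedSpace ℂ V] {g h : X → V} {x : X}
    (he : g =ᶠ[𝓝 x] h) : dV E g x = dV E h x := by
  unfold dV
  exact he.mfderiv_eq

theorem form_holV {n d : ℕ} {p : X → (Fin d → Fin n) → ℂ} {v : X → (Fin n → ℂ)} {x : X}
    (hp : ∀ J, HolV E (fun z => p z J) x) (hv : HolV E v x) :
    HolV E (fun z => form (p z) (v z)) x := by
  unfold form
  exact HolV.sum fun J _ => (hp J).mul (HolV.prod fun l _ => hv.eval _)

end HolV

end Vale.Agent.P281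

namespace Vale.Agent.P281

open scoped Manifold ContDiff Topology
open Set Filter Metric

set_option linter.unusedSectionVars false
set_option linter.unusedVariables false

universe u

variable {E E' : Type} [NormedAddCommGroup E] [NormedSpace ℂ E]
  [NormedAddCommGroup E'] [NormedSpace ℂ E']
variable {X Y : Type u} [TopologicalSpace X] [ChartedSpace E X] [IsManifold 𝓘(ℂ, E) ω X]
  [TopologicalSpace Y] [ChartedSpace E' Y] [IsManifold 𝓘(ℂ, E') ω Y]

theorem J_congr {W : Type} [NormedAddCommGroup W] [NormedSpace ℂ W]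
    (e : (E × ℂ) ≃L[ℂ] (E' × W)) {f : X → Y} {v v' : X → W} {x : X} (h : v =ᶠ[𝓝 x] v') :
    J e f v x = J e f v' x := by
  unfold J Lmap
  rw [dV_congr h, h.self_of_nhds]

variable {f : X → Y} {r : ℕ} (B : ProjectiveBundle E E' f r)

/-- the class `𝒢` of matrices contains the transition matrices of the bundle. -/
def HasTrans (B : ProjectiveBundle E E' f r) (𝒢 : Set (Matrix (Fin (r + 1)) (Fin (r + 1)) ℂ)) :
    Prop :=
  ∀ a b, ∀ y ∈ B.U a ∩ B.U b, ∃ g : Y → Matrix (Fin (r + 1)) (Fin (r + 1)) ℂ,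
    (∀ i j, HolAt E' (fun y' => g y' i j) y) ∧ ∀ᶠ y' in 𝓝 y, (g y').det ≠ 0 ∧ g y' ∈ 𝒢 ∧
      ∀ v ≠ 0, B.π a y' v = B.π b y' ((g y').mulVec v)

theorem hasTrans_univ : HasTrans B univ := by
  intro a b y hy
  obtain ⟨g, hg, h⟩ := B.trans a b y hy
  refine ⟨g, hg, ?_⟩
  filter_upwards [h] with y' hy'
  exact ⟨hy'.1, mem_univ _, hy'.2⟩

theorem lift_change [FiniteDimensional ℂ E] [FiniteDimensional ℂ E']
    (e : (E × ℂ) ≃L[ℂ] (E' × (Fin (r + 1) → ℂ)))
    {𝒢 : Set (Matrix (Fin (r + 1)) (Fin (r + 1)) ℂ)} (hG : HasTrans B 𝒢)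
    (hf : ∀ x, HolM E E' f x) {x : X} {a b : B.ι} (ha : f x ∈ B.U a) (hb : f x ∈ B.U b)
    {v v' : X → (Fin (r + 1) → ℂ)} (hv : IsLift E f (B.π a) v x) (hv' : IsLift E f (B.π b) v' x) :
    ∃ (g : Matrix (Fin (r + 1)) (Fin (r + 1)) ℂ) (lam : ℂ), lam ≠ 0 ∧ g.det ≠ 0 ∧ g ∈ 𝒢 ∧
      (∀ w ≠ 0, B.π a (f x) w = B.π b (f x) (g.mulVec w)) ∧
      v' x = lam • g.mulVec (v x) ∧
      J e f v' x = lam ^ (r + 1) * (g.det * J e f v x) := by
  obtain ⟨g, hg, hgev⟩ := hG a b (f x) ⟨ha, hb⟩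
  have hfc := (hf x).continuousAt
  -- the transformed lift
  set v'' : X → (Fin (r + 1) → ℂ) := fun z => (g (f z)).mulVec (v z) with hv''
  have hg0 := hgev.self_of_nhds
  have hv''x : v'' x ≠ 0 := mulVec_ne_zero hg0.1 hv.ne_zero
  have hv''h : HolV E v'' x := by
    refine HolV.pi fun i => ?_
    have := HolV.sum (s := Finset.univ) fun j (_ : j ∈ Finset.univ) =>
      ((HolV.comp (hg i j) (hf x))).mul (hv.hol.eval j)
    exact this
  obtain ⟨i, hi⟩ : ∃ i, v'' x i ≠ 0 := by
    by_contra hcon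
    push Not at hcon
    exact hv''x (funext hcon)
  set lam : X → ℂ := fun z => v' z i / v'' z i with hlam
  have hlamh : HolV E lam x := (hv'.hol.eval i).div (hv''h.eval i) hi
  have hev : v' =ᶠ[𝓝 x] fun z => lam z • v'' z := by
    have e1 := hfc.eventually hgev
    have e2 : ∀ᶠ z in 𝓝 x, v'' z i ≠ 0 := (hv''h.eval i).continuousAt.eventually_ne hi
    have e3 : ∀ᶠ z in 𝓝 x, f z ∈ B.U b := hfc.eventually ((B.triv b).isOpen.mem_nhds hb)
    filter_upwards [e1, e2, e3, hv.eventually, hv'.eventually] with z h1 h2 h3 h4 h5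
    have h6 : B.π b (f z) (v'' z) = z := by
      rw [hv'', ← h1.2.2 _ h4.ne_zero]
      exact h4.eq
    have hv''z : v'' z ≠ 0 := fun h0 => h2 (by rw [h0]; rfl)
    obtain ⟨c, hc⟩ := ((B.triv b).eq_iff (f z) h3 (v'' z) hv''z (v' z) h5.ne_zero).1
      (by rw [h6, h5.eq])
    have : lam z = c := by
      rw [hlam]
      simp only
      rw [hc, Pi.smul_apply, smul_eq_mul, mul_div_assoc, div_self h2, mul_one]
    rw [this]
    exact hc
  have hx := hev.self_of_nhds
  have hlam0 : lam x ≠ 0 := by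
    intro h0
    have hx' : v' x = lam x • v'' x := hx
    rw [h0, zero_smul] at hx'
    exact hv'.ne_zero hx'
  refine ⟨g (f x), lam x, hlam0, hg0.1, hg0.2.1, hg0.2.2, hx, ?_⟩
  rw [J_congr e hev, J_smul e hlamh hlam0 hv''h, J_mulVec e (hf x) hg hg0.1 hv.hol]
  simp

end Vale.Agent.P281

namespace Vale.Agent.P281

open scoped Manifold ContDiff Topology
open Set Filter Metric

set_option linter.unusedSectionVars false
set_option linter.unusedVariables false

universe u

/-- coefficient spaces of tuples of forms -/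
abbrev Coefs {κ : Type*} (deg : κ → ℕ) (n : ℕ) := (i : κ) → (Fin (deg i) → Fin n) → ℂ

/-- covariants of tuples of forms, with respect to a class of matrices. -/
structure Covariant {κ : Type*} [Fintype κ] (deg : κ → ℕ) (n : ℕ)
    (𝒢 : Set (Matrix (Fin n) (Fin n) ℂ)) (K : κ → ℕ) (M N : ℕ) where
  C : Coefs deg n → (Fin n → ℂ) → ℂ
  hol : ContDiff ℂ ω (fun q : Coefs deg n × (Fin n → ℂ) => C q.1 q.2)
  law : ∀ (p p' : Coefs deg n) (c : κ → ℂ) (g : Matrix (Fin n) (Fin n) ℂ) (v : Fin n → ℂ),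
    g ∈ 𝒢 → g.det ≠ 0 → (∀ i, c i ≠ 0) →
    (∀ i w, form (p i) w = c i * form (p' i) (g.mulVec w)) →
    C p v = g.det ^ M * (∏ i, c i ^ K i) * C p' (g.mulVec v)
  homog : ∀ p (c : ℂ) v, C p (c • v) = c ^ N * C p v

/-- product of covariants -/
def Covariant.mul {κ : Type*} [Fintype κ] {deg : κ → ℕ} {n : ℕ}
    {𝒢 : Set (Matrix (Fin n) (Fin n) ℂ)} {K K' : κ → ℕ} {M M' N N' : ℕ}
    (A : Covariant deg n 𝒢 K M N) (B : Covariant deg n 𝒢 K' M' N') :
    Covariant deg n 𝒢 (fun i => K i + K' i) (M + M') (N + N') where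
  C := fun p v => A.C p v * B.C p v
  hol := A.hol.mul B.hol
  law := by
    intro p p' c g v h1 h2 h3 h4
    rw [A.law p p' c g v h1 h2 h3 h4, B.law p p' c g v h1 h2 h3 h4]
    simp only [pow_add, Finset.prod_mul_distrib]
    ring
  homog := by
    intro p c v
    rw [A.homog, B.homog, pow_add]
    ring

/-- the trivial covariant -/
def Covariant.one {κ : Type*} [Fintype κ] {deg : κ → ℕ} {n : ℕ}
    {𝒢 : Set (Matrix (Fin n) (Fin n) ℂ)} :
    Covariant deg n 𝒢 (fun _ => 0) 0 0 where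
  C := fun _ _ => 1
  hol := contDiff_const
  law := by intros; simp only [pow_zero, Finset.prod_const_one, mul_one]
  homog := by intros; simp

/-- powers of covariants -/
def Covariant.pow {κ : Type*} [Fintype κ] {deg : κ → ℕ} {n : ℕ}
    {𝒢 : Set (Matrix (Fin n) (Fin n) ℂ)} {K : κ → ℕ} {M N : ℕ}
    (A : Covariant deg n 𝒢 K M N) (q : ℕ) :
    Covariant deg n 𝒢 (fun i => q * K i) (q * M) (q * N) where
  C := fun p v => A.C p v ^ q
  hol := A.hol.pow q
  law := by
    intro p p' c g v h1 h2 h3 h4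
    rw [A.law p p' c g v h1 h2 h3 h4, mul_pow, mul_pow, ← pow_mul, ← Finset.prod_pow,
      mul_comm M q]
    simp only [← pow_mul, mul_comm q]
  homog := by
    intro p c v
    rw [A.homog, mul_pow, ← pow_mul, mul_comm N q]

/-- change of the (numerical) type -/
def Covariant.cast {κ : Type*} [Fintype κ] {deg : κ → ℕ} {n : ℕ}
    {𝒢 : Set (Matrix (Fin n) (Fin n) ℂ)} {K K' : κ → ℕ} {M M' N N' : ℕ}
    (A : Covariant deg n 𝒢 K M N) (hK : K = K') (hM : M = M') (hN : N = N') :
    Covariant deg n 𝒢 K' M' N' where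
  C := A.C
  hol := A.hol
  law := by subst hK hM hN; exact A.law
  homog := by subst hN; exact A.homog

variable {E E' : Type} [NormedAddCommGroup E] [NormedSpace ℂ E]
  [NormedAddCommGroup E'] [NormedSpace ℂ E']
variable {X Y : Type u} [TopologicalSpace X] [ChartedSpace E X] [IsManifold 𝓘(ℂ, E) ω X]
  [TopologicalSpace Y] [ChartedSpace E' Y] [IsManifold 𝓘(ℂ, E') ω Y]
variable {f : X → Y} {r : ℕ} {B : ProjectiveBundle E E' f r} {T : Set (Set X)}

/-- the coefficients over the point `y` in the trivialization `a`, for the members of `H`. -/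
def FormData.P (fd : FormData B T) (H : Finset (Set X)) (a : B.ι) (y : Y) :
    Coefs (fun i : H => fd.deg i) (r + 1) := fun i J => fd.p a i J y

/-- the local value of the relative part of the section. -/
noncomputable def val (fd : FormData B T) (H : Finset (Set X))
    (C : Coefs (fun i : H => fd.deg i) (r + 1) → (Fin (r + 1) → ℂ) → ℂ) (K : H → ℕ) (M : ℕ)
    (e : (E × ℂ) ≃L[ℂ] (E' × (Fin (r + 1) → ℂ))) (a : B.ι) (v : X → (Fin (r + 1) → ℂ)) (x : X) :
    ℂ :=
  J e f v x ^ M * C (fd.P H a (f x)) (v x) / ∏ i : H, form (fd.P H a (f x) i) (v x) ^ K i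

theorem P_change (fd : FormData B T) (hsm : Smooth E T) [FiniteDimensional ℂ E]
    {H : Finset (Set X)} (hH : ∀ D ∈ H, D ∈ T) {a b : B.ι} {y : Y}
    (hya : y ∈ B.U a) (hyb : y ∈ B.U b) {g : Matrix (Fin (r + 1)) (Fin (r + 1)) ℂ}
    (hg : g.det ≠ 0) (hgπ : ∀ w ≠ 0, B.π a y w = B.π b y (g.mulVec w)) :
    ∃ c : H → ℂ, (∀ i, c i ≠ 0) ∧ ∀ i w, form (fd.P H a y i) w =
      c i * form (fd.P H b y i) (g.mulVec w) := by
  have h : ∀ i : H, ∃ c : ℂ, c ≠ 0 ∧ ∀ w, form (fd.P H a y i) w =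
      c * form (fd.P H b y i) (g.mulVec w) := fun i =>
    compat B fd hsm (hH i i.2) hya hyb hg hgπ
  choose c hc0 hc using h
  exact ⟨c, hc0, hc⟩

theorem val_change [FiniteDimensional ℂ E] [FiniteDimensional ℂ E']
    (fd : FormData B T) (hsm : Smooth E T) {H : Finset (Set X)} (hH : ∀ D ∈ H, D ∈ T)
    (e : (E × ℂ) ≃L[ℂ] (E' × (Fin (r + 1) → ℂ)))
    {𝒢 : Set (Matrix (Fin (r + 1)) (Fin (r + 1)) ℂ)} (hG : HasTrans B 𝒢)
    (hf : ∀ x, HolM E E' f x) {K : H → ℕ} {M N : ℕ}
    (C : Covariant (fun i : H => fd.deg i) (r + 1) 𝒢 K M N)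
    (hN : (r + 1) * M + N = ∑ i : H, fd.deg i * K i)
    {x : X} {a b : B.ι} (ha : f x ∈ B.U a) (hb : f x ∈ B.U b)
    {v v' : X → (Fin (r + 1) → ℂ)} (hv : IsLift E f (B.π a) v x)
    (hv' : IsLift E f (B.π b) v' x) :
    val fd H C.C K M e b v' x = val fd H C.C K M e a v x := by
  obtain ⟨g, lam, hlam, hg, hgG, hgπ, hvx, hJ⟩ := lift_change B e hG hf ha hb hv hv'
  obtain ⟨c, hc0, hc⟩ := P_change fd hsm hH ha hb hg hgπ
  unfold val
  rw [hJ, hvx, C.law _ _ c g (v x) hgG hg hc0 hc, C.homog]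
  have h1 : ∏ i : H, form (fd.P H a (f x) i) (v x) ^ K i =
      (∏ i, c i ^ K i) * ∏ i : H, form (fd.P H b (f x) i) (g.mulVec (v x)) ^ K i := by
    rw [← Finset.prod_mul_distrib]
    refine Finset.prod_congr rfl fun i _ => ?_
    rw [hc i, mul_pow]
  have h2 : ∏ i : H, form (fd.P H b (f x) i) (lam • g.mulVec (v x)) ^ K i =
      lam ^ ((r + 1) * M + N) * ∏ i : H, form (fd.P H b (f x) i) (g.mulVec (v x)) ^ K i := by
    rw [hN, ← Finset.prod_pow_eq_pow_sum, ← Finset.prod_mul_distrib]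
    refine Finset.prod_congr rfl fun i _ => ?_
    rw [form_smul, mul_pow, ← pow_mul]
  rw [h1, h2]
  have hl : lam ^ ((r + 1) * M + N) ≠ 0 := pow_ne_zero _ hlam
  have hcp : (∏ i, c i ^ K i) ≠ 0 := Finset.prod_ne_zero_iff.2 fun i _ => pow_ne_zero _ (hc0 i)
  set Q := ∏ i : H, form (fd.P H b (f x) i) (g.mulVec (v x)) ^ K i with hQ
  by_cases hQ0 : Q = 0
  · simp only [hQ0, mul_zero, div_zero, Finset.univ_eq_attach]
  · rw [div_eq_div_iff (mul_ne_zero hl hQ0) (mul_ne_zero hcp hQ0)]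
    ring

end Vale.Agent.P281

namespace Vale.Agent.P281.GIT

open MvPolynomial Vale.Agent.P281
open scoped ContDiff

set_option linter.unusedSectionVars false
set_option linter.unusedVariables false

section Act

variable {R : Type*} [CommRing R] {n d : ℕ}

/-- substitution of a matrix in a tensor -/
def act (q : (Fin d → Fin n) → R) (g : Matrix (Fin n) (Fin n) R) : (Fin d → Fin n) → R :=
  fun J => ∑ J' : Fin d → Fin n, (∏ l, g (J' l) (J l)) * q J'

theorem act_mul (q : (Fin d → Fin n) → R) (g h : Matrix (Fin n) (Fin n) R) :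
    act q (g * h) = act (act q g) h := by
  funext J
  unfold act
  simp only [Matrix.mul_apply, Finset.mul_sum]
  rw [Finset.sum_comm]
  refine Finset.sum_congr rfl fun J'' _ => ?_
  have h1 : ∏ l, ∑ k, g (J'' l) k * h k (J l) =
      ∑ J' : Fin d → Fin n, ∏ l, g (J'' l) (J' l) * h (J' l) (J l) := by
    rw [Finset.prod_univ_sum, Fintype.piFinset_univ]
  rw [h1, Finset.sum_mul]
  refine Finset.sum_congr rfl fun J' _ => ?_
  rw [Finset.prod_mul_distrib]
  ring

theorem act_one (q : (Fin d → Fin n) → R) : act q 1 = q := by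
  funext J
  unfold act
  rw [Finset.sum_eq_single J]
  · simp only [Matrix.one_apply_eq, Finset.prod_const_one, one_mul]
  · intro J' _ hJ
    obtain ⟨l, hl⟩ : ∃ l, J' l ≠ J l := by
      by_contra hcon
      push Not at hcon
      exact hJ (funext hcon)
    have : ∏ l, (1 : Matrix (Fin n) (Fin n) R) (J' l) (J l) = 0 :=
      Finset.prod_eq_zero (Finset.mem_univ l) (Matrix.one_apply_ne hl)
    rw [this, zero_mul]
  · simp only [Finset.mem_univ, not_true_eq_false, Matrix.one_apply_eq, Finset.prod_const_one,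
      one_mul, IsEmpty.forall_iff]

theorem act_smul (c : R) (q : (Fin d → Fin n) → R) (g : Matrix (Fin n) (Fin n) R) :
    act (fun J => c * q J) g = fun J => c * act q g J := by
  funext J
  unfold act
  rw [Finset.mul_sum]
  exact Finset.sum_congr rfl fun J' _ => by ring

theorem act_map {R' : Type*} [CommRing R'] (ψ : R →+* R') (q : (Fin d → Fin n) → R)
    (g : Matrix (Fin n) (Fin n) R) (J : Fin d → Fin n) :
    ψ (act q g J) = act (fun J => ψ (q J)) (g.map ψ) J := by
  unfold act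
  simp only [map_sum, map_mul, map_prod, Matrix.map_apply]

/-- symmetrization of a tensor -/
def sym (q : (Fin d → Fin n) → R) : (Fin d → Fin n) → R :=
  fun J => ∑ σ : Equiv.Perm (Fin d), q (fun l => J (σ l))

theorem sym_act (q : (Fin d → Fin n) → R) (g : Matrix (Fin n) (Fin n) R) :
    sym (act q g) = act (sym q) g := by
  funext J
  unfold sym act
  simp only [Finset.mul_sum]
  rw [Finset.sum_comm (s := Finset.univ (α := Fin d → Fin n))]
  refine Finset.sum_congr rfl fun σ _ => ?_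
  symm
  refine Fintype.sum_equiv (Equiv.arrowCongr σ.symm (Equiv.refl (Fin n))) _ _ fun J' => ?_
  have h1 : ∀ l, (Equiv.arrowCongr σ.symm (Equiv.refl (Fin n))) J' l = J' (σ l) := fun l => rfl
  have h2 : (Equiv.arrowCongr σ.symm (Equiv.refl (Fin n))) J' = fun l => J' (σ l) := funext h1
  rw [h2]
  congr 1
  exact (Equiv.prod_comp σ (fun l => g (J' l) (J l))).symm

theorem sym_map {R' : Type*} [CommRing R'] (ψ : R →+* R') (q : (Fin d → Fin n) → R)
    (J : Fin d → Fin n) : ψ (sym q J) = sym (fun J => ψ (q J)) J := by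
  unfold sym
  simp only [map_sum]

end Act

section Form

variable {n d : ℕ}

theorem form_act (q : (Fin d → Fin n) → ℂ) (g : Matrix (Fin n) (Fin n) ℂ) (w : Fin n → ℂ) :
    form (act q g) w = form q (g.mulVec w) := by
  unfold form act
  simp only [Finset.sum_mul]
  rw [Finset.sum_comm]
  refine Finset.sum_congr rfl fun J' _ => ?_
  have h1 : ∏ l, (g.mulVec w) (J' l) = ∑ J : Fin d → Fin n, ∏ l, g (J' l) (J l) * w (J l) := by
    simp only [Matrix.mulVec, dotProduct]
    rw [Finset.prod_univ_sum, Fintype.piFinset_univ]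
  rw [h1, Finset.mul_sum]
  refine Finset.sum_congr rfl fun J _ => ?_
  rw [Finset.prod_mul_distrib]
  ring

/-- the multilinear map attached to a tensor -/
noncomputable def mlin (p : (Fin d → Fin n) → ℂ) :
    ContinuousMultilinearMap ℂ (fun _ : Fin d => (Fin n → ℂ)) ℂ :=
  ∑ J : Fin d → Fin n, p J • (ContinuousMultilinearMap.mkPiAlgebra ℂ (Fin d) ℂ).compContinuousLinearMap
    (fun l => ContinuousLinearMap.proj (R := ℂ) (φ := fun _ : Fin n => ℂ) (J l))

theorem mlin_apply (p : (Fin d → Fin n) → ℂ) (x : Fin d → (Fin n → ℂ)) :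
    mlin p x = ∑ J : Fin d → Fin n, p J * ∏ l, x l (J l) := by
  simp only [mlin, sum_apply, smul_apply, ContinuousMultilinearMap.compContinuousLinearMap_apply,
    ContinuousLinearMap.proj_apply, ContinuousMultilinearMap.mkPiAlgebra_apply, smul_eq_mul]

theorem sym_eq_iteratedFDeriv (p : (Fin d → Fin n) → ℂ) (J : Fin d → Fin n) :
    sym p J = iteratedFDeriv ℂ d (form p) 0 (fun l => Pi.single (J l) 1) := by
  have h1 : form p = fun w => mlin p (fun _ => w) := by
    funext w
    rw [mlin_apply]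
    rfl
  rw [h1, ContinuousMultilinearMap.iteratedFDeriv_comp_diagonal]
  unfold sym
  refine Finset.sum_congr rfl fun σ _ => ?_
  rw [mlin_apply, Finset.sum_eq_single (fun l => J (σ l))]
  · simp only [Pi.single_eq_same, Finset.prod_const_one, mul_one]
  · intro J' _ hJ
    obtain ⟨l, hl⟩ : ∃ l, J' l ≠ J (σ l) := by
      by_contra hcon
      push Not at hcon
      exact hJ (funext hcon)
    have : ∏ l, (Pi.single (J (σ l)) 1 : Fin n → ℂ) (J' l) = 0 :=
      Finset.prod_eq_zero (Finset.mem_univ l) (by simp [hl])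
    rw [this, mul_zero]
  · simp only [Finset.mem_univ, not_true_eq_false, Pi.single_eq_same, Finset.prod_const_one,
      mul_one, IsEmpty.forall_iff]

theorem sym_eq_of_form_eq {p p' : (Fin d → Fin n) → ℂ} (h : ∀ w, form p w = form p' w) :
    sym p = sym p' := by
  funext J
  rw [sym_eq_iteratedFDeriv, sym_eq_iteratedFDeriv, show form p = form p' from funext h]

theorem form_const_mul (c : ℂ) (p : (Fin d → Fin n) → ℂ) (w : Fin n → ℂ) :
    form (fun J => c * p J) w = c * form p w := by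
  unfold form
  rw [Finset.mul_sum]
  exact Finset.sum_congr rfl fun J _ => by ring

theorem sym_law {p p' : (Fin d → Fin n) → ℂ} {c : ℂ} {g : Matrix (Fin n) (Fin n) ℂ}
    (h : ∀ w, form p w = c * form p' (g.mulVec w)) :
    sym p = fun J => c * act (sym p') g J := by
  have h1 : sym p = sym (fun J => c * act p' g J) := by
    apply sym_eq_of_form_eq
    intro w
    rw [form_const_mul, form_act, h]
  rw [h1]
  funext J
  rw [← sym_act]
  unfold sym
  rw [Finset.mul_sum]

end Form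

section XMon

variable {κ : Type*} [Fintype κ] (deg : κ → ℕ) (n : ℕ) (K : κ → ℕ) (N : ℕ)

/-- index type of the monomials of multidegree `(K, N)` -/
abbrev Mon := ((i : κ) → Fin (K i) → (Fin (deg i) → Fin n)) × (Fin N → Fin n)

variable {deg n K N} {R : Type*} [CommRing R]

/-- the value at `(q, v)`, moved by `g`, of a monomial of multidegree `(K, N)`. -/
def xm (q : (i : κ) → (Fin (deg i) → Fin n) → R) (v : Fin n → R)
    (g : Matrix (Fin n) (Fin n) R) (μ : Mon deg n K N) : R :=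
  (∏ i, ∏ s, act (q i) g (μ.1 i s)) * ∏ s, (g.adjugate.mulVec v) (μ.2 s)

theorem xm_map {R' : Type*} [CommRing R'] (ψ : R →+* R')
    (q : (i : κ) → (Fin (deg i) → Fin n) → R) (v : Fin n → R)
    (g : Matrix (Fin n) (Fin n) R) (μ : Mon deg n K N) :
    ψ (xm q v g μ) = xm (fun i J => ψ (q i J)) (fun l => ψ (v l)) (g.map ψ) μ := by
  unfold xm
  rw [map_mul, map_prod, map_prod]
  congr 1
  · refine Finset.prod_congr rfl fun i _ => ?_
    rw [map_prod]
    exact Finset.prod_congr rfl fun s _ => act_map ψ _ _ _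
  · refine Finset.prod_congr rfl fun s _ => ?_
    have h1 : (g.map ψ).adjugate = g.adjugate.map ψ := by
      have := RingHom.map_adjugate ψ g
      simpa [RingHom.mapMatrix_apply] using this.symm
    rw [h1]
    simp only [Matrix.mulVec, dotProduct, map_sum, map_mul, Matrix.map_apply]

/-- transformation of the monomials. -/
theorem xm_law (q : (i : κ) → (Fin (deg i) → Fin n) → R) (c : κ → R) (v : Fin n → R)
    (g h : Matrix (Fin n) (Fin n) R) (μ : Mon deg n K N) :
    g.det ^ N * xm (fun i J => c i * act (q i) g J) v h μ =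
      (∏ i, c i ^ K i) * xm q (g.mulVec v) (g * h) μ := by
  unfold xm
  have h1 : ∏ i, ∏ s, act (fun J => c i * act (q i) g J) h (μ.1 i s) =
      (∏ i, c i ^ K i) * ∏ i, ∏ s, act (q i) (g * h) (μ.1 i s) := by
    rw [← Finset.prod_mul_distrib]
    refine Finset.prod_congr rfl fun i _ => ?_
    have : ∏ s : Fin (K i), act (fun J => c i * act (q i) g J) h (μ.1 i s) =
        ∏ s : Fin (K i), c i * act (q i) (g * h) (μ.1 i s) := by
      refine Finset.prod_congr rfl fun s _ => ?_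
      rw [act_smul, act_mul]
    rw [this, Finset.prod_mul_distrib, Finset.prod_const, Finset.card_univ, Fintype.card_fin]
  have h2 : ∏ s : Fin N, ((g * h).adjugate.mulVec (g.mulVec v)) (μ.2 s) =
      g.det ^ N * ∏ s : Fin N, (h.adjugate.mulVec v) (μ.2 s) := by
    have h3 : (g * h).adjugate.mulVec (g.mulVec v) = g.det • h.adjugate.mulVec v := by
      rw [Matrix.mulVec_mulVec, Matrix.adjugate_mul_distrib, Matrix.mul_assoc,
        Matrix.adjugate_mul, Matrix.mul_smul, Matrix.mul_one, Matrix.smul_mulVec]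
    rw [h3]
    simp only [Pi.smul_apply, smul_eq_mul]
    rw [Finset.prod_mul_distrib, Finset.prod_const, Finset.card_univ, Fintype.card_fin]
  rw [h1, h2]
  ring

end XMon

end Vale.Agent.P281.GIT
end

section

namespace Vale.Agent.P281.GIT

open MvPolynomial Vale.Agent.P281
open scoped ContDiff

set_option linter.unusedSectionVars false
set_option linter.unusedVariables false

section PM

variable {σ : Type*} [Fintype σ] [DecidableEq σ] {V : Type*} [NormedAddCommGroup V]
  [NormedSpace ℂ V]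

/-- maps to polynomials with analytic coefficients -/
def PM (Φ : V → MvPolynomial σ ℂ) : Prop := ∀ α, ContDiff ℂ ω (fun x => coeff α (Φ x))

theorem PM.const (P : MvPolynomial σ ℂ) : PM (fun _ : V => P) := fun α => contDiff_const

theorem PM.of_C {h : V → ℂ} (hh : ContDiff ℂ ω h) :
    PM (fun x => (C (h x) : MvPolynomial σ ℂ)) := by
  intro α
  simp only [coeff_C]
  by_cases h0 : 0 = α
  · simp only [h0, if_true]; exact hh
  · simp only [h0, if_false]; exact contDiff_const

theorem PM.mul {Φ Ψ : V → MvPolynomial σ ℂ} (h : PM Φ) (h' : PM Ψ) :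
    PM (fun x => Φ x * Ψ x) := by
  intro α
  simp only [coeff_mul]
  exact ContDiff.sum fun p _ => (h p.1).mul (h' p.2)

theorem PM.sum {ι : Type*} {s : Finset ι} {Φ : ι → V → MvPolynomial σ ℂ}
    (h : ∀ i ∈ s, PM (Φ i)) : PM (fun x => ∑ i ∈ s, Φ i x) := by
  intro α
  simp only [coeff_sum]
  exact ContDiff.sum fun i hi => h i hi α

theorem PM.prod {ι : Type*} {s : Finset ι} {Φ : ι → V → MvPolynomial σ ℂ}
    (h : ∀ i ∈ s, PM (Φ i)) : PM (fun x => ∏ i ∈ s, Φ i x) := by
  classical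
  induction s using Finset.induction_on with
  | empty => simp only [Finset.prod_empty]; exact PM.const _
  | insert a s ha ih =>
    simp only [Finset.prod_insert ha]
    exact (h a (Finset.mem_insert_self _ _)).mul
      (ih fun i hi => h i (Finset.mem_insert_of_mem hi))

theorem fock_eq_sum (Q P : MvPolynomial σ ℂ) :
    fock Q P = ∑ α ∈ Q.support, coeff α P * (coeff α Q * fact α) := by
  induction P using MvPolynomial.induction_on' with
  | monomial β c =>
    rw [fock_monomial]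
    simp only [coeff_monomial]
    by_cases hβ : β ∈ Q.support
    · rw [Finset.sum_eq_single β]
      · simp
      · intro α _ hα
        rw [if_neg (Ne.symm hα), zero_mul]
      · intro h; exact absurd hβ h
    · rw [notMem_support_iff.1 hβ]
      rw [Finset.sum_eq_zero]
      · simp
      · intro α hα
        have : β ≠ α := fun h => hβ (h ▸ hα)
        rw [if_neg this, zero_mul]
  | add P P' h h' =>
    rw [map_add, h, h', ← Finset.sum_add_distrib]
    refine Finset.sum_congr rfl fun α _ => ?_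
    rw [coeff_add]; ring

theorem PM.fock {Φ : V → MvPolynomial σ ℂ} (h : PM Φ) (Q : MvPolynomial σ ℂ) :
    ContDiff ℂ ω (fun x => GIT.fock Q (Φ x)) := by
  simp only [fock_eq_sum]
  exact ContDiff.sum fun α _ => (h α).mul contDiff_const

end PM

section CovF

variable {κ : Type*} [Fintype κ] {deg : κ → ℕ} {n : ℕ} {K : κ → ℕ} {N : ℕ}

/-- coordinates at `(p, v)` as polynomials in the generic matrix -/
noncomputable def xp (p : Coefs deg n) (v : Fin n → ℂ) (μ : Mon deg n K N) :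
    MvPolynomial (Fin n × Fin n) ℂ :=
  xm (fun i J => (C (sym (p i) J) : MvPolynomial (Fin n × Fin n) ℂ)) (fun l => C (v l)) (XM n) μ

theorem xp_law (p p' : Coefs deg n) (c : κ → ℂ) (g : Matrix (Fin n) (Fin n) ℂ) (v : Fin n → ℂ)
    (h : ∀ i w, form (p i) w = c i * form (p' i) (g.mulVec w)) (μ : Mon deg n K N) :
    C (g.det ^ N) * xp p v μ = C (∏ i, c i ^ K i) * subL g (xp p' (g.mulVec v) μ) := by
  have h1 : ∀ i, (fun J => (C (sym (p i) J) : MvPolynomial (Fin n × Fin n) ℂ)) =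
      fun J => C (c i) * act (fun J => (C (sym (p' i) J) : MvPolynomial (Fin n × Fin n) ℂ))
        (g.map C) J := by
    intro i
    funext J
    rw [sym_law (h i), map_mul, act_map]
  have h2 : (fun l => (C (v l) : MvPolynomial (Fin n × Fin n) ℂ)) = fun l => C (v l) := rfl
  unfold xp
  have h3 : (fun i J => (C (sym (p i) J) : MvPolynomial (Fin n × Fin n) ℂ)) =
      fun i J => C (c i) * act (fun J => (C (sym (p' i) J) : MvPolynomial (Fin n × Fin n) ℂ))
        (g.map C) J := funext h1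
  rw [h3]
  have h4 := xm_law (fun i J => (C (sym (p' i) J) : MvPolynomial (Fin n × Fin n) ℂ))
    (fun i => C (c i)) (fun l => C (v l)) (g.map C) (XM n) μ
  have h5 : (g.map (C : ℂ → MvPolynomial (Fin n × Fin n) ℂ)).det = C g.det := by
    rw [RingHom.map_det]; rfl
  rw [h5, ← map_pow] at h4
  rw [h4, map_prod]
  simp only [map_pow]
  congr 1
  -- the substitution
  have h6 : subL g (xm (fun i J => (C (sym (p' i) J) : MvPolynomial (Fin n × Fin n) ℂ))
      (fun l => C ((g.mulVec v) l)) (XM n) μ) =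
      xm (fun i J => (C (sym (p' i) J) : MvPolynomial (Fin n × Fin n) ℂ))
      (fun l => C ((g.mulVec v) l)) ((XM n).map (subL g)) μ := by
    have := xm_map ((subL g : MvPolynomial (Fin n × Fin n) ℂ →ₐ[ℂ]
      MvPolynomial (Fin n × Fin n) ℂ) : MvPolynomial (Fin n × Fin n) ℂ →+*
      MvPolynomial (Fin n × Fin n) ℂ)
      (fun i J => (C (sym (p' i) J) : MvPolynomial (Fin n × Fin n) ℂ))
      (fun l => C ((g.mulVec v) l)) (XM n) μ
    have hC : ∀ c : ℂ, subL g (C c) = C c := by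
      intro c
      simp only [subL, aeval_eq_bind₁, algHom_C, algebraMap_eq]
    simp only [RingHom.coe_coe, hC] at this
    exact this
  rw [h6, subL_mat]
  congr 1
  funext l
  simp only [Matrix.mulVec, dotProduct, Matrix.map_apply, map_sum, C_mul]

theorem xp_smul (p : Coefs deg n) (c : ℂ) (v : Fin n → ℂ) (μ : Mon deg n K N) :
    xp p (c • v) μ = C (c ^ N) * xp p v μ := by
  unfold xp xm
  have h1 : ∏ s : Fin N, ((XM n).adjugate.mulVec fun l =>
      (C ((c • v) l) : MvPolynomial (Fin n × Fin n) ℂ)) (μ.2 s) =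
      C (c ^ N) * ∏ s : Fin N, ((XM n).adjugate.mulVec fun l => C (v l)) (μ.2 s) := by
    have h2 : (fun l => (C ((c • v) l) : MvPolynomial (Fin n × Fin n) ℂ)) =
        (C c : MvPolynomial (Fin n × Fin n) ℂ) • fun l => C (v l) := by
      funext l
      simp
    rw [h2, Matrix.mulVec_smul]
    simp only [Pi.smul_apply, smul_eq_mul]
    rw [Finset.prod_mul_distrib, Finset.prod_const, Finset.card_univ, Fintype.card_fin, map_pow]
  rw [h1]
  ring

theorem xp_PM (μ : Mon deg n K N) :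
    PM (fun q : Coefs deg n × (Fin n → ℂ) => xp q.1 q.2 μ) := by
  unfold xp xm
  refine PM.mul (PM.prod fun i _ => PM.prod fun s _ => ?_) (PM.prod fun s _ => ?_)
  · unfold act
    refine PM.sum fun J' _ => PM.mul (PM.const _) (PM.of_C ?_)
    unfold sym
    refine ContDiff.sum fun τ _ => ?_
    have h1 : ContDiff ℂ ω (fun q : Coefs deg n × (Fin n → ℂ) => q.1 i) :=
      (ContinuousLinearMap.proj (R := ℂ) (φ := fun i => (Fin (deg i) → Fin n) → ℂ)
        i).contDiff.comp contDiff_fst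
    exact (contDiff_apply ℂ ℂ (fun l => J' (τ l))).comp h1
  · simp only [Matrix.mulVec, dotProduct]
    refine PM.sum fun l _ => PM.mul (PM.const _) (PM.of_C ?_)
    exact (contDiff_apply ℂ ℂ l).comp contDiff_snd

/-- The covariants -/
noncomputable def covF {m : ℕ} {K' : κ → ℕ} {M' N' : ℕ} (j w₁ : ℕ) (μ : Fin j → Mon deg n K N)
    (hK' : ∀ i, K' i = j * K i) (hM' : M' = j * m) (hN' : N' = j * N) :
    Covariant deg n Set.univ K' M' N' where
  C := fun p v => fock ((XM n).det ^ (w₁ + j * (m + N)))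
    ((XM n).det ^ w₁ * ∏ s, xp p v (μ s))
  hol := PM.fock (PM.mul (PM.const _) (PM.prod fun s _ => xp_PM (μ s))) _
  law := by
    intro p p' c g v _ hg hc h
    have h1 : C (g.det ^ (w₁ + N * j)) * ((XM n).det ^ w₁ * ∏ s, xp p v (μ s)) =
        C ((∏ i, c i ^ K i) ^ j) * subL g ((XM n).det ^ w₁ * ∏ s, xp p' (g.mulVec v) (μ s)) := by
      have h2 : ∏ s, (C (g.det ^ N) * xp p v (μ s)) =
          ∏ s, (C (∏ i, c i ^ K i) * subL g (xp p' (g.mulVec v) (μ s))) :=
        Finset.prod_congr rfl fun s _ => xp_law p p' c g v h (μ s)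
      rw [Finset.prod_mul_distrib, Finset.prod_mul_distrib, Finset.prod_const, Finset.prod_const,
        Finset.card_univ, Fintype.card_fin, ← map_prod] at h2
      rw [map_mul, map_pow (subL g), subL_det, mul_pow, pow_add, pow_mul, map_mul,
        map_pow C (g.det ^ N) j]
      calc C (g.det ^ w₁) * C (g.det ^ N) ^ j * ((XM n).det ^ w₁ * ∏ s, xp p v (μ s))
          = C (g.det ^ w₁) * (XM n).det ^ w₁ * (C (g.det ^ N) ^ j * ∏ s, xp p v (μ s)) := by ring
        _ = C (g.det ^ w₁) * (XM n).det ^ w₁ * (C (∏ i, c i ^ K i) ^ j *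
            (subL g) (∏ s, xp p' (g.mulVec v) (μ s))) := by rw [h2]
        _ = _ := by rw [map_pow C, map_pow C]; ring
    have h3 := congrArg (fock ((XM n).det ^ (w₁ + j * (m + N)))) h1
    rw [← smul_eq_C_mul, ← smul_eq_C_mul, map_smul, map_smul, fock_subL_det, smul_eq_mul,
      smul_eq_mul] at h3
    have h4 : g.det ^ (w₁ + N * j) ≠ 0 := pow_ne_zero _ hg
    have h5 : (∏ i, c i ^ K' i) = (∏ i, c i ^ K i) ^ j := by
      rw [← Finset.prod_pow]
      refine Finset.prod_congr rfl fun i _ => ?_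
      rw [hK', ← pow_mul, mul_comm j]
    have h6 : w₁ + j * (m + N) = (w₁ + N * j) + M' := by rw [hM']; ring
    apply mul_left_cancel₀ h4
    rw [h3, h5]
    generalize fock ((XM n).det ^ (w₁ + j * (m + N)))
      ((XM n).det ^ w₁ * ∏ s, xp p' (g.mulVec v) (μ s)) = A
    rw [h6, pow_add]
    ring
  homog := by
    intro p c v
    have h1 : ∏ s, xp p (c • v) (μ s) = C (c ^ N') * ∏ s, xp p v (μ s) := by
      have : ∏ s, xp p (c • v) (μ s) = ∏ s, (C (c ^ N) * xp p v (μ s)) :=
        Finset.prod_congr rfl fun s _ => xp_smul p c v (μ s)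
      rw [this, Finset.prod_mul_distrib, Finset.prod_const, Finset.card_univ, Fintype.card_fin,
        ← map_pow, ← pow_mul, hN', mul_comm j]
    rw [h1]
    have h2 : (XM n).det ^ w₁ * (C (c ^ N') * ∏ s, xp p v (μ s)) =
        (c ^ N') • ((XM n).det ^ w₁ * ∏ s, xp p v (μ s)) := by
      rw [smul_eq_C_mul]; ring
    rw [h2, map_smul, smul_eq_mul]

end CovF

end Vale.Agent.P281.GIT

namespace Vale.Agent.P281.GIT

open Matrix

set_option linter.unusedSectionVars false
set_option linter.unusedVariables false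

variable {L : Type*} [Field L] (O : ValuationSubring L)

/-- invertible matrices over the valuation ring -/
def GLO {ι : Type*} [Fintype ι] [DecidableEq ι] (k : Matrix ι ι L) : Prop :=
  ∃ k' : Matrix ι ι L, (∀ i j, k i j ∈ O) ∧ (∀ i j, k' i j ∈ O) ∧ k * k' = 1 ∧ k' * k = 1

variable {O}

theorem mul_mem_O {ι κ τ : Type*} [Fintype κ] {k : Matrix ι κ L} {l : Matrix κ τ L}
    (hk : ∀ i j, k i j ∈ O) (hl : ∀ i j, l i j ∈ O) : ∀ i j, (k * l) i j ∈ O := by
  intro i j
  rw [Matrix.mul_apply]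
  exact sum_mem fun x _ => mul_mem (hk _ _) (hl _ _)

theorem one_mem_O {ι : Type*} [DecidableEq ι] : ∀ i j, (1 : Matrix ι ι L) i j ∈ O := by
  intro i j
  rw [Matrix.one_apply]
  split_ifs
  · exact one_mem _
  · exact zero_mem _

theorem GLO.one {ι : Type*} [Fintype ι] [DecidableEq ι] : GLO O (1 : Matrix ι ι L) :=
  ⟨1, one_mem_O, one_mem_O, by simp, by simp⟩

theorem GLO.mul {ι : Type*} [Fintype ι] [DecidableEq ι] {k l : Matrix ι ι L} (hk : GLO O k)
    (hl : GLO O l) : GLO O (k * l) := by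
  obtain ⟨k', h1, h2, h3, h4⟩ := hk
  obtain ⟨l', g1, g2, g3, g4⟩ := hl
  refine ⟨l' * k', mul_mem_O h1 g1, mul_mem_O g2 h2, ?_, ?_⟩
  · calc k * l * (l' * k') = k * (l * l') * k' := by simp only [Matrix.mul_assoc]
      _ = 1 := by rw [g3, Matrix.mul_one, h3]
  · calc l' * k' * (k * l) = l' * (k' * k) * l := by simp only [Matrix.mul_assoc]
      _ = 1 := by rw [h4, Matrix.mul_one, g4]

theorem GLO.list_prod {ι : Type*} [Fintype ι] [DecidableEq ι] {l : List (Matrix ι ι L)}
    (h : ∀ k ∈ l, GLO O k) : GLO O l.prod := by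
  induction l with
  | nil => simp only [List.prod_nil]; exact GLO.one
  | cons a l ih =>
    rw [List.prod_cons]
    exact (h a (by simp)).mul (ih fun k hk => h k (by simp [hk]))

theorem GLO.transvection {ι : Type*} [Fintype ι] [DecidableEq ι] {i j : ι} (hij : i ≠ j) {c : L}
    (hc : c ∈ O) : GLO O (Matrix.transvection i j c) := by
  have hmem : ∀ c ∈ O, ∀ a b, (Matrix.transvection i j c) a b ∈ O := by
    intro c hc a b
    rw [Matrix.transvection, Matrix.add_apply]
    refine add_mem (one_mem_O _ _) ?_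
    rw [Matrix.single_apply]
    split_ifs
    · exact hc
    · exact zero_mem _
  refine ⟨Matrix.transvection i j (-c), hmem c hc, hmem _ (neg_mem hc), ?_, ?_⟩
  · rw [Matrix.transvection_mul_transvection_same i j hij, add_neg_cancel, Matrix.transvection_zero]
  · rw [Matrix.transvection_mul_transvection_same i j hij, neg_add_cancel, Matrix.transvection_zero]

theorem GLO.left_equiv {ι κ : Type*} [Fintype ι] [DecidableEq ι] [Fintype κ] [DecidableEq κ]
    (s : κ ≃ ι) (t : κ ≃ ι) {k : Matrix ι ι L} (hk : GLO O k) : GLO O (k.submatrix s t) := by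
  obtain ⟨k', h1, h2, h3, h4⟩ := hk
  refine ⟨k'.submatrix t s, fun i j => h1 _ _, fun i j => h2 _ _, ?_, ?_⟩
  · rw [Matrix.submatrix_mul_equiv, h3, Matrix.submatrix_one_equiv]
  · rw [Matrix.submatrix_mul_equiv, h4, Matrix.submatrix_one_equiv]

theorem GLO.block {r : ℕ} {k : Matrix (Fin r) (Fin r) L} (hk : GLO O k) :
    GLO O (Matrix.fromBlocks k 0 0 (1 : Matrix Unit Unit L)) := by
  obtain ⟨k', h1, h2, h3, h4⟩ := hk
  have hmem : ∀ k : Matrix (Fin r) (Fin r) L, (∀ i j, k i j ∈ O) → ∀ i j,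
      (Matrix.fromBlocks k 0 0 (1 : Matrix Unit Unit L)) i j ∈ O := by
    intro k hk i j
    rcases i with i | i <;> rcases j with j | j
    · exact hk i j
    · exact zero_mem _
    · exact zero_mem _
    · exact one_mem_O i j
  refine ⟨Matrix.fromBlocks k' 0 0 1, hmem k h1, hmem k' h2, ?_, ?_⟩
  · rw [Matrix.fromBlocks_multiply]; simp only [h3, Matrix.mul_zero, add_zero, Matrix.mul_one,
                                       Matrix.zero_mul, mul_one, zero_add, fromBlocks_one]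
  · rw [Matrix.fromBlocks_multiply]; simp [h4]

/-- a pivot with maximal valuation -/
theorem exists_pivot {ι κ : Type*} [Fintype ι] [Fintype κ] (M : Matrix ι κ L) (hM : M ≠ 0) :
    ∃ i₀ j₀, M i₀ j₀ ≠ 0 ∧ ∀ i j, M i j / M i₀ j₀ ∈ O := by
  have hne : Nonempty (ι × κ) := by
    by_contra hcon
    rw [not_nonempty_iff] at hcon
    apply hM
    ext i j
    exact (hcon.false (i, j)).elim
  obtain ⟨⟨i₀, j₀⟩, h⟩ := Finite.exists_max (fun p : ι × κ => O.valuation (M p.1 p.2))
  have h0 : M i₀ j₀ ≠ 0 := by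
    intro h0
    apply hM
    ext i j
    have := h (i, j)
    simp only [h0, map_zero, le_zero_iff] at this
    simpa only [Matrix.zero_apply, map_eq_zero] using this
  refine ⟨i₀, j₀, h0, fun i j => ?_⟩
  rw [← O.valuation_le_one_iff, map_div₀]
  have h1 := h (i, j)
  simp only at h1
  have h2 : O.valuation (M i₀ j₀) ≠ 0 := (map_ne_zero _).2 h0
  exact div_le_one_of_le₀ h1 zero_le

theorem kak_sum {r : ℕ} (IH : ∀ M : Matrix (Fin r) (Fin r) L, ∃ k₁ k₂, GLO O k₁ ∧ GLO O k₂ ∧
    ∃ d : Fin r → L, k₁ * M * k₂ = diagonal d) (M : Matrix (Fin r ⊕ Unit) (Fin r ⊕ Unit) L) :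
    ∃ k₁ k₂, GLO O k₁ ∧ GLO O k₂ ∧ ∃ d : Fin r ⊕ Unit → L, k₁ * M * k₂ = diagonal d := by
  by_cases hM : M = 0
  · refine ⟨1, 1, GLO.one, GLO.one, fun _ => 0, ?_⟩
    rw [hM]; simp
  obtain ⟨i₀, j₀, h0, hdiv⟩ := exists_pivot (O := O) M hM
  set s : Fin r ⊕ Unit ≃ Fin r ⊕ Unit := Equiv.swap (Sum.inr ()) i₀ with hs
  set t : Fin r ⊕ Unit ≃ Fin r ⊕ Unit := Equiv.swap (Sum.inr ()) j₀ with ht
  set M₁ := M.submatrix s t with hM₁
  have hp : M₁ (Sum.inr ()) (Sum.inr ()) = M i₀ j₀ := by simp [hM₁, hs, ht]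
  have hp0 : M₁ (Sum.inr ()) (Sum.inr ()) ≠ 0 := by rw [hp]; exact h0
  have hdiv' : ∀ i j, M₁ i j / M₁ (Sum.inr ()) (Sum.inr ()) ∈ O := by
    intro i j
    rw [hp]
    exact hdiv _ _
  have hA : GLO O (Pivot.listTransvecCol M₁).prod := by
    refine GLO.list_prod fun k hk => ?_
    rw [Pivot.listTransvecCol, List.mem_ofFn] at hk
    obtain ⟨i, rfl⟩ := hk
    refine GLO.transvection (by simp) ?_
    rw [neg_div]
    exact neg_mem (hdiv' _ _)
  have hB : GLO O (Pivot.listTransvecRow M₁).prod := by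
    refine GLO.list_prod fun k hk => ?_
    rw [Pivot.listTransvecRow, List.mem_ofFn] at hk
    obtain ⟨i, rfl⟩ := hk
    refine GLO.transvection (by simp) ?_
    rw [neg_div]
    exact neg_mem (hdiv' _ _)
  have hblock := Pivot.isTwoBlockDiagonal_listTransvecCol_mul_mul_listTransvecRow M₁ hp0
  set A := (Pivot.listTransvecCol M₁).prod with hAdef
  set B := (Pivot.listTransvecRow M₁).prod with hBdef
  set M₂ := A * M₁ * B with hM₂
  have hM₂' : M₂ = fromBlocks M₂.toBlocks₁₁ 0 0 M₂.toBlocks₂₂ := by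
    conv_lhs => rw [← fromBlocks_toBlocks M₂]
    rw [hblock.1, hblock.2]
  obtain ⟨k₁, k₂, hk₁, hk₂, d, hd⟩ := IH M₂.toBlocks₁₁
  have h3 : fromBlocks k₁ 0 0 1 * M₂ * fromBlocks k₂ 0 0 1 =
      diagonal (Sum.elim d (fun _ => M₂.toBlocks₂₂ () ())) := by
    rw [hM₂', fromBlocks_multiply, fromBlocks_multiply]
    simp only [Matrix.mul_zero, add_zero, hd, Matrix.zero_mul, Matrix.mul_one, Matrix.one_mul,
      zero_add]
    have h4 : M₂.toBlocks₂₂ = diagonal (fun _ => M₂.toBlocks₂₂ () ()) := by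
      ext i j
      simp
    conv_lhs => rw [h4]
    rw [fromBlocks_diagonal]
    rfl
  refine ⟨(fromBlocks k₁ 0 0 1 * A).submatrix id s.symm,
    (B * fromBlocks k₂ 0 0 1).submatrix t.symm id, ?_, ?_,
    Sum.elim d (fun _ => M₂.toBlocks₂₂ () ()), ?_⟩
  · exact (hk₁.block.mul hA).left_equiv (Equiv.refl _) s.symm
  · exact (hB.mul hk₂.block).left_equiv t.symm (Equiv.refl _)
  · have h5 : M = M₁.submatrix s.symm t.symm := by
      rw [hM₁]; ext i j; simp
    rw [h5]
    have h6 : (fromBlocks k₁ 0 0 1 * A).submatrix id s.symm * M₁.submatrix s.symm t.symm =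
        ((fromBlocks k₁ 0 0 1 * A) * M₁).submatrix id t.symm :=
      Matrix.submatrix_mul_equiv _ _ _ _ _
    rw [h6]
    have h7 : ((fromBlocks k₁ 0 0 1 * A) * M₁).submatrix id t.symm *
        (B * fromBlocks k₂ 0 0 1).submatrix t.symm id =
        ((fromBlocks k₁ 0 0 1 * A) * M₁ * (B * fromBlocks k₂ 0 0 1)).submatrix id id :=
      Matrix.submatrix_mul_equiv _ _ _ _ _
    rw [h7, Matrix.submatrix_id_id, ← h3, hM₂]
    simp only [Matrix.mul_assoc]

/-- Cartan decomposition over a valuation ring. -/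
theorem kak (O : ValuationSubring L) : ∀ (r : ℕ) (M : Matrix (Fin r) (Fin r) L),
    ∃ k₁ k₂, GLO O k₁ ∧ GLO O k₂ ∧ ∃ d : Fin r → L, k₁ * M * k₂ = diagonal d := by
  intro r
  induction r with
  | zero =>
    intro M
    exact ⟨1, 1, GLO.one, GLO.one, fun _ => 0, by ext i; exact i.elim0⟩
  | succ r ih =>
    intro M
    have e : Fin r ⊕ Unit ≃ Fin (r + 1) := Fintype.equivOfCardEq (by simp only [Fintype.card_sum,
                                                                       Fintype.card_fin,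
                                                                       Fintype.card_unique,
                                                                       Nat.add_left_cancel_iff])
    obtain ⟨k₁, k₂, h1, h2, d, hd⟩ := kak_sum ih (M.submatrix e e)
    refine ⟨k₁.submatrix e.symm e.symm, k₂.submatrix e.symm e.symm, h1.left_equiv _ _,
      h2.left_equiv _ _, d ∘ e.symm, ?_⟩
    have h3 : M = (M.submatrix e e).submatrix e.symm e.symm := by ext i j; simp
    conv_lhs => rw [h3]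
    rw [Matrix.submatrix_mul_equiv, Matrix.submatrix_mul_equiv, hd]
    ext i j
    simp [Matrix.diagonal_apply]

end Vale.Agent.P281.GIT

namespace Vale.Agent.P281.GIT

open MvPolynomial Vale.Agent.P281

set_option linter.unusedSectionVars false
set_option linter.unusedVariables false

section Step1

variable {σ : Type*} [Fintype σ] [DecidableEq σ] {M : Type*}

/-- If all the projections vanish, there is a valuation subring in whose maximal ideal all the
normalized coordinates lie. -/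
theorem exists_valuation (δ : MvPolynomial σ ℂ) (hδ : ∀ w, fock (δ ^ w) (δ ^ w) ≠ 0)
    (b : ℕ) (x : M → MvPolynomial σ ℂ)
    (hnone : ∀ (j w₁ : ℕ) (μ : Fin j → M), 0 < j →
      fock (δ ^ (w₁ + j * b)) (δ ^ w₁ * ∏ s, x (μ s)) = 0) :
    ∃ O : ValuationSubring (FractionRing (MvPolynomial σ ℂ)),
      (∀ c : ℂ, algebraMap ℂ (FractionRing (MvPolynomial σ ℂ)) c ∈ O) ∧
      ∀ μ, O.valuation (algebraMap (MvPolynomial σ ℂ) (FractionRing (MvPolynomial σ ℂ)) (x μ) /
        algebraMap (MvPolynomial σ ℂ) (FractionRing (MvPolynomial σ ℂ)) δ ^ b) < 1 := by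
  set L := FractionRing (MvPolynomial σ ℂ) with hL
  set ι : MvPolynomial σ ℂ →+* L := algebraMap (MvPolynomial σ ℂ) L with hι
  have hinj : Function.Injective ι := IsFractionRing.injective (MvPolynomial σ ℂ) L
  have hδ0 : δ ≠ 0 := by
    intro h0
    have := hδ 1
    rw [h0, pow_one, map_zero] at this
    exact this rfl
  have hιδ : ι δ ≠ 0 := fun h0 => hδ0 (hinj (by rw [h0, map_zero]))
  set xb : M → L := fun μ => ι (x μ) / ι δ ^ b with hxb
  set 𝔫 : Submodule ℂ L := Submodule.span ℂ {z | ∃ (j : ℕ) (μ : Fin j → M), 0 < j ∧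
    z = ∏ s, xb (μ s)} with h𝔫
  -- membership in `𝔫`
  have hmem : ∀ z ∈ 𝔫, ∃ J₀ : ℕ, ∀ J ≥ J₀, ∃ P : MvPolynomial σ ℂ, z * ι δ ^ (J * b) = ι P ∧
      fock (δ ^ (J * b)) P = 0 := by
    intro z hz
    induction hz using Submodule.span_induction with
    | mem z hz =>
      obtain ⟨j, μ, hj, rfl⟩ := hz
      refine ⟨j, fun J hJ => ⟨δ ^ ((J - j) * b) * ∏ s, x (μ s), ?_, ?_⟩⟩
      · rw [map_mul, map_pow, map_prod]
        simp only [hxb]
        rw [Finset.prod_div_distrib, Finset.prod_const, Finset.card_univ, Fintype.card_fin,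
          ← pow_mul]
        have h1 : J * b = b * j + (J - j) * b := by
          obtain ⟨t, rfl⟩ := Nat.exists_eq_add_of_le hJ
          rw [Nat.add_sub_cancel_left]; ring
        rw [h1, pow_add, ← mul_assoc, div_mul_cancel₀ _ (pow_ne_zero (b * j) hιδ), mul_comm]
      · have h1 : J * b = (J - j) * b + j * b := by
          rw [← add_mul, Nat.sub_add_cancel hJ]
        rw [h1]
        exact hnone j _ μ hj
    | zero => exact ⟨0, fun J _ => ⟨0, by simp, by simp⟩⟩
    | add z z' _ _ h h' =>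
      obtain ⟨J₀, h⟩ := h
      obtain ⟨J₁, h'⟩ := h'
      refine ⟨max J₀ J₁, fun J hJ => ?_⟩
      obtain ⟨P, hP1, hP2⟩ := h J ((le_max_left _ _).trans hJ)
      obtain ⟨P', hP1', hP2'⟩ := h' J ((le_max_right _ _).trans hJ)
      exact ⟨P + P', by rw [add_mul, hP1, hP1', map_add], by rw [map_add, hP2, hP2', add_zero]⟩
    | smul c z _ h =>
      obtain ⟨J₀, h⟩ := h
      refine ⟨J₀, fun J hJ => ?_⟩
      obtain ⟨P, hP1, hP2⟩ := h J hJ
      refine ⟨c • P, ?_, by rw [map_smul, hP2, smul_zero]⟩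
      rw [smul_mul_assoc, hP1]
      rw [smul_eq_C_mul, map_mul, Algebra.smul_def]
      rfl
  have h1 : (1 : L) ∉ 𝔫 := by
    intro h
    obtain ⟨J, hJ⟩ := hmem 1 h
    obtain ⟨P, hP1, hP2⟩ := hJ J le_rfl
    rw [one_mul, ← map_pow] at hP1
    have := hinj hP1
    rw [← this] at hP2
    exact hδ _ hP2
  have hxmul : ∀ μ, ∀ z ∈ 𝔫, xb μ * z ∈ 𝔫 := by
    intro μ z hz
    induction hz using Submodule.span_induction with
    | mem z hz =>
      obtain ⟨j, μ', hj, rfl⟩ := hz
      refine Submodule.subset_span ⟨j + 1, Fin.cons μ μ', Nat.succ_pos _, ?_⟩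
      rw [Fin.prod_univ_succ]
      simp only [Fin.cons_zero, Fin.cons_succ]
    | zero => rw [mul_zero]; exact Submodule.zero_mem _
    | add z z' _ _ h h' => rw [mul_add]; exact Submodule.add_mem _ h h'
    | smul c z _ h => rw [mul_smul_comm]; exact Submodule.smul_mem _ _ h
  have hxm : ∀ μ, xb μ ∈ 𝔫 := fun μ => Submodule.subset_span ⟨1, fun _ => μ, one_pos, by simp⟩
  -- the subring
  set Alg : Subalgebra ℂ L := Algebra.adjoin ℂ (Set.range xb) with hAlg
  have hAmul : ∀ a ∈ Alg, ∀ z ∈ 𝔫, a * z ∈ 𝔫 := by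
    intro a ha
    induction ha using Algebra.adjoin_induction with
    | mem a ha =>
      obtain ⟨μ, rfl⟩ := ha
      exact hxmul μ
    | algebraMap c =>
      intro z hz
      rw [← Algebra.smul_def]
      exact Submodule.smul_mem _ _ hz
    | add a b _ _ h h' =>
      intro z hz
      rw [add_mul]
      exact Submodule.add_mem _ (h z hz) (h' z hz)
    | mul a b _ _ h h' =>
      intro z hz
      rw [mul_assoc]
      exact h _ (h' z hz)
  set I : Ideal Alg.toSubring := Ideal.span (Set.range fun μ =>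
    (⟨xb μ, Algebra.subset_adjoin ⟨μ, rfl⟩⟩ : Alg.toSubring)) with hI
  have hI𝔫 : ∀ a ∈ I, (a : L) ∈ 𝔫 := by
    intro a ha
    induction ha using Submodule.span_induction with
    | mem a ha =>
      obtain ⟨μ, rfl⟩ := ha
      exact hxm μ
    | zero => exact Submodule.zero_mem _
    | add a b _ _ h h' => exact Submodule.add_mem _ h h'
    | smul c a _ h => exact hAmul c.1 c.2 _ h
  have hItop : I ≠ ⊤ := by
    intro h
    exact h1 (hI𝔫 1 (by rw [h]; trivial))
  obtain ⟨O, hO1, hO2⟩ := Ideal.image_subset_nonunits_valuationSubring I hItop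
  refine ⟨O, fun c => hO1 (Subalgebra.algebraMap_mem Alg c), fun μ => ?_⟩
  have : xb μ ∈ O.nonunits := hO2 ⟨_, Ideal.subset_span ⟨μ, rfl⟩, rfl⟩
  exact (O.mem_nonunits_iff).1 this

end Step1

section Step5

/-- specialization of a matrix over a valuation ring to a complex matrix. -/
theorem exists_frame {L : Type*} [Field L] [Algebra ℂ L] (O : ValuationSubring L)
    (hO : ∀ c : ℂ, algebraMap ℂ L c ∈ O) {n : ℕ} (a : Matrix (Fin n) (Fin n) L)
    (ha : ∀ i j, a i j ∈ O) (hdet : O.valuation a.det = 1) :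
    ∃ h : Matrix (Fin n) (Fin n) ℂ, h.det ≠ 0 ∧
      ∀ f : MvPolynomial (Fin n × Fin n) ℂ, eval (fun p => h p.1 p.2) f ≠ 0 →
        O.valuation (aeval (fun p => a p.1 p.2) f) = 1 := by
  -- evaluation in the valuation ring
  let C' : ℂ →+* O := (algebraMap ℂ L).codRestrict O.toSubring hO
  let ev : MvPolynomial (Fin n × Fin n) ℂ →+* O :=
    eval₂Hom C' (fun p => (⟨a p.1 p.2, ha _ _⟩ : O))
  have hev : ∀ f, ((ev f : O) : L) = aeval (fun p => a p.1 p.2) f := by
    intro f
    have h1 : (O.subtype.comp ev) = ((aeval (fun p : Fin n × Fin n => a p.1 p.2) :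
        MvPolynomial (Fin n × Fin n) ℂ →ₐ[ℂ] L) : MvPolynomial (Fin n × Fin n) ℂ →+* L) := by
      refine MvPolynomial.ringHom_ext (fun c => ?_) (fun p => ?_)
      · simp only [comp_eval₂Hom, ValuationSubring.subtype_apply, eval₂Hom_C, RingHom.coe_comp,
          ValuationSubring.coe_subtype, Function.comp_apply, RingHom.codRestrict_apply,
          RingHom.coe_coe, algHom_C, ev, C']
      · simp only [comp_eval₂Hom, ValuationSubring.subtype_apply, eval₂Hom_X', RingHom.coe_coe,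
          aeval_X, ev]
    exact congrArg (fun φ : MvPolynomial (Fin n × Fin n) ℂ →+* L => φ f) h1
  set 𝔭 : Ideal (MvPolynomial (Fin n × Fin n) ℂ) :=
    (IsLocalRing.maximalIdeal O).comap ev with h𝔭
  have hprime : 𝔭.IsPrime := Ideal.IsPrime.comap ev
  have hval : ∀ f, f ∉ 𝔭 → O.valuation (aeval (fun p => a p.1 p.2) f) = 1 := by
    intro f hf
    rw [h𝔭, Ideal.mem_comap, IsLocalRing.mem_maximalIdeal, mem_nonunits_iff, not_not] at hf
    rw [← hev]
    exact (O.valuation_eq_one_iff _).1 hf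
  have hdet𝔭 : (XM n).det ∉ 𝔭 := by
    intro h
    rw [h𝔭, Ideal.mem_comap, IsLocalRing.mem_maximalIdeal, mem_nonunits_iff] at h
    apply h
    rw [O.valuation_eq_one_iff, hev]
    have : aeval (fun p : Fin n × Fin n => a p.1 p.2) (XM n).det = a.det := by
      rw [AlgHom.map_det]
      congr 1
      ext i j
      simp [AlgHom.mapMatrix_apply, Matrix.mvPolynomialX_apply]
    rw [this, hdet]
  -- Nullstellensatz
  have hnull := MvPolynomial.vanishingIdeal_zeroLocus_eq_radical (K := ℂ) 𝔭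
  rw [hprime.radical] at hnull
  have hex : ∃ z : Fin n × Fin n → ℂ, z ∈ zeroLocus ℂ 𝔭 ∧ eval z (XM n).det ≠ 0 := by
    by_contra hcon
    push Not at hcon
    apply hdet𝔭
    rw [← hnull, mem_vanishingIdeal_iff]
    intro z hz
    exact hcon z hz
  obtain ⟨z, hz, hzd⟩ := hex
  refine ⟨Matrix.of fun i j => z (i, j), ?_, fun f hf => hval f fun hf𝔭 => hf ?_⟩
  · have : eval z (XM n).det = (Matrix.of fun i j => z (i, j)).det := by
      rw [RingHom.map_det]
      congr 1
      ext i j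
      simp [Matrix.mvPolynomialX_apply]
    rwa [← this]
  · exact (mem_zeroLocus_iff.1 hz) f hf𝔭

end Step5

end Vale.Agent.P281.GIT

namespace Vale.Agent.P281.GIT

open MvPolynomial Vale.Agent.P281

set_option linter.unusedSectionVars false
set_option linter.unusedVariables false

section Basic

variable {L : Type*} [Field L] {O : ValuationSubring L}

theorem GLO.exists_inv {ι : Type*} [Fintype ι] [DecidableEq ι] {k : Matrix ι ι L} (hk : GLO O k) :
    ∃ k', GLO O k' ∧ k * k' = 1 ∧ k' * k = 1 := by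
  obtain ⟨k', h1, h2, h3, h4⟩ := hk
  exact ⟨k', ⟨k, h2, h1, h4, h3⟩, h3, h4⟩

theorem GLO.mem {ι : Type*} [Fintype ι] [DecidableEq ι] {k : Matrix ι ι L} (hk : GLO O k) :
    ∀ i j, k i j ∈ O := hk.choose_spec.1

theorem GLO.det {ι : Type*} [Fintype ι] [DecidableEq ι] {k : Matrix ι ι L} (hk : GLO O k) :
    O.valuation k.det = 1 := by
  have hle : ∀ k : Matrix ι ι L, (∀ i j, k i j ∈ O) → O.valuation k.det ≤ 1 := by
    intro k hk
    rw [O.valuation_le_one_iff, Matrix.det_apply']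
    refine sum_mem fun σ _ => mul_mem ?_ (prod_mem fun i _ => hk _ _)
    exact intCast_mem O _
  obtain ⟨k', h1, h2, h3, h4⟩ := hk
  have h5 : O.valuation k.det * O.valuation k'.det = 1 := by
    rw [← map_mul, ← Matrix.det_mul, h3, Matrix.det_one, map_one]
  refine le_antisymm (hle k h1) ?_
  by_contra hcon
  push Not at hcon
  have : O.valuation k.det * O.valuation k'.det < 1 := by
    calc O.valuation k.det * O.valuation k'.det ≤ O.valuation k.det * 1 :=
          mul_le_mul_right (hle k' h2) _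
      _ < 1 := by rw [mul_one]; exact hcon
  rw [h5] at this
  exact lt_irrefl _ this

theorem val_sum_le {ι : Type*} (s : Finset ι) (a x : ι → L) (B : O.ValueGroup)
    (ha : ∀ i ∈ s, a i ∈ O) (hx : ∀ i ∈ s, O.valuation (x i) ≤ B) :
    O.valuation (∑ i ∈ s, a i * x i) ≤ B := by
  refine O.valuation.map_sum_le fun i hi => ?_
  rw [map_mul]
  calc O.valuation (a i) * O.valuation (x i) ≤ 1 * B :=
        mul_le_mul' ((O.valuation_le_one_iff _).2 (ha i hi)) (hx i hi)
    _ = B := one_mul B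

theorem act_diagonal {n d : ℕ} (q : (Fin d → Fin n) → L) (D : Fin n → L) (J : Fin d → Fin n) :
    act q (Matrix.diagonal D) J = (∏ s, D (J s)) * q J := by
  unfold act
  rw [Finset.sum_eq_single J]
  · simp only [Matrix.diagonal_apply_eq]
  · intro J' _ hJ
    obtain ⟨l, hl⟩ : ∃ l, J' l ≠ J l := by
      by_contra hcon
      push Not at hcon
      exact hJ (funext hcon)
    have : ∏ l, (Matrix.diagonal D : Matrix (Fin n) (Fin n) L) (J' l) (J l) = 0 :=
      Finset.prod_eq_zero (Finset.mem_univ l) (Matrix.diagonal_apply_ne _ hl)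
    rw [this, zero_mul]
  · simp only [Finset.mem_univ, not_true_eq_false, Matrix.diagonal_apply_eq, mul_eq_zero,
      IsEmpty.forall_iff]

/-- number of times that `l` is a value of `J` -/
def cnt {n d : ℕ} (l : Fin n) (J : Fin d → Fin n) : ℕ := (Finset.univ.filter fun s => J s = l).card

theorem prod_cnt {M : Type*} [CommMonoid M] {n d : ℕ} (f : Fin n → M) (J : Fin d → Fin n) :
    ∏ s, f (J s) = ∏ l, f l ^ cnt l J := by
  rw [← Finset.prod_fiberwise' (Finset.univ : Finset (Fin d)) J f]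
  refine Finset.prod_congr rfl fun l _ => ?_
  rw [Finset.prod_const]
  rfl

end Basic

section Main

variable {κ : Type*} [Fintype κ] {deg : κ → ℕ} {n : ℕ} {K : κ → ℕ} {N m : ℕ}

/-- The algebraic Hilbert-Mumford criterion. -/
theorem exists_nonvanishing (p0 : Coefs deg n) (v0 : Fin n → ℂ)
    (hBAL : ∀ h : Matrix (Fin n) (Fin n) ℂ, h.det ≠ 0 →
      ∃ (j0 : Fin n) (J : Fin n → (i : κ) → Fin (deg i) → Fin n) (lam : Fin n → ℕ),
        (h.adjugate.mulVec v0) j0 ≠ 0 ∧ (∀ j i, act (sym (p0 i)) h (J j i) ≠ 0) ∧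
        0 < ∑ j, lam j ∧
        ∀ l, ∑ j, lam j * ∑ i, K i * cnt l (J j i) =
          (∑ j, lam j) * (m + if l = j0 then N else 0)) :
    ∃ (j w₁ : ℕ) (μ : Fin j → Mon deg n K N), 0 < j ∧
      fock ((XM n).det ^ (w₁ + j * (m + N))) ((XM n).det ^ w₁ * ∏ s, xp p0 v0 (μ s)) ≠ 0 := by
  by_contra hcon
  push Not at hcon
  obtain ⟨O, hO1, hO2⟩ := exists_valuation (XM n).det (fun w => fock_det_ne_zero w) (m + N)
    (xp (K := K) (N := N) p0 v0) (fun j w₁ μ hj => hcon j w₁ μ hj)
  set L := FractionRing (MvPolynomial (Fin n × Fin n) ℂ) with hL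
  set ι : MvPolynomial (Fin n × Fin n) ℂ →+* L := algebraMap (MvPolynomial (Fin n × Fin n) ℂ) L
    with hι
  have hinj : Function.Injective ι := IsFractionRing.injective (MvPolynomial (Fin n × Fin n) ℂ) L
  set G : Matrix (Fin n) (Fin n) L := (XM n).map ι with hG
  have hdetG : G.det = ι (XM n).det := by
    rw [hG, RingHom.map_det]; rfl
  have hδ0 : (XM n).det ≠ 0 := by
    intro h0
    have := fock_det_ne_zero (n := n) 1
    rw [h0, pow_one, map_zero] at this
    exact this rfl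
  have hδ : G.det ≠ 0 := by
    rw [hdetG]
    exact fun h0 => hδ0 (hinj (by rw [h0, map_zero]))
  -- the data over `L`
  set q : (i : κ) → (Fin (deg i) → Fin n) → L := fun i J => algebraMap ℂ L (sym (p0 i) J) with hq
  set u : Fin n → L := fun l => algebraMap ℂ L (v0 l) with hu
  have hιC : ∀ c : ℂ, ι (C c) = algebraMap ℂ L c := by
    intro c
    rfl
  have hx : ∀ μ : Mon deg n K N, ι (xp p0 v0 μ) = xm q u G μ := by
    intro μ
    unfold xp
    rw [xm_map]
    simp only [hιC]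
    rfl
  -- decomposition
  obtain ⟨k₁, k₂, hk₁, hk₂, D, hD⟩ := kak O n G
  obtain ⟨a, ha, ha1, ha2⟩ := hk₁.exists_inv
  obtain ⟨c, hc, hc1, hc2⟩ := hk₂.exists_inv
  have hGD : G = a * Matrix.diagonal D * c := by
    rw [← hD]
    calc G = (a * k₁) * G * (k₂ * c) := by rw [ha2, hc1, Matrix.one_mul, Matrix.mul_one]
      _ = a * (k₁ * G * k₂) * c := by simp only [Matrix.mul_assoc]
  have hGk : G * k₂ = a * Matrix.diagonal D := by
    rw [hGD, Matrix.mul_assoc, hc2, Matrix.mul_one]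
  have hvδ : O.valuation G.det = ∏ l, O.valuation (D l) := by
    rw [hGD, Matrix.det_mul, Matrix.det_mul, Matrix.det_diagonal, map_mul, map_mul, ha.det, hc.det,
      one_mul, mul_one, map_prod]
  -- maximal valuations
  have hn : Nonempty (Fin n) := by
    obtain ⟨j0, -⟩ := hBAL 1 (by simp)
    exact ⟨j0⟩
  have hmax1 : ∀ i, ∃ J₀, ∀ J, O.valuation (act (q i) G J) ≤ O.valuation (act (q i) G J₀) :=
    fun i => Finite.exists_max (fun J => O.valuation (act (q i) G J))
  choose Js hJs using hmax1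
  obtain ⟨ls, hls⟩ : ∃ l₀, ∀ l, O.valuation (G.adjugate.mulVec u l) ≤
      O.valuation (G.adjugate.mulVec u l₀) :=
    Finite.exists_max (fun l => O.valuation (G.adjugate.mulVec u l))
  -- the tensor in the diagonal frame
  have ht1 : ∀ i J, O.valuation ((∏ s, D (J s)) * act (q i) a J) ≤
      O.valuation (act (q i) G (Js i)) := by
    intro i J
    rw [← act_diagonal, ← act_mul, ← hGk, act_mul]
    rw [show act (act (q i) G) k₂ J =
      ∑ J' : Fin (deg i) → Fin n, (∏ l, k₂ (J' l) (J l)) * act (q i) G J' from rfl]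
    exact val_sum_le _ _ _ _ (fun J' _ => prod_mem fun l _ => hk₂.mem _ _) fun J' _ => hJs i J'
  have ht2 : ∀ j, O.valuation ((∏ l ∈ Finset.univ.erase j, D l) * (a.adjugate.mulVec u) j) ≤
      O.valuation (G.adjugate.mulVec u ls) := by
    intro j
    have h1 : (∏ l ∈ Finset.univ.erase j, D l) * (a.adjugate.mulVec u) j =
        ((Matrix.diagonal D).adjugate.mulVec (a.adjugate.mulVec u)) j := by
      rw [Matrix.adjugate_diagonal, Matrix.mulVec_diagonal]
    have h2 : (Matrix.diagonal D).adjugate.mulVec (a.adjugate.mulVec u) =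
        (k₂.adjugate).mulVec (G.adjugate.mulVec u) := by
      rw [Matrix.mulVec_mulVec, Matrix.mulVec_mulVec, ← Matrix.adjugate_mul_distrib,
        ← Matrix.adjugate_mul_distrib, hGk]
    rw [h1, h2]
    rw [show (k₂.adjugate).mulVec (G.adjugate.mulVec u) j =
      ∑ l, k₂.adjugate j l * (G.adjugate.mulVec u) l from rfl]
    refine val_sum_le _ _ _ _ (fun l _ => ?_) fun l _ => hls l
    rw [Matrix.adjugate_apply, Matrix.det_apply']
    refine sum_mem fun σ _ => mul_mem (intCast_mem O _) (prod_mem fun i _ => ?_)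
    rw [Matrix.updateRow_apply]
    split_ifs
    · rw [Pi.single_apply]
      split_ifs
      · exact one_mem _
      · exact zero_mem _
    · exact hk₂.mem _ _
  -- the strict inequality
  have hlt : (∏ i, O.valuation (act (q i) G (Js i)) ^ K i) *
      O.valuation (G.adjugate.mulVec u ls) ^ N < O.valuation G.det ^ (m + N) := by
    have h1 := hO2 (fun i s => Js i, fun s => ls)
    rw [hx, map_div₀, map_pow, ← hdetG] at h1
    have h2 : 0 < O.valuation G.det ^ (m + N) :=
      pow_pos (zero_lt_iff.2 ((map_ne_zero _).2 hδ)) _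
    rw [div_lt_one₀ h2] at h1
    refine lt_of_eq_of_lt ?_ h1
    unfold xm
    simp only [Finset.prod_const, Finset.card_univ, Fintype.card_fin, map_mul, map_prod, map_pow]
  -- the frame
  obtain ⟨h, hh, hfr⟩ := exists_frame O hO1 a ha.mem ha.det
  obtain ⟨j0, J, lam, hb1, hb2, hb3, hb4⟩ := hBAL h hh
  have hf1 : ∀ j i, O.valuation (act (q i) a (J j i)) = 1 := by
    intro j i
    have h1 := hfr (act (fun J => (C (sym (p0 i) J) : MvPolynomial (Fin n × Fin n) ℂ)) (XM n)
      (J j i)) ?_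
    · have h2 : aeval (fun p : Fin n × Fin n => a p.1 p.2)
          (act (fun J => (C (sym (p0 i) J) : MvPolynomial (Fin n × Fin n) ℂ)) (XM n) (J j i)) =
          act (q i) a (J j i) := by
        have := act_map ((aeval (fun p : Fin n × Fin n => a p.1 p.2) :
          MvPolynomial (Fin n × Fin n) ℂ →ₐ[ℂ] L) : MvPolynomial (Fin n × Fin n) ℂ →+* L)
          (fun J => (C (sym (p0 i) J) : MvPolynomial (Fin n × Fin n) ℂ)) (XM n) (J j i)
        rw [RingHom.coe_coe] at this
        rw [this]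
        congr 1
        · funext J
          simp [hq]
        · ext i j
          simp only [XM, Matrix.map_apply, Matrix.mvPolynomialX_apply, aeval_X]
      rw [← h2]
      exact h1
    · have := act_map (eval (fun p : Fin n × Fin n => h p.1 p.2))
        (fun J => (C (sym (p0 i) J) : MvPolynomial (Fin n × Fin n) ℂ)) (XM n) (J j i)
      rw [this]
      have h3 : (XM n).map (eval (fun p : Fin n × Fin n => h p.1 p.2)) = h := by
        ext i j
        simp [XM, Matrix.mvPolynomialX_apply]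
      rw [h3]
      simpa only [eval_C, ne_eq] using hb2 j i
  have hf2 : O.valuation ((a.adjugate.mulVec u) j0) = 1 := by
    have h1 := hfr (((XM n).adjugate.mulVec
      (fun l => (C (v0 l) : MvPolynomial (Fin n × Fin n) ℂ))) j0) ?_
    · have h2 : aeval (fun p : Fin n × Fin n => a p.1 p.2)
          (((XM n).adjugate.mulVec
            (fun l => (C (v0 l) : MvPolynomial (Fin n × Fin n) ℂ))) j0) =
          (a.adjugate.mulVec u) j0 := by
        have h3 : a = (XM n).map (aeval (fun p : Fin n × Fin n => a p.1 p.2) :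
          MvPolynomial (Fin n × Fin n) ℂ →ₐ[ℂ] L) := by
          ext i j
          simp only [XM, Matrix.map_apply, Matrix.mvPolynomialX_apply, aeval_X]
        have h4 : a.adjugate = (XM n).adjugate.map (aeval (fun p : Fin n × Fin n => a p.1 p.2) :
          MvPolynomial (Fin n × Fin n) ℂ →ₐ[ℂ] L) := by
          conv_lhs => rw [h3]
          have := AlgHom.map_adjugate (aeval (fun p : Fin n × Fin n => a p.1 p.2) :
            MvPolynomial (Fin n × Fin n) ℂ →ₐ[ℂ] L) (XM n)
          rw [AlgHom.mapMatrix_apply, AlgHom.mapMatrix_apply] at this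
          exact this.symm
        rw [h4]
        simp only [Matrix.mulVec, dotProduct, map_sum, map_mul, algHom_C, Matrix.map_apply, hu]
        rfl
      rw [← h2]
      exact h1
    · have h3 : (XM n).map (eval (fun p : Fin n × Fin n => h p.1 p.2)) = h := by
        ext i j
        simp [XM, Matrix.mvPolynomialX_apply]
      have h4 : h.adjugate = (XM n).adjugate.map (eval (fun p : Fin n × Fin n => h p.1 p.2)) := by
        conv_lhs => rw [← h3]
        have := RingHom.map_adjugate (eval (fun p : Fin n × Fin n => h p.1 p.2)) (XM n)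
        rw [RingHom.mapMatrix_apply, RingHom.mapMatrix_apply] at this
        exact this.symm
      have h5 : (eval fun p : Fin n × Fin n => h p.1 p.2)
          (((XM n).adjugate.mulVec
            (fun l => (C (v0 l) : MvPolynomial (Fin n × Fin n) ℂ))) j0) =
          (h.adjugate.mulVec v0) j0 := by
        rw [h4]
        simp only [Matrix.mulVec, dotProduct, map_sum, map_mul, eval_C, Matrix.map_apply]
      rw [h5]
      exact hb1
  -- combine
  set d : Fin n → O.ValueGroup := fun l => O.valuation (D l) with hd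
  have hd0 : ∀ l, d l ≠ 0 := by
    intro l h0
    have h1 : O.valuation G.det = 0 := by
      rw [hvδ]; exact Finset.prod_eq_zero (Finset.mem_univ l) h0
    exact hδ ((map_eq_zero _).1 h1)
  have hineq : ∀ j, (∏ i, (∏ l, d l ^ cnt l (J j i)) ^ K i) *
      (∏ l ∈ Finset.univ.erase j0, d l) ^ N ≤
      (∏ i, O.valuation (act (q i) G (Js i)) ^ K i) * O.valuation (G.adjugate.mulVec u ls) ^ N := by
    intro j
    refine mul_le_mul' (Finset.prod_le_prod' fun i _ => pow_le_pow_left' ?_ _)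
      (pow_le_pow_left' ?_ _)
    · have := ht1 i (J j i)
      rw [map_mul, hf1, mul_one, map_prod] at this
      rw [← prod_cnt d]
      exact this
    · have := ht2 j0
      rw [map_mul, hf2, mul_one, map_prod] at this
      exact this
  set A := (∏ i, O.valuation (act (q i) G (Js i)) ^ K i) *
    O.valuation (G.adjugate.mulVec u ls) ^ N with hA
  have hprod : ∏ j, ((∏ i, (∏ l, d l ^ cnt l (J j i)) ^ K i) *
      (∏ l ∈ Finset.univ.erase j0, d l) ^ N) ^ lam j ≤ A ^ (∑ j, lam j) := by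
    rw [← Finset.prod_pow_eq_pow_sum]
    exact Finset.prod_le_prod' fun j _ => pow_le_pow_left' (hineq j) _
  have hstrict : A ^ (∑ j, lam j) < (O.valuation G.det ^ (m + N)) ^ (∑ j, lam j) :=
    pow_lt_pow_left₀ hlt zero_le hb3.ne'
  have heq : ∏ j, ((∏ i, (∏ l, d l ^ cnt l (J j i)) ^ K i) *
      (∏ l ∈ Finset.univ.erase j0, d l) ^ N) ^ lam j =
      (O.valuation G.det ^ (m + N)) ^ (∑ j, lam j) := by
    have h1 : ∀ j, (∏ i, (∏ l, d l ^ cnt l (J j i)) ^ K i) = ∏ l, d l ^ (∑ i, K i * cnt l (J j i)) := by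
      intro j
      simp only [← Finset.prod_pow]
      rw [Finset.prod_comm]
      refine Finset.prod_congr rfl fun l _ => ?_
      rw [← Finset.prod_pow_eq_pow_sum]
      refine Finset.prod_congr rfl fun i _ => ?_
      rw [← pow_mul, mul_comm]
    simp only [h1, mul_pow]
    rw [Finset.prod_mul_distrib]
    have h2 : ∏ j, (∏ l, d l ^ (∑ i, K i * cnt l (J j i))) ^ lam j =
        ∏ l, d l ^ ((∑ j, lam j) * (m + if l = j0 then N else 0)) := by
      simp only [← Finset.prod_pow]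
      rw [Finset.prod_comm]
      refine Finset.prod_congr rfl fun l _ => ?_
      rw [← hb4 l, ← Finset.prod_pow_eq_pow_sum]
      refine Finset.prod_congr rfl fun j _ => ?_
      rw [← pow_mul, mul_comm]
    have h3 : ∏ j, ((∏ l ∈ Finset.univ.erase j0, d l) ^ N) ^ lam j =
        ((∏ l ∈ Finset.univ.erase j0, d l) ^ N) ^ (∑ j, lam j) :=
      Finset.prod_pow_eq_pow_sum _ _ _
    rw [h2, h3, hvδ]
    have h4 : ∏ l, d l ^ ((∑ j, lam j) * (m + if l = j0 then N else 0)) =
        ((∏ l, d l) ^ m * d j0 ^ N) ^ (∑ j, lam j) := by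
      have : ∀ l, d l ^ ((∑ j, lam j) * (m + if l = j0 then N else 0)) =
          (d l ^ m * (if l = j0 then d j0 ^ N else 1)) ^ (∑ j, lam j) := by
        intro l
        rw [mul_comm (∑ j, lam j), pow_mul, pow_add]
        congr 2
        split_ifs with hl
        · rw [hl]
        · rw [pow_zero]
      rw [Finset.prod_congr rfl fun l _ => this l, Finset.prod_pow, Finset.prod_mul_distrib,
        Finset.prod_pow, Finset.prod_ite_eq' Finset.univ j0, if_pos (Finset.mem_univ j0)]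
    rw [h4, ← mul_pow]
    congr 1
    have h5 : d j0 * ∏ l ∈ Finset.univ.erase j0, d l = ∏ l, d l :=
      Finset.mul_prod_erase Finset.univ d (Finset.mem_univ j0)
    rw [pow_add, mul_assoc, ← mul_pow, h5]
  exact absurd (hprod.trans_lt hstrict) (by rw [heq]; exact lt_irrefl _)

end Main

end Vale.Agent.P281.GIT

namespace Vale.Agent.P281.GIT

open MvPolynomial Vale.Agent.P281
open scoped ContDiff

set_option linter.unusedSectionVars false
set_option linter.unusedVariables false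

section Kernel

/-- kernel vectors of integral matrices with zero column sums and nonpositive off-diagonal
entries. -/
theorem exists_kernel {n : ℕ} (hn : 0 < n) (B : Matrix (Fin n) (Fin n) ℤ)
    (hcol : ∀ j, ∑ l, B l j = 0) (hoff : ∀ l j, l ≠ j → B l j ≤ 0) :
    ∃ lam : Fin n → ℕ, 0 < ∑ j, lam j ∧ ∀ l, ∑ j, B l j * (lam j : ℤ) = 0 := by
  classical
  have hdet : B.det = 0 := by
    rw [← Matrix.exists_vecMul_eq_zero_iff]
    refine ⟨fun _ => 1, fun h => ?_, ?_⟩
    · have := congrFun h ⟨0, hn⟩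
      simp only [Pi.zero_apply, one_ne_zero] at this
    · funext j
      simp only [Matrix.vecMul, dotProduct, one_mul, hcol, Pi.zero_apply]
  obtain ⟨μ, hμ0, hμ⟩ := Matrix.exists_mulVec_eq_zero_iff.2 hdet
  refine ⟨fun j => (μ j).natAbs, ?_, ?_⟩
  · obtain ⟨j, hj⟩ := Function.ne_iff.1 hμ0
    refine Finset.sum_pos' (fun _ _ => Nat.zero_le _) ⟨j, Finset.mem_univ j, ?_⟩
    exact Int.natAbs_pos.2 hj
  · have habs : ∀ j, ((μ j).natAbs : ℤ) = |μ j| := fun j => Int.natCast_natAbs _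
    simp only [habs]
    have hdiag : ∀ l, 0 ≤ B l l := by
      intro l
      have h1 := hcol l
      rw [← Finset.add_sum_erase _ _ (Finset.mem_univ l)] at h1
      have h2 : ∑ x ∈ Finset.univ.erase l, B x l ≤ 0 :=
        Finset.sum_nonpos fun x hx => hoff x l (Finset.ne_of_mem_erase hx)
      linarith only [h1, h2]
    have hle : ∀ l, ∑ j, B l j * |μ j| ≤ 0 := by
      intro l
      have h1 : ∑ j, B l j * μ j = 0 := by
        have := congrFun hμ l
        simpa only [Matrix.mulVec, dotProduct, Pi.zero_apply] using this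
      rw [← Finset.add_sum_erase _ _ (Finset.mem_univ l)] at h1 ⊢
      have h2 : B l l * |μ l| = |∑ x ∈ Finset.univ.erase l, B l x * μ x| := by
        have h3 : ∑ x ∈ Finset.univ.erase l, B l x * μ x = -(B l l * μ l) := by linarith only [h1]
        rw [h3, abs_neg, abs_mul, abs_of_nonneg (hdiag l)]
      have h4 : |∑ x ∈ Finset.univ.erase l, B l x * μ x| ≤
          ∑ x ∈ Finset.univ.erase l, -(B l x * |μ x|) := by
        refine (Finset.abs_sum_le_sum_abs _ _).trans (Finset.sum_le_sum fun x hx => ?_)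
        rw [abs_mul, abs_of_nonpos (hoff l x (Finset.ne_of_mem_erase hx).symm)]
        linarith only []
      rw [Finset.sum_neg_distrib] at h4
      linarith only [h2, h4]
    have hsum : ∑ l, ∑ j, B l j * |μ j| = 0 := by
      rw [Finset.sum_comm]
      refine Finset.sum_eq_zero fun j _ => ?_
      rw [← Finset.sum_mul, hcol, zero_mul]
    intro l
    exact (Finset.sum_eq_zero_iff_of_nonpos fun l _ => hle l).1 hsum l (Finset.mem_univ l)

end Kernel

section Hall

/-- Linearly independent functionals admit an injective choice of vectors in a spanning family. -/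
theorem exists_injective {Z : Type*} [Fintype Z] {V : Type*} [NormedAddCommGroup V]
    [NormedSpace ℂ V] (φ : Z → (V →L[ℂ] ℂ)) (hφ : LinearIndependent ℂ φ) {n : ℕ}
    (e : Fin n → V) (he : ⊤ ≤ Submodule.span ℂ (Set.range e)) :
    ∃ f : Z → Fin n, Function.Injective f ∧ ∀ i, φ i (e (f i)) ≠ 0 := by
  classical
  have hall := (Finset.all_card_le_biUnion_card_iff_exists_injective
    (fun i : Z => Finset.univ.filter fun k => φ i (e k) ≠ 0)).1 ?_
  · obtain ⟨f, hf, hf'⟩ := hall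
    refine ⟨f, hf, fun i => ?_⟩
    have := hf' i
    simpa only [ne_eq, Finset.mem_filter, Finset.mem_univ, true_and] using this
  · intro s
    set U := s.biUnion (fun i : Z => Finset.univ.filter fun k => φ i (e k) ≠ 0) with hU
    have hli : LinearIndependent ℂ (fun i : s => fun k : U => φ i (e k)) := by
      rw [Fintype.linearIndependent_iff]
      intro g hg i
      have h1 : ∑ i : s, g i • φ i = 0 := by
        have h2 : ∀ k, (∑ i : s, g i • φ i) (e k) = 0 := by
          intro k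
          by_cases hk : k ∈ U
          · have := congrFun hg ⟨k, hk⟩
            simpa only [Finset.univ_eq_attach, sum_apply, smul_apply, smul_eq_mul,
              Finset.sum_apply, Pi.smul_apply, Pi.zero_apply] using this
          · rw [ContinuousLinearMap.sum_apply]
            refine Finset.sum_eq_zero fun i _ => ?_
            have : φ i (e k) = 0 := by
              by_contra hne
              apply hk
              rw [hU, Finset.mem_biUnion]
              exact ⟨i, i.2, by simpa only [ne_eq, Finset.mem_filter, Finset.mem_univ,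
                                  true_and] using hne⟩
            simp only [smul_apply, this, smul_eq_mul, mul_zero]
        ext x
        have hx : x ∈ Submodule.span ℂ (Set.range e) := he trivial
        induction hx using Submodule.span_induction with
        | mem x hx => obtain ⟨k, rfl⟩ := hx; simpa only [Finset.univ_eq_attach, sum_apply,
                                               smul_apply, smul_eq_mul, zero_apply] using h2 k
        | zero => simp only [Finset.univ_eq_attach, sum_apply, smul_apply, map_zero, smul_eq_mul,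
                    mul_zero, Finset.sum_const_zero, zero_apply]
        | add x y _ _ hx hy => rw [map_add, hx, hy]; simp
        | smul c x _ hx => rw [map_smul, hx]; simp
      have h3 := (Fintype.linearIndependent_iff.1 (hφ.comp (fun i : s => (i : Z))
        Subtype.val_injective)) g h1 i
      exact h3
    have := hli.fintype_card_le_finrank
    simpa only [ge_iff_le, Fintype.card_coe, Module.finrank_fintype_fun_eq_card] using this

end Hall

section Update

variable {n d : ℕ}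

theorem mlin_single (s : (Fin d → Fin n) → ℂ) (J : Fin d → Fin n) :
    mlin s (fun l => Pi.single (J l) 1) = s J := by
  rw [mlin_apply, Finset.sum_eq_single J]
  · simp only [Pi.single_eq_same, Finset.prod_const_one, mul_one]
  · intro J' _ hJ
    obtain ⟨l, hl⟩ : ∃ l, J' l ≠ J l := by
      by_contra hcon
      push Not at hcon
      exact hJ (funext hcon)
    have : ∏ l, (Pi.single (J l) 1 : Fin n → ℂ) (J' l) = 0 :=
      Finset.prod_eq_zero (Finset.mem_univ l) (by simp [hl])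
    rw [this, mul_zero]
  · simp only [Finset.mem_univ, not_true_eq_false, Pi.single_eq_same, Finset.prod_const_one,
      mul_one, IsEmpty.forall_iff]

theorem form_eq_mlin (s : (Fin d → Fin n) → ℂ) : form s = fun w => mlin s (fun _ => w) := by
  funext w
  rw [mlin_apply]
  rfl

theorem fderiv_form_single (s : (Fin d → Fin n) → ℂ) (j k : Fin n) :
    fderiv ℂ (form s) (Pi.single j 1) (Pi.single k 1) =
      ∑ l, s (Function.update (fun _ => j) l k) := by
  have h1 : HasFDerivAt (form s) (((mlin s).linearDeriv (fun _ => Pi.single j 1)).comp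
      (ContinuousLinearMap.pi fun _ : Fin d => ContinuousLinearMap.id ℂ (Fin n → ℂ)))
      (Pi.single j 1) := by
    rw [form_eq_mlin]
    have h2 : HasFDerivAt (fun w : Fin n → ℂ => (fun _ : Fin d => w))
        (ContinuousLinearMap.pi fun _ : Fin d => ContinuousLinearMap.id ℂ (Fin n → ℂ))
        (Pi.single j 1) := by
      rw [hasFDerivAt_pi']
      intro i
      exact hasFDerivAt_id _
    exact ((mlin s).hasFDerivAt (fun _ => Pi.single j 1)).comp _ h2
  rw [h1.fderiv]
  simp only [ContinuousLinearMap.comp_apply, ContinuousMultilinearMap.linearDeriv_apply]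
  refine Finset.sum_congr rfl fun l _ => ?_
  rw [← mlin_single s (Function.update (fun _ => j) l k)]
  congr 1
  funext l'
  by_cases h : l' = l
  · subst h; simp
  · simp [Function.update_of_ne h]

theorem sym_perm (p : (Fin d → Fin n) → ℂ) (J : Fin d → Fin n) (τ : Equiv.Perm (Fin d)) :
    sym p (fun l => J (τ l)) = sym p J := by
  unfold sym
  exact Fintype.sum_equiv (Equiv.mulLeft τ) _ _ fun σ => rfl

theorem sym_update (p : (Fin d → Fin n) → ℂ) (j k : Fin n) (l l0 : Fin d) :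
    sym p (Function.update (fun _ => j) l k) = sym p (Function.update (fun _ => j) l0 k) := by
  rw [← sym_perm p (Function.update (fun _ => j) l0 k) (Equiv.swap l l0)]
  congr 1
  funext x
  by_cases h : x = l
  · subst h; simp
  · rw [Function.update_of_ne h, Function.update_of_ne]
    intro h'
    apply h
    have := congrArg (Equiv.swap l l0) h'
    simpa using this

theorem form_sym (p : (Fin d → Fin n) → ℂ) (w : Fin n → ℂ) :
    form (sym p) w = (Fintype.card (Equiv.Perm (Fin d)) : ℂ) * form p w := by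
  unfold form sym
  simp only [Finset.sum_mul]
  rw [Finset.sum_comm]
  have : ∀ σ : Equiv.Perm (Fin d), ∑ J : Fin d → Fin n, p (fun l => J (σ l)) * ∏ l, w (J l) =
      ∑ J : Fin d → Fin n, p J * ∏ l, w (J l) := by
    intro σ
    refine Fintype.sum_equiv (Equiv.arrowCongr σ.symm (Equiv.refl (Fin n))) _ _ fun J => ?_
    have h1 : (Equiv.arrowCongr σ.symm (Equiv.refl (Fin n))) J = fun l => J (σ l) := by
      funext l
      simp [Equiv.arrowCongr]
    rw [h1]
    congr 1
    exact (Equiv.prod_comp σ (fun l => w (J l))).symm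
  rw [Finset.sum_congr rfl fun σ _ => this σ, Finset.sum_const, nsmul_eq_mul, Finset.card_univ]

theorem sym_const_ne (p : (Fin d → Fin n) → ℂ) (j : Fin n)
    (h : form p (Pi.single j 1) ≠ 0) : sym p (fun _ => j) ≠ 0 := by
  have h1 : sym p (fun _ => j) = form (sym p) (Pi.single j 1) := by
    rw [form_eq_mlin]
    exact (mlin_single (sym p) (fun _ => j)).symm
  rw [h1, form_sym]
  refine mul_ne_zero ?_ h
  exact_mod_cast Fintype.card_ne_zero

theorem sym_update_ne (p : (Fin d → Fin n) → ℂ) (j k : Fin n) (l0 : Fin d)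
    (h : fderiv ℂ (form p) (Pi.single j 1) (Pi.single k 1) ≠ 0) :
    sym p (Function.update (fun _ => j) l0 k) ≠ 0 := by
  intro h0
  have h1 : fderiv ℂ (form (sym p)) (Pi.single j 1) (Pi.single k 1) = 0 := by
    rw [fderiv_form_single]
    exact Finset.sum_eq_zero fun l _ => by rw [sym_update p j k l l0, h0]
  have h2 : form (sym p) = fun w => (Fintype.card (Equiv.Perm (Fin d)) : ℂ) * form p w :=
    funext fun w => form_sym p w
  have h3 : DifferentiableAt ℂ (form p) (Pi.single j 1) :=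
    ((form_contDiff p).differentiable (by simp)).differentiableAt
  rw [h2, fderiv_const_mul h3] at h1
  have h4 : (Fintype.card (Equiv.Perm (Fin d)) : ℂ) ≠ 0 := by exact_mod_cast Fintype.card_ne_zero
  apply h
  have := h1
  simp only [ContinuousLinearMap.smul_apply, smul_eq_mul] at this
  exact (mul_eq_zero.1 this).resolve_left h4

end Update

section Bal

variable {κ : Type*} [Fintype κ] {deg : κ → ℕ} {n : ℕ} {K : κ → ℕ} {N m : ℕ}

/-- transversality of a tuple of forms -/
def TrForm (p : Coefs deg n) : Prop :=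
  ∀ w : Fin n → ℂ, w ≠ 0 → LinearIndependent ℂ
    (fun i : {i // form (p i) w = 0} => fderiv ℂ (form (p i)) w)

theorem euler {d : ℕ} (p : (Fin d → Fin n) → ℂ) (w : Fin n → ℂ) (h : form p w = 0) :
    fderiv ℂ (form p) w w = 0 := by
  have h1 : HasFDerivAt (form p) (fderiv ℂ (form p) w) ((1 : ℂ) • w) := by
    rw [one_smul]
    exact (((form_contDiff p).differentiable (by simp)).differentiableAt).hasFDerivAt
  have h2 : HasDerivAt (fun c : ℂ => c • w) w 1 := by
    simpa using (hasDerivAt_id (1 : ℂ)).smul_const w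
  have h3 : HasDerivAt (form p ∘ fun c : ℂ => c • w) (fderiv ℂ (form p) w w) 1 :=
    HasFDerivAt.comp_hasDerivAt (f := fun c : ℂ => c • w) (1 : ℂ) h1 h2
  have h4 : (form p ∘ fun c : ℂ => c • w) = fun _ => 0 := by
    funext c
    show form p (c • w) = 0
    rw [form_smul, h, mul_zero]
  rw [h4] at h3
  exact h3.unique (hasDerivAt_const _ _)

theorem TrForm.act {p : Coefs deg n} (hp : TrForm p) {h : Matrix (Fin n) (Fin n) ℂ}
    (hh : h.det ≠ 0) : TrForm (fun i => GIT.act (p i) h : Coefs deg n) := by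
  intro w hw
  have hu : IsUnit h := (Matrix.isUnit_iff_isUnit_det h).2 (isUnit_iff_ne_zero.2 hh)
  have hw' : h.mulVec w ≠ 0 := by
    intro h0
    apply hw
    exact (Matrix.mulVec_injective_iff_isUnit.2 hu) (by rw [h0, Matrix.mulVec_zero])
  have h1 := hp (h.mulVec w) hw'
  have h2 : ∀ i, fderiv ℂ (form (GIT.act (p i) h)) w =
      (fderiv ℂ (form (p i)) (h.mulVec w)).comp (LinearMap.toContinuousLinearMap h.mulVecLin) := by
    intro i
    have h3 : form (GIT.act (p i) h) = (form (p i)) ∘ fun w => h.mulVec w :=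
      funext fun w => form_act _ _ _
    rw [h3]
    have h4 : HasFDerivAt (fun w => h.mulVec w) (LinearMap.toContinuousLinearMap h.mulVecLin) w :=
      (LinearMap.toContinuousLinearMap h.mulVecLin).hasFDerivAt
    exact ((((form_contDiff (p i)).differentiable (by simp)).differentiableAt).hasFDerivAt.comp
      w h4).fderiv
  -- the linear map of precomposition is injective
  let Ψ : ((Fin n → ℂ) →L[ℂ] ℂ) →ₗ[ℂ] ((Fin n → ℂ) →L[ℂ] ℂ) :=
    { toFun := fun φ => φ.comp (LinearMap.toContinuousLinearMap h.mulVecLin)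
      map_add' := fun _ _ => rfl
      map_smul' := fun _ _ => rfl }
  have hΨ : LinearMap.ker Ψ = ⊥ := by
    rw [LinearMap.ker_eq_bot']
    intro φ hφ
    ext1 x
    obtain ⟨y, rfl⟩ := (Matrix.mulVec_surjective_iff_isUnit.2 hu) x
    exact congrArg (fun ψ : (Fin n → ℂ) →L[ℂ] ℂ => ψ y) hφ
  have h5 := h1.map' Ψ hΨ
  have hZ : ∀ i, form (GIT.act (p i) h) w = 0 ↔ form (p i) (h.mulVec w) = 0 := fun i => by
    rw [form_act]
  let s : {i // form (GIT.act (p i) h) w = 0} → {i // form (p i) (h.mulVec w) = 0} :=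
    fun i => ⟨i.1, (hZ i.1).1 i.2⟩
  have hs : Function.Injective s := fun i j hij => Subtype.ext (congrArg (fun z => z.1) hij)
  have h6 := h5.comp s hs
  have h7 : (fun i : {i // form (GIT.act (p i) h) w = 0} => fderiv ℂ (form (GIT.act (p i) h)) w) =
      (⇑Ψ ∘ fun i : {i // form (p i) (h.mulVec w) = 0} => fderiv ℂ (form (p i)) (h.mulVec w)) ∘ s := by
    funext i
    rw [h2]
    rfl
  rw [h7]
  exact h6

theorem sum_cnt {d : ℕ} (J : Fin d → Fin n) : ∑ l, cnt l J = d := by
  unfold cnt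
  rw [← Finset.card_eq_sum_card_fiberwise (f := J) (s := Finset.univ) (t := Finset.univ)
    (fun x _ => Finset.mem_univ _)]
  simp only [Finset.card_univ, Fintype.card_fin]

theorem cnt_const {d : ℕ} {j l : Fin n} (h : l ≠ j) : cnt l (fun _ : Fin d => j) = 0 := by
  unfold cnt
  rw [Finset.card_eq_zero, Finset.filter_eq_empty_iff]
  intro s _
  exact h.symm

theorem cnt_update {d : ℕ} {j l k : Fin n} (l0 : Fin d) (h : l ≠ j) :
    cnt l (Function.update (fun _ : Fin d => j) l0 k) = if k = l then 1 else 0 := by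
  unfold cnt
  split_ifs with hk
  · have : (Finset.univ.filter fun s => Function.update (fun _ : Fin d => j) l0 k s = l) = {l0} := by
      ext s
      simp only [Finset.mem_filter, Finset.mem_univ, true_and, Finset.mem_singleton]
      by_cases hs : s = l0
      · subst hs; simp [hk]
      · rw [Function.update_of_ne hs]
        exact ⟨fun h' => absurd h'.symm h, fun h' => absurd h' hs⟩
    rw [this, Finset.card_singleton]
  · rw [Finset.card_eq_zero, Finset.filter_eq_empty_iff]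
    intro s _
    by_cases hs : s = l0
    · subst hs; simpa using hk
    · rw [Function.update_of_ne hs]
      exact h.symm

theorem bal_one (p : Coefs deg n) (hp : TrForm p) (u : Fin n → ℂ) (hu : u ≠ 0)
    (hK : ∀ i, K i ≤ m) (hsum : n * m + N = ∑ i, deg i * K i) :
    ∃ (j0 : Fin n) (J : Fin n → (i : κ) → Fin (deg i) → Fin n) (lam : Fin n → ℕ),
      u j0 ≠ 0 ∧ (∀ j i, sym (p i) (J j i) ≠ 0) ∧ 0 < ∑ j, lam j ∧
      ∀ l, ∑ j, lam j * ∑ i, K i * cnt l (J j i) =
        (∑ j, lam j) * (m + if l = j0 then N else 0) := by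
  classical
  obtain ⟨j0, hj0⟩ := Function.ne_iff.1 hu
  have hn : 0 < n := j0.pos
  have he : ⊤ ≤ Submodule.span ℂ (Set.range fun k : Fin n => (Pi.single k 1 : Fin n → ℂ)) := by
    have := (Pi.basisFun ℂ (Fin n)).span_eq
    rw [← this]
    apply Submodule.span_mono
    rintro _ ⟨k, rfl⟩
    exact ⟨k, by simp⟩
  have hne : ∀ j : Fin n, (Pi.single j 1 : Fin n → ℂ) ≠ 0 := by
    intro j h
    have := congrFun h j
    simp at this
  have hall : ∀ j : Fin n, ∃ f : {i // form (p i) (Pi.single j 1) = 0} → Fin n,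
      Function.Injective f ∧
      ∀ i : {i // form (p i) (Pi.single j 1) = 0},
        fderiv ℂ (form (p i.1)) (Pi.single j 1) (Pi.single (f i) 1) ≠ 0 :=
    fun j => exists_injective _ (hp _ (hne j)) _ he
  choose f hf hf' using hall
  have hfj : ∀ j i, f j i ≠ j := by
    intro j i h
    apply hf' j i
    rw [h]
    exact euler _ _ i.2
  have hdeg : ∀ j (i : {i // form (p i) (Pi.single j 1) = 0}), 0 < deg i := by
    intro j i
    by_contra hcon
    have hd : deg i.1 = 0 := by omega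
    apply hf' j i
    have h2 : form (p i.1) = fun _ => form (p i.1) 0 := by
      funext w
      have h1 := form_smul (p i.1) (0 : ℂ) w
      have hpow : (0 : ℂ) ^ deg i.1 = 1 := by rw [hd, pow_zero]
      rw [zero_smul, hpow, one_mul] at h1
      exact h1.symm
    rw [h2]
    simp
  let J : Fin n → (i : κ) → Fin (deg i) → Fin n := fun j i =>
    if hz : form (p i) (Pi.single j 1) = 0 then
      Function.update (fun _ => j) ⟨0, hdeg j ⟨i, hz⟩⟩ (f j ⟨i, hz⟩)
    else fun _ => j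
  have hJ1 : ∀ j i (hz : form (p i) (Pi.single j 1) = 0), J j i =
      Function.update (fun _ => j) ⟨0, hdeg j ⟨i, hz⟩⟩ (f j ⟨i, hz⟩) := fun j i hz => dif_pos hz
  have hJ2 : ∀ j i (hz : form (p i) (Pi.single j 1) ≠ 0), J j i = fun _ => j :=
    fun j i hz => dif_neg hz
  -- the weights
  set c : Fin n → Fin n → ℕ := fun l j => ∑ i, K i * cnt l (J j i) with hc
  have hcol : ∀ j, ∑ l, c l j = n * m + N := by
    intro j
    simp only [hc]
    rw [Finset.sum_comm, hsum]
    refine Finset.sum_congr rfl fun i _ => ?_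
    rw [← Finset.mul_sum, sum_cnt, mul_comm]
  have hoff : ∀ l j, l ≠ j → c l j ≤ m := by
    intro l j hlj
    by_cases hex : ∃ i : {i // form (p i) (Pi.single j 1) = 0}, f j i = l
    · obtain ⟨i, hi⟩ := hex
      simp only [hc]
      rw [Finset.sum_eq_single i.1]
      · rw [hJ1 j i.1 i.2, cnt_update _ hlj, if_pos hi, mul_one]
        exact hK _
      · intro i' _ hi'
        by_cases hz : form (p i') (Pi.single j 1) = 0
        · rw [hJ1 j i' hz, cnt_update _ hlj, if_neg, mul_zero]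
          intro h
          apply hi'
          have := hf j (h.trans hi.symm)
          exact congrArg (fun z => z.1) this
        · rw [hJ2 j i' hz, cnt_const hlj, mul_zero]
      · intro h
        exact absurd (Finset.mem_univ _) h
    · simp only [hc]
      rw [Finset.sum_eq_zero]
      · exact Nat.zero_le _
      · intro i' _
        by_cases hz : form (p i') (Pi.single j 1) = 0
        · rw [hJ1 j i' hz, cnt_update _ hlj, if_neg, mul_zero]
          intro h
          exact hex ⟨⟨i', hz⟩, h⟩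
        · rw [hJ2 j i' hz, cnt_const hlj, mul_zero]
  set B : Matrix (Fin n) (Fin n) ℤ := fun l j => (c l j : ℤ) - m - (if l = j0 then (N : ℤ) else 0)
    with hB
  obtain ⟨lam, hlam, hker⟩ := exists_kernel hn B (fun j => by
      simp only [hB, Finset.sum_sub_distrib]
      rw [Finset.sum_ite_eq' Finset.univ j0, if_pos (Finset.mem_univ _), ← Nat.cast_sum, hcol]
      simp only [Nat.cast_add, Nat.cast_mul, Finset.sum_const, Finset.card_univ, Fintype.card_fin,
        Int.nsmul_eq_mul, add_sub_cancel_left, sub_self]) (fun l j hlj => by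
      have h1 : (c l j : ℤ) ≤ m := by exact_mod_cast hoff l j hlj
      have h2 : (0 : ℤ) ≤ (if l = j0 then (N : ℤ) else 0) := by split_ifs <;> simp
      simp only [hB]
      linarith only [h1, h2])
  refine ⟨j0, J, lam, hj0, fun j i => ?_, hlam, fun l => ?_⟩
  · by_cases hz : form (p i) (Pi.single j 1) = 0
    · rw [hJ1 j i hz]
      exact sym_update_ne _ _ _ _ (hf' j ⟨i, hz⟩)
    · rw [hJ2 j i hz]
      exact sym_const_ne _ _ hz
  · have h1 := hker l
    simp only [hB] at h1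
    have h2 : ∑ j, (((c l j : ℤ) - m - (if l = j0 then (N : ℤ) else 0)) * (lam j : ℤ)) =
        ∑ j, (lam j : ℤ) * (c l j : ℤ) -
          (∑ j, (lam j : ℤ)) * (m + if l = j0 then (N : ℤ) else 0) := by
      rw [Finset.sum_mul, ← Finset.sum_sub_distrib]
      exact Finset.sum_congr rfl fun j _ => by ring
    rw [h2] at h1
    have h3 : ∑ j, (lam j : ℤ) * (c l j : ℤ) =
        (∑ j, (lam j : ℤ)) * (m + if l = j0 then (N : ℤ) else 0) := by linarith only [h1]
    have h4 : ((∑ j, lam j * c l j : ℕ) : ℤ) =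
        (((∑ j, lam j) * (m + if l = j0 then N else 0) : ℕ) : ℤ) := by
      push_cast
      exact h3
    exact_mod_cast h4

/-- Existence of nonvanishing covariants at transversal tuples of forms. -/
theorem exists_covariant (p : Coefs deg n) (hp : TrForm p) (v : Fin n → ℂ) (hv : v ≠ 0)
    (hK : ∀ i, K i ≤ m) (hsum : n * m + N = ∑ i, deg i * K i) :
    ∃ j : ℕ, 0 < j ∧ ∃ A : Covariant deg n Set.univ (fun i => j * K i) (j * m) (j * N),
      A.C p v ≠ 0 := by
  have hB : ∀ h : Matrix (Fin n) (Fin n) ℂ, h.det ≠ 0 →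
      ∃ (j0 : Fin n) (J : Fin n → (i : κ) → Fin (deg i) → Fin n) (lam : Fin n → ℕ),
        (h.adjugate.mulVec v) j0 ≠ 0 ∧ (∀ j i, GIT.act (sym (p i)) h (J j i) ≠ 0) ∧
        0 < ∑ j, lam j ∧
        ∀ l, ∑ j, lam j * ∑ i, K i * cnt l (J j i) =
          (∑ j, lam j) * (m + if l = j0 then N else 0) := by
    intro h hh
    have hu : IsUnit h.adjugate := by
      rw [Matrix.isUnit_iff_isUnit_det, Matrix.det_adjugate]
      exact isUnit_iff_ne_zero.2 (pow_ne_zero _ hh)
    have hav : h.adjugate.mulVec v ≠ 0 := by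
      intro h0
      apply hv
      exact (Matrix.mulVec_injective_iff_isUnit.2 hu) (by rw [h0, Matrix.mulVec_zero])
    obtain ⟨j0, J, lam, h1, h2, h3, h4⟩ := bal_one (fun i => GIT.act (p i) h : Coefs deg n)
      (hp.act hh) _ hav hK hsum
    refine ⟨j0, J, lam, h1, fun j i => ?_, h3, h4⟩
    rw [← sym_act]
    exact h2 j i
  obtain ⟨j, w₁, μ, hj, hne⟩ := exists_nonvanishing (K := K) (N := N) (m := m) p v hB
  exact ⟨j, hj, covF j w₁ μ (fun _ => rfl) rfl rfl, hne⟩

end Bal

end Vale.Agent.P281.GIT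

namespace Vale.Agent.P281.GIT

open MvPolynomial Vale.Agent.P281
open scoped ContDiff

set_option linter.unusedSectionVars false
set_option linter.unusedVariables false

section Poly

variable {n d : ℕ}

/-- the polynomial of a tensor -/
noncomputable def poly (q : (Fin d → Fin n) → ℂ) : MvPolynomial (Fin n) ℂ :=
  ∑ J, C (q J) * ∏ l, X (J l)

theorem aeval_poly {S : Type*} [CommRing S] [Algebra ℂ S] (q : (Fin d → Fin n) → ℂ)
    (x : Fin n → S) : aeval x (poly q) = ∑ J, algebraMap ℂ S (q J) * ∏ l, x (J l) := by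
  unfold poly
  simp only [map_sum, map_mul, algHom_C, map_prod, aeval_X]

theorem eval_poly (q : (Fin d → Fin n) → ℂ) (v : Fin n → ℂ) : eval v (poly q) = form q v := by
  unfold poly form
  simp only [map_sum, map_mul, eval_C, map_prod, eval_X]

theorem aeval_poly_smul {S : Type*} [CommRing S] [Algebra ℂ S] (q : (Fin d → Fin n) → ℂ)
    (c : S) (x : Fin n → S) : aeval (fun i => c * x i) (poly q) = c ^ d * aeval x (poly q) := by
  rw [aeval_poly, aeval_poly, Finset.mul_sum]
  refine Finset.sum_congr rfl fun J _ => ?_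
  rw [Finset.prod_mul_distrib, Finset.prod_const, Finset.card_univ, Fintype.card_fin]
  ring

theorem hasFDerivAt_eval (P : MvPolynomial (Fin n) ℂ) (v : Fin n → ℂ) :
    ∃ φ : (Fin n → ℂ) →L[ℂ] ℂ, HasFDerivAt (fun v => eval v P) φ v ∧
      ∀ l, φ (Pi.single l 1) = eval v (pderiv l P) := by
  induction P using MvPolynomial.induction_on with
  | C a =>
    refine ⟨0, ?_, fun l => by simp⟩
    simp only [eval_C]
    exact hasFDerivAt_const a v
  | add p q hp hq =>
    obtain ⟨φ, h1, h2⟩ := hp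
    obtain ⟨ψ, h3, h4⟩ := hq
    refine ⟨φ + ψ, ?_, fun l => ?_⟩
    · simp only [map_add]
      exact HasFDerivAt.fun_add h1 h3
    · rw [map_add, map_add, ← h2, ← h4]
      rfl
  | mul_X p i hp =>
    obtain ⟨φ, h1, h2⟩ := hp
    have h3 : HasFDerivAt (fun v : Fin n → ℂ => v i)
        (ContinuousLinearMap.proj (R := ℂ) (φ := fun _ : Fin n => ℂ) i) v :=
      (ContinuousLinearMap.proj (R := ℂ) (φ := fun _ : Fin n => ℂ) i).hasFDerivAt
    refine ⟨eval v p • ContinuousLinearMap.proj (R := ℂ) (φ := fun _ : Fin n => ℂ) i + v i • φ,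
      ?_, fun l => ?_⟩
    · simp only [map_mul, eval_X]
      exact HasFDerivAt.fun_mul h1 h3
    · rw [Derivation.leibniz, pderiv_X, map_add, smul_eq_mul, smul_eq_mul, map_mul, map_mul,
        eval_X, ← h2]
      show eval v p * (Pi.single l 1 : Fin n → ℂ) i + v i * φ (Pi.single l 1) = _
      congr 2
      by_cases h : i = l
      · subst h; simp only [Pi.single_eq_same, map_one]
      · simp [h]

theorem fderiv_form (q : (Fin d → Fin n) → ℂ) (v : Fin n → ℂ) (l : Fin n) :
    fderiv ℂ (form q) v (Pi.single l 1) = eval v (pderiv l (poly q)) := by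
  have h1 : form q = fun v => eval v (poly q) := funext fun v => (eval_poly q v).symm
  obtain ⟨φ, h2, h3⟩ := hasFDerivAt_eval (poly q) v
  rw [h1, h2.fderiv, h3]

end Poly

section Algebraic

/-- A derivation vanishing on a subalgebra vanishes on the elements which are algebraic over it. -/
theorem der_eq_zero {R L : Type*} [CommRing R] [IsDomain R] [Algebra ℂ R] [Field L] [Algebra R L]
    [Algebra ℂ L] [IsScalarTower ℂ R L] (hinj : Function.Injective (algebraMap R L))
    (A : Subalgebra ℂ R) (D : Derivation ℂ R L) (hD : ∀ a ∈ A, D a = 0) (x : R)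
    (hx : ∃ P : Polynomial A, P ≠ 0 ∧ Polynomial.aeval x P = 0) : D x = 0 := by
  classical
  -- derivative of a polynomial value
  have hder : ∀ P : Polynomial A, D (Polynomial.aeval x P) =
      algebraMap R L (Polynomial.aeval x (Polynomial.derivative P)) * D x := by
    intro P
    induction P using Polynomial.induction_on with
    | C a =>
      rw [Polynomial.aeval_C, Polynomial.derivative_C, map_zero, map_zero, zero_mul]
      exact hD _ a.2
    | add p q hp hq => simp only [map_add, hp, hq, add_mul]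
    | monomial m a _ =>
      have e1 : Polynomial.aeval x (Polynomial.C a * Polynomial.X ^ (m + 1)) =
          algebraMap A R a * x ^ (m + 1) := by
        rw [map_mul, Polynomial.aeval_C, map_pow, Polynomial.aeval_X]
      have e2 : Polynomial.aeval x (Polynomial.derivative
          (Polynomial.C a * Polynomial.X ^ (m + 1))) =
          algebraMap A R a * ((m + 1) * x ^ m) := by
        rw [Polynomial.derivative_C_mul_X_pow, map_mul, Polynomial.aeval_C, map_pow,
          Polynomial.aeval_X, Nat.add_sub_cancel, map_mul, map_natCast]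
        push_cast
        ring
      rw [e1, e2]
      have e3 : D (x ^ (m + 1)) = ((m : L) + 1) * (algebraMap R L x ^ m * D x) := by
        rw [D.leibniz_pow, Nat.add_sub_cancel, nsmul_eq_mul, Algebra.smul_def, map_pow]
        push_cast
        ring
      have h1 : D (algebraMap A R a) = 0 := hD _ a.2
      rw [D.leibniz, e3, h1, smul_zero, add_zero, Algebra.smul_def]
      simp only [map_mul, map_add, map_natCast, map_one, map_pow]
      ring
  obtain ⟨P, ⟨hP0, hPx⟩, hmin⟩ : ∃ P : Polynomial A, (P ≠ 0 ∧ Polynomial.aeval x P = 0) ∧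
      ∀ Q : Polynomial A, (Q ≠ 0 ∧ Polynomial.aeval x Q = 0) → P.natDegree ≤ Q.natDegree := by
    have hne : ∃ k, ∃ P : Polynomial A, (P ≠ 0 ∧ Polynomial.aeval x P = 0) ∧ P.natDegree = k := by
      obtain ⟨P, hP⟩ := hx
      exact ⟨_, P, hP, rfl⟩
    obtain ⟨P, hP, hk⟩ := Nat.find_spec hne
    refine ⟨P, hP, fun Q hQ => ?_⟩
    rw [hk]
    exact Nat.find_min' hne ⟨Q, hQ, rfl⟩
  have hpos : 0 < P.natDegree := by
    by_contra hcon
    have h0 : P.natDegree = 0 := by omega
    rw [Polynomial.eq_C_of_natDegree_eq_zero h0, Polynomial.aeval_C] at hPx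
    apply hP0
    rw [Polynomial.eq_C_of_natDegree_eq_zero h0]
    have : P.coeff 0 = 0 := Subtype.ext hPx
    rw [this, map_zero]
  have hP' : Polynomial.derivative P ≠ 0 := by
    intro h
    have h1 := congrArg (fun Q : Polynomial A => Q.coeff (P.natDegree - 1)) h
    simp only [Polynomial.coeff_derivative, Polynomial.coeff_zero] at h1
    rw [Nat.sub_add_cancel hpos] at h1
    rcases mul_eq_zero.1 h1 with h2 | h2
    · exact hP0 (Polynomial.leadingCoeff_eq_zero.1 h2)
    · have h3 : algebraMap ℂ A ((P.natDegree - 1 : ℕ) + 1 : ℂ) = 0 := by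
        rw [map_add, map_natCast, map_one]
        exact h2
      rw [← map_zero (algebraMap ℂ A)] at h3
      have h4 := (algebraMap ℂ A).injective h3
      exact Nat.cast_add_one_ne_zero _ h4
  have hP'x : Polynomial.aeval x (Polynomial.derivative P) ≠ 0 := by
    intro h
    have h1 := hmin _ ⟨hP', h⟩
    have h2 := Polynomial.natDegree_derivative_lt hpos.ne'
    omega
  have h1 := hder P
  rw [hPx, map_zero] at h1
  have h2 : algebraMap R L (Polynomial.aeval x (Polynomial.derivative P)) ≠ 0 := by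
    rw [Ne, ← map_zero (algebraMap R L)]
    exact fun h => hP'x (hinj h)
  exact (mul_eq_zero.1 h1.symm).resolve_left h2

/-- The coordinates are integral over a system of forms without common zeros. -/
theorem algebraic_X {n : ℕ} {β : Type*} (D : β → ℕ) (hD : ∀ b, 0 < D b)
    (q : (b : β) → (Fin (D b) → Fin n) → ℂ)
    (h0 : ∀ v : Fin n → ℂ, (∀ b, form (q b) v = 0) → v = 0) (l : Fin n) :
    ∃ P : Polynomial (Algebra.adjoin ℂ (Set.range fun b => poly (q b))), P ≠ 0 ∧
      Polynomial.aeval (X l : MvPolynomial (Fin n) ℂ) P = 0 := by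
  set A := Algebra.adjoin ℂ (Set.range fun b => poly (q b)) with hA
  set L := FractionRing (MvPolynomial (Fin n) ℂ) with hL
  have hinj : Function.Injective (algebraMap (MvPolynomial (Fin n) ℂ) L) :=
    IsFractionRing.injective (MvPolynomial (Fin n) ℂ) L
  set ι : A →+* L := (algebraMap (MvPolynomial (Fin n) ℂ) L).comp (algebraMap A _) with hι
  set s : Set L := Set.range ι with hs
  -- the coordinates belong to all the valuation subrings
  have hmem : ∀ V : ValuationSubring L, s ⊆ V.toSubring → ∀ l,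
      algebraMap (MvPolynomial (Fin n) ℂ) L (X l) ∈ V := by
    intro V hV
    by_contra hcon
    push Not at hcon
    obtain ⟨l1, hl1⟩ := hcon
    have hne : Nonempty (Fin n) := ⟨l1⟩
    obtain ⟨l0, hl0⟩ := Finite.exists_max
      (fun l => V.valuation (algebraMap (MvPolynomial (Fin n) ℂ) L (X l)))
    set y : Fin n → L := fun l => algebraMap (MvPolynomial (Fin n) ℂ) L (X l) with hy
    have hgt : 1 < V.valuation (y l0) := by
      refine lt_of_lt_of_le ?_ (hl0 l1)
      rw [← not_le, V.valuation_le_one_iff]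
      exact hl1
    have hy0 : y l0 ≠ 0 := by
      intro h
      rw [h, map_zero] at hgt
      exact absurd hgt (by simp)
    set z : Fin n → L := fun l => y l / y l0 with hz
    have hzV : ∀ l, z l ∈ V := by
      intro l
      rw [← V.valuation_le_one_iff, hz]
      simp only [map_div₀]
      exact div_le_one_of_le₀ (hl0 l) zero_le
    have hCV : ∀ c : ℂ, algebraMap ℂ L c ∈ V := by
      intro c
      apply hV
      exact ⟨algebraMap ℂ A c, rfl⟩
    let C' : ℂ →+* V := (algebraMap ℂ L).codRestrict V.toSubring hCV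
    let ev : MvPolynomial (Fin n) ℂ →+* V := eval₂Hom C' (fun l => (⟨z l, hzV l⟩ : V))
    have hev : ∀ f, ((ev f : V) : L) = aeval z f := by
      intro f
      have h1 : (V.subtype.comp ev) = ((aeval z :
          MvPolynomial (Fin n) ℂ →ₐ[ℂ] L) : MvPolynomial (Fin n) ℂ →+* L) := by
        refine MvPolynomial.ringHom_ext (fun c => ?_) (fun p => ?_)
        · simp only [comp_eval₂Hom, ValuationSubring.subtype_apply, eval₂Hom_C, RingHom.coe_comp,
            ValuationSubring.coe_subtype, Function.comp_apply, RingHom.codRestrict_apply,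
            RingHom.coe_coe, algHom_C, ev, C']
        · simp only [comp_eval₂Hom, ValuationSubring.subtype_apply, eval₂Hom_X', RingHom.coe_coe,
            aeval_X, ev]
      exact congrArg (fun φ : MvPolynomial (Fin n) ℂ →+* L => φ f) h1
    set 𝔭 : Ideal (MvPolynomial (Fin n) ℂ) := (IsLocalRing.maximalIdeal V).comap ev with h𝔭
    have hprime : 𝔭.IsPrime := Ideal.IsPrime.comap ev
    have hq : ∀ b, poly (q b) ∈ 𝔭 := by
      intro b
      rw [h𝔭, Ideal.mem_comap, IsLocalRing.mem_maximalIdeal, mem_nonunits_iff,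
        V.valuation_eq_one_iff, hev]
      have h1 : aeval y (poly (q b)) = y l0 ^ D b * aeval z (poly (q b)) := by
        rw [← aeval_poly_smul]
        congr 1
        congr 1
        funext l
        simp only [hz]
        rw [mul_div_cancel₀ _ hy0]
      have h2 : aeval y (poly (q b)) ∈ V := by
        apply hV
        refine ⟨⟨poly (q b), Algebra.subset_adjoin ⟨b, rfl⟩⟩, ?_⟩
        have h3 : (aeval y : MvPolynomial (Fin n) ℂ →ₐ[ℂ] L) =
            IsScalarTower.toAlgHom ℂ (MvPolynomial (Fin n) ℂ) L := by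
          ext l
          simp only [hy, aeval_X, IsScalarTower.coe_toAlgHom']
        rw [h3]
        rfl
      rw [← V.valuation_le_one_iff, h1, map_mul, map_pow] at h2
      intro h3
      rw [h3, mul_one] at h2
      exact absurd h2 (not_le.2 (one_lt_pow₀ hgt (hD b).ne'))
    have hX : X l0 - 1 ∈ 𝔭 := by
      rw [h𝔭, Ideal.mem_comap]
      have : ev (X l0 - 1) = 0 := by
        apply Subtype.ext
        rw [hev]
        simp only [hz, map_sub, aeval_X, div_self hy0, map_one, sub_self, ZeroMemClass.coe_zero]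
      rw [this]
      exact Ideal.zero_mem _
    have hnull := MvPolynomial.vanishingIdeal_zeroLocus_eq_radical (K := ℂ) 𝔭
    rw [hprime.radical] at hnull
    have hex : ∃ w : Fin n → ℂ, w ∈ zeroLocus ℂ 𝔭 := by
      by_contra hcon
      push Not at hcon
      apply hprime.ne_top
      rw [← hnull, Ideal.eq_top_iff_one, mem_vanishingIdeal_iff]
      intro w hw
      exact absurd hw (hcon w)
    obtain ⟨w, hw⟩ := hex
    rw [mem_zeroLocus_iff] at hw
    have h1 := h0 w fun b => by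
      have := hw _ (hq b)
      rw [← eval_poly]
      exact this
    have h2 := hw _ hX
    rw [h1] at h2
    simp only [aeval_zero, Algebra.algebraMap_self, map_sub, constantCoeff_X, map_one, zero_sub,
      RingHom.id_apply, neg_eq_zero, one_ne_zero] at h2
  have hint : algebraMap (MvPolynomial (Fin n) ℂ) L (X l) ∈
      (integralClosure (Subring.closure s) L).toSubring := by
    rw [← iInf_valuationSubring_superset, Subring.mem_iInf]
    intro V
    exact hmem V.1 V.2 l
  obtain ⟨p, hp, hpx⟩ : IsIntegral (Subring.closure s)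
      (algebraMap (MvPolynomial (Fin n) ℂ) L (X l)) := hint
  have hcl : (Subring.closure s : Set L) = s := by
    have : Subring.closure s = ι.range := by
      rw [hs, ← RingHom.coe_range, Subring.closure_eq]
    rw [this, hs, RingHom.coe_range]
  let f : A →+* Subring.closure s := ι.codRestrict _ (fun a => Subring.subset_closure ⟨a, rfl⟩)
  have hf : Function.Surjective f := by
    rintro ⟨t, ht⟩
    have : t ∈ s := by rw [← hcl]; exact ht
    obtain ⟨a, rfl⟩ := this
    exact ⟨a, rfl⟩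
  obtain ⟨P, rfl⟩ := Polynomial.map_surjective f hf p
  refine ⟨P, ?_, ?_⟩
  · rintro rfl
    rw [Polynomial.map_zero] at hp
    exact hp.ne_zero rfl
  · apply hinj
    rw [map_zero, ← hpx, Polynomial.eval₂_map, Polynomial.aeval_def, Polynomial.hom_eval₂]
    rfl

/-- A system of forms without common zeros contains forms with nonzero Jacobian determinant. -/
theorem exists_jac {n : ℕ} {β : Type*} (D : β → ℕ) (hD : ∀ b, 0 < D b)
    (q : (b : β) → (Fin (D b) → Fin n) → ℂ)
    (h0 : ∀ v : Fin n → ℂ, (∀ b, form (q b) v = 0) → v = 0) :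
    ∃ b : Fin n → β, (Matrix.of fun i l => pderiv l (poly (q (b i)))).det ≠ 0 := by
  classical
  set L := FractionRing (MvPolynomial (Fin n) ℂ) with hL
  have hinj : Function.Injective (algebraMap (MvPolynomial (Fin n) ℂ) L) :=
    IsFractionRing.injective (MvPolynomial (Fin n) ℂ) L
  set Jb : β → (Fin n → L) := fun b l =>
    algebraMap (MvPolynomial (Fin n) ℂ) L (pderiv l (poly (q b))) with hJb
  set W := Submodule.span L (Set.range Jb) with hW
  have hWtop : W = ⊤ := by
    by_contra hne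
    obtain ⟨ξ, hξ0, hξ⟩ := Submodule.exists_le_ker_of_lt_top W (lt_top_iff_ne_top.2 hne)
    set x : Fin n → L := fun l => ξ (Pi.single l 1) with hx
    have hξx : ∀ y : Fin n → L, ξ y = ∑ l, y l * x l := by
      intro y
      conv_lhs => rw [← Finset.univ_sum_single y]
      rw [map_sum]
      refine Finset.sum_congr rfl fun l _ => ?_
      have : (Pi.single l (y l) : Fin n → L) = y l • (Pi.single l 1 : Fin n → L) := by
        rw [← Pi.single_smul]; simp
      rw [this, map_smul, smul_eq_mul]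
    let Dm : Derivation ℂ (MvPolynomial (Fin n) ℂ) L :=
      ∑ l, (LinearMap.toSpanSingleton (MvPolynomial (Fin n) ℂ) L (x l)).compDer (pderiv l)
    have hDm : ∀ P, Dm P = ∑ l, algebraMap (MvPolynomial (Fin n) ℂ) L (pderiv l P) * x l := by
      intro P
      have h1 : Dm P = (Derivation.coeFnAddMonoidHom Dm :
        MvPolynomial (Fin n) ℂ → L) P := rfl
      rw [h1]
      simp only [Dm, map_sum, Finset.sum_apply]
      refine Finset.sum_congr rfl fun l _ => ?_
      show (LinearMap.toSpanSingleton (MvPolynomial (Fin n) ℂ) L (x l)) (pderiv l P) = _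
      rw [LinearMap.toSpanSingleton_apply, Algebra.smul_def]
    have hDq : ∀ b, Dm (poly (q b)) = 0 := by
      intro b
      rw [hDm]
      have h1 := hξ (Submodule.subset_span ⟨b, rfl⟩ : Jb b ∈ W)
      rw [LinearMap.mem_ker, hξx] at h1
      exact h1
    have hDA : ∀ a ∈ Algebra.adjoin ℂ (Set.range fun b => poly (q b)), Dm a = 0 := by
      intro a ha
      induction ha using Algebra.adjoin_induction with
      | mem a ha => obtain ⟨b, rfl⟩ := ha; exact hDq b
      | algebraMap c => exact Dm.map_algebraMap c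
      | add a b _ _ h h' => rw [map_add, h, h', add_zero]
      | mul a b _ _ h h' => rw [Dm.leibniz, h, h', smul_zero, smul_zero, add_zero]
    apply hξ0
    ext l
    have h1 := der_eq_zero hinj _ Dm hDA (X l) (algebraic_X D hD q h0 l)
    rw [hDm] at h1
    rw [Finset.sum_eq_single l] at h1
    · simpa only [LinearMap.coe_comp, LinearMap.coe_single, Function.comp_apply,
        LinearMap.zero_comp, LinearMap.zero_apply, pderiv_X, Pi.single_eq_same, map_one,
        one_mul] using h1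
    · intro l' _ hl'
      rw [pderiv_X_of_ne hl'.symm, map_zero, zero_mul]
    · intro h; exact absurd (Finset.mem_univ _) h
  obtain ⟨bs, hbs, hspan, hli⟩ := exists_linearIndependent L (Set.range Jb)
  rw [← hW, hWtop] at hspan
  have hspan' : ⊤ ≤ Submodule.span L (Set.range ((↑) : bs → (Fin n → L))) := by
    rw [Subtype.range_coe, hspan]
  let Bs := Module.Basis.mk hli hspan'
  have hfin : Finite bs := Module.Finite.finite_basis Bs
  have hft : Fintype bs := Fintype.ofFinite bs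
  have hcard : Fintype.card bs = n := by
    rw [← Module.finrank_eq_card_basis Bs]; simp only [Module.finrank_fintype_fun_eq_card,
                                              Fintype.card_fin]
  let eq := Fintype.equivFinOfCardEq hcard
  have hpre : ∀ i : Fin n, ∃ b, Jb b = (eq.symm i : Fin n → L) := fun i => hbs (eq.symm i).2
  choose b hb using hpre
  refine ⟨b, ?_⟩
  have hli' : LinearIndependent L (fun i => Jb (b i)) := by
    have := hli.comp eq.symm eq.symm.injective
    have h2 : (fun i => Jb (b i)) = ((↑) : bs → (Fin n → L)) ∘ eq.symm := funext hb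
    rw [h2]
    exact this
  have hu := (Matrix.linearIndependent_rows_iff_isUnit (A := Matrix.of fun i => Jb (b i))).1 hli'
  rw [Matrix.isUnit_iff_isUnit_det, isUnit_iff_ne_zero] at hu
  intro hdet
  apply hu
  have h3 : (Matrix.of fun i => Jb (b i)) = (Matrix.of fun i l => pderiv l (poly (q (b i)))).map
      (algebraMap (MvPolynomial (Fin n) ℂ) L) := by
    ext i l
    rfl
  rw [h3]
  have h4 := (RingHom.map_det (algebraMap (MvPolynomial (Fin n) ℂ) L)
    (Matrix.of fun i l => pderiv l (poly (q (b i))))).symm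
  rw [RingHom.mapMatrix_apply] at h4
  rw [h4, hdet, map_zero]

end Algebraic

end Vale.Agent.P281.GIT

namespace Vale.Agent.P281.GIT

open MvPolynomial Vale.Agent.P281
open scoped ContDiff

set_option linter.unusedSectionVars false
set_option linter.unusedVariables false

section Form

/-- Holomorphic homogeneous functions are forms. -/
theorem exists_form {n N : ℕ} (F : (Fin n → ℂ) → ℂ) (hF : ContDiff ℂ ω F)
    (hom : ∀ (c : ℂ) v, F (c • v) = c ^ N * F v) :
    ∃ q : (Fin N → Fin n) → ℂ, ∀ v, F v = form q v := by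
  set T := iteratedFDeriv ℂ N F 0 with hT
  have h1 : ∀ v, T (fun _ => v) = (N.factorial : ℂ) * F v := by
    intro v
    let g : ℂ →L[ℂ] (Fin n → ℂ) := ContinuousLinearMap.toSpanSingleton ℂ v
    have h2 := g.iteratedFDeriv_comp_right (hF.of_le le_top : ContDiff ℂ N F) 0 (i := N) le_rfl
    have h3 : F ∘ g = fun t => F v * t ^ N := by
      funext t
      show F (t • v) = _
      rw [hom, mul_comm]
    have h4 : iteratedDeriv N (F ∘ g) 0 = F v * (N.factorial : ℂ) := by
      rw [h3, iteratedDeriv_const_mul_field]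
      have := iteratedDeriv_fun_pow_zero (𝕜 := ℂ) (n := N) (m := N)
      rw [this, if_pos rfl]
    have h5 : iteratedDeriv N (F ∘ g) 0 = T (fun _ => v) := by
      rw [iteratedDeriv_eq_iteratedFDeriv, h2, map_zero]
      simp only [ContinuousMultilinearMap.compContinuousLinearMap_apply,
        ContinuousLinearMap.toSpanSingleton_apply, one_smul, hT, g]
    rw [← h5, h4, mul_comm]
  have hN : (N.factorial : ℂ) ≠ 0 := by exact_mod_cast N.factorial_ne_zero
  refine ⟨fun J => (N.factorial : ℂ)⁻¹ * T (fun l => Pi.single (J l) 1), fun v => ?_⟩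
  have h6 : T (fun _ => v) = ∑ J : Fin N → Fin n, (∏ l, v (J l)) *
      T (fun l => Pi.single (J l) 1) := by
    have h7 : (fun _ : Fin N => v) = fun _ => ∑ i, v i • (Pi.single i 1 : Fin n → ℂ) := by
      funext l
      conv_lhs => rw [← Finset.univ_sum_single v]
      refine Finset.sum_congr rfl fun i _ => ?_
      rw [← Pi.single_smul]; simp
    rw [h7]
    have h8 := T.toMultilinearMap.map_sum
      (fun (l : Fin N) (i : Fin n) => v i • (Pi.single i 1 : Fin n → ℂ))
    refine h8.trans ?_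
    refine Finset.sum_congr rfl fun J _ => ?_
    exact T.toMultilinearMap.map_smul_univ (fun l => v (J l))
      (fun l => (Pi.single (J l) 1 : Fin n → ℂ))
  have h9 : F v = (N.factorial : ℂ)⁻¹ * T (fun _ => v) := by
    rw [h1, inv_mul_cancel_left₀ hN]
  rw [h9, h6, Finset.mul_sum]
  unfold form
  exact Finset.sum_congr rfl fun J _ => by ring

/-- linear independence of functionals on `ℂ ^ n` as a determinant -/
theorem linearIndependent_iff_det {n : ℕ} (φ : Fin n → ((Fin n → ℂ) →L[ℂ] ℂ)) :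
    LinearIndependent ℂ φ ↔
      (Matrix.of fun i l => φ i (Pi.single l 1)).det ≠ 0 := by
  let Ψ : ((Fin n → ℂ) →L[ℂ] ℂ) →ₗ[ℂ] (Fin n → ℂ) :=
    { toFun := fun φ l => φ (Pi.single l 1)
      map_add' := fun _ _ => rfl
      map_smul' := fun _ _ => rfl }
  have hΨ : LinearMap.ker Ψ = ⊥ := by
    rw [LinearMap.ker_eq_bot']
    intro φ hφ
    have h0 : (φ : (Fin n → ℂ) →ₗ[ℂ] ℂ) = 0 := by
      refine LinearMap.pi_ext' fun l => ?_
      refine LinearMap.ext_ring ?_
      exact congrFun hφ l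
    exact ContinuousLinearMap.coe_injective h0
  rw [← LinearMap.linearIndependent_iff Ψ hΨ]
  have h1 : (Ψ ∘ φ) = fun i => (Matrix.of fun i l => φ i (Pi.single l 1) :
      Matrix (Fin n) (Fin n) ℂ) i := rfl
  rw [h1]
  have := Matrix.linearIndependent_rows_iff_isUnit (K := ℂ)
    (A := (Matrix.of fun i l => φ i (Pi.single l 1) : Matrix (Fin n) (Fin n) ℂ))
  rw [Matrix.isUnit_iff_isUnit_det, isUnit_iff_ne_zero] at this
  exact this

end Form

section System

variable {κ : Type*} [Fintype κ] {deg : κ → ℕ} {n : ℕ} {K : κ → ℕ} {N m : ℕ}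

/-- A system of covariants of the same type, with independent differentials somewhere. -/
theorem exists_system (p : Coefs deg n) (hp : TrForm p) (hK : ∀ i, K i ≤ m)
    (hsum : n * m + N = ∑ i, deg i * K i) (hN : 0 < N) :
    ∃ j : ℕ, 0 < j ∧
      ∃ (A : Fin n → Covariant deg n Set.univ (fun i => j * K i) (j * m) (j * N)) (v : Fin n → ℂ),
        (∀ i, (A i).C p v ≠ 0) ∧
        LinearIndependent ℂ (fun i => fderiv ℂ ((A i).C p) v) := by
  classical
  set β := Σ j : {j : ℕ // 0 < j}, Covariant deg n Set.univ (fun i => j * K i) (j * m) (j * N)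
    with hβ
  have hcd : ∀ (b : β), ContDiff ℂ ω (b.2.C p) := by
    intro b
    exact b.2.hol.comp (contDiff_const.prodMk contDiff_id)
  have hq : ∀ b : β, ∃ q : (Fin (b.1.1 * N) → Fin n) → ℂ, ∀ v, b.2.C p v = form q v :=
    fun b => exists_form _ (hcd b) fun c v => b.2.homog p c v
  choose q hq using hq
  obtain ⟨b, hb⟩ := exists_jac (fun b : β => b.1.1 * N) (fun b => Nat.mul_pos b.1.2 hN) q
    (fun v hv => by
      by_contra hv0
      obtain ⟨j, hj, A, hA⟩ := exists_covariant p hp v hv0 hK hsum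
      exact hA ((hq ⟨⟨j, hj⟩, A⟩ v).trans (hv _)))
  -- a good point
  have hpoly : ∀ i, poly (q (b i)) ≠ 0 := by
    intro i h0
    apply hb
    apply Matrix.det_eq_zero_of_row_eq_zero i
    intro l
    simp only [Matrix.of_apply, h0, map_zero]
  have hprod : (Matrix.of fun i l => pderiv l (poly (q (b i)))).det * ∏ i, poly (q (b i)) ≠ 0 :=
    mul_ne_zero hb (Finset.prod_ne_zero_iff.2 fun i _ => hpoly i)
  obtain ⟨v, hv⟩ : ∃ v : Fin n → ℂ, eval v ((Matrix.of fun i l =>
      pderiv l (poly (q (b i)))).det * ∏ i, poly (q (b i))) ≠ 0 := by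
    by_contra hcon
    push Not at hcon
    exact hprod (MvPolynomial.funext fun x => by rw [hcon x, map_zero])
  rw [map_mul, map_prod] at hv
  have hv1 := left_ne_zero_of_mul hv
  have hv2 := right_ne_zero_of_mul hv
  have hCv : ∀ i, (b i).2.C p v ≠ 0 := by
    intro i
    rw [hq, ← eval_poly]
    exact Finset.prod_ne_zero_iff.1 hv2 i (Finset.mem_univ i)
  have hli : LinearIndependent ℂ (fun i => fderiv ℂ ((b i).2.C p) v) := by
    rw [linearIndependent_iff_det]
    rw [RingHom.map_det] at hv1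
    refine ne_of_eq_of_ne (congrArg Matrix.det ?_) hv1
    ext i l
    have : (b i).2.C p = form (q (b i)) := _root_.funext (hq (b i))
    rw [Matrix.of_apply, this, fderiv_form]
    rfl
  -- common powers
  set J := ∏ i, (b i).1.1 with hJ
  have hJpos : 0 < J := Finset.prod_pos fun i _ => (b i).1.2
  have hdiv : ∀ i, (J / (b i).1.1) * (b i).1.1 = J := fun i =>
    Nat.div_mul_cancel (Finset.dvd_prod_of_mem (fun i => (b i).1.1) (Finset.mem_univ i))
  refine ⟨J, hJpos, fun i => ((b i).2.pow (J / (b i).1.1)).cast ?_ ?_ ?_, v, ?_, ?_⟩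
  · funext i'
    rw [← mul_assoc, hdiv]
  · rw [← mul_assoc, hdiv]
  · rw [← mul_assoc, hdiv]
  · intro i
    exact pow_ne_zero _ (hCv i)
  · have hexp : ∀ i, 0 < J / (b i).1.1 := by
      intro i
      refine Nat.pos_of_ne_zero fun h1 => ?_
      have := hdiv i
      rw [h1, zero_mul] at this
      exact hJpos.ne this
    let w : Fin n → ℂˣ := fun i => Units.mk0
      (((J / (b i).1.1 : ℕ) : ℂ) * (b i).2.C p v ^ (J / (b i).1.1 - 1))
      (mul_ne_zero (by exact_mod_cast (hexp i).ne') (pow_ne_zero _ (hCv i)))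
    have h2 := hli.units_smul w
    refine (linearIndependent_equiv' (Equiv.refl _) ?_).1 h2
    funext i
    show fderiv ℂ (fun w => (b i).2.C p w ^ (J / (b i).1.1)) v = _
    have h3 : DifferentiableAt ℂ ((b i).2.C p) v :=
      ((hcd (b i)).differentiable (by simp)).differentiableAt
    rw [fderiv_fun_pow _ h3]
    ext1 x
    simp only [nsmul_eq_mul, smul_apply, smul_eq_mul, Units.mk0_mul, Pi.smul_apply',
      Units.smul_def, Units.val_mul, Units.val_mk0, w]

end System

end Vale.Agent.P281.GIT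

namespace Vale.Agent.P281

open scoped Manifold ContDiff Topology
open Set Filter Metric

set_option linter.unusedSectionVars false
set_option linter.unusedVariables false

universe u

variable {E E' : Type} [NormedAddCommGroup E] [NormedSpace ℂ E]
  [NormedAddCommGroup E'] [NormedSpace ℂ E']
variable {X Y : Type u} [TopologicalSpace X] [ChartedSpace E X] [IsManifold 𝓘(ℂ, E) ω X]
  [TopologicalSpace Y] [ChartedSpace E' Y] [IsManifold 𝓘(ℂ, E') ω Y]
variable {f : X → Y} {r : ℕ} {B : ProjectiveBundle E E' f r} {T : Set (Set X)}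

theorem exists_lift (B : ProjectiveBundle E E' f r) (x : X) :
    ∃ q : B.ι × (X → (Fin (r + 1) → ℂ)), f x ∈ B.U q.1 ∧ IsLift E f (B.π q.1) q.2 x := by
  obtain ⟨a, ha⟩ := B.cover (f x)
  obtain ⟨v, hv⟩ := (B.triv a).lift x ha
  exact ⟨(a, v), ha, hv⟩

/-- the global section attached to `τ` and a covariant -/
noncomputable def sec (fd : FormData B T) (H : Finset (Set X))
    (C : Coefs (fun i : H => fd.deg i) (r + 1) → (Fin (r + 1) → ℂ) → ℂ) (K : H → ℕ) (M : ℕ)
    (e : (E × ℂ) ≃L[ℂ] (E' × (Fin (r + 1) → ℂ))) (τ : Y → ℂ) (x : X) : ℂ :=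
  τ (f x) * val fd H C K M e (exists_lift B x).choose.1 (exists_lift B x).choose.2 x

theorem sec_eq [FiniteDimensional ℂ E] [FiniteDimensional ℂ E']
    (fd : FormData B T) (hsm : Smooth E T) {H : Finset (Set X)} (hH : ∀ D ∈ H, D ∈ T)
    (e : (E × ℂ) ≃L[ℂ] (E' × (Fin (r + 1) → ℂ)))
    {𝒢 : Set (Matrix (Fin (r + 1)) (Fin (r + 1)) ℂ)} (hG : HasTrans B 𝒢)
    (hf : ∀ x, HolM E E' f x) {K : H → ℕ} {M N : ℕ}
    (C : Covariant (fun i : H => fd.deg i) (r + 1) 𝒢 K M N)
    (hN : (r + 1) * M + N = ∑ i : H, fd.deg i * K i) (τ : Y → ℂ)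
    {x : X} {a : B.ι} (ha : f x ∈ B.U a)
    {v : X → (Fin (r + 1) → ℂ)} (hv : IsLift E f (B.π a) v x) :
    sec fd H C.C K M e τ x = τ (f x) * val fd H C.C K M e a v x := by
  unfold sec
  rw [val_change fd hsm hH e hG hf C hN ha (exists_lift B x).choose_spec.1 hv
    (exists_lift B x).choose_spec.2]

theorem isSection_sec [FiniteDimensional ℂ E] [FiniteDimensional ℂ E']
    (fd : FormData B T) (hT : T.Finite) (hsm : Smooth E T) {H : Finset (Set X)}
    (hH : ∀ D ∈ H, D ∈ T)
    (e : (E × ℂ) ≃L[ℂ] (E' × (Fin (r + 1) → ℂ)))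
    {𝒢 : Set (Matrix (Fin (r + 1)) (Fin (r + 1)) ℂ)} (hG : HasTrans B 𝒢)
    (hf : ∀ x, HolM E E' f x) (hopen : IsOpenMap f)
    (hsub : ∀ x, Function.Surjective (dM E E' f x)) (hsurj : Function.Surjective f)
    {K : H → ℕ} {M N : ℕ}
    (C : Covariant (fun i : H => fd.deg i) (r + 1) 𝒢 K M N)
    (hN : (r + 1) * M + N = ∑ i : H, fd.deg i * K i)
    {kY : Set Y → ℕ} {τ : Y → ℂ}
    (hτ : IsSection E' (fun (D : Set Y) z g => IsLocalEq E' D g z) M kY τ)
    {KX : Set X → ℕ} (hKT : ∀ D, KX D ≠ 0 → D ∈ T) (hKY : ∀ G, kY G ≤ KX (f ⁻¹' G))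
    (hHK : ∀ i : H, K i = KX i) (hHv : ∀ D ∈ H, ∀ G, kY G ≠ 0 → f ⁻¹' G ≠ D) :
    IsSection E (fun (D : Set X) z g => IsLocalEq E D g z) M KX (sec fd H C.C K M e τ) := by
  classical
  intro z₀
  obtain ⟨a₀, ha₀⟩ := B.cover (f z₀)
  obtain ⟨v₀, hv₀⟩ := (B.triv a₀).lift z₀ ha₀
  obtain ⟨T', g', a', hT', hg', ha', hev⟩ := hτ (f z₀)
  obtain ⟨Hh, hHh, hJ⟩ := J_local e (hf z₀) hv₀.hol
  set TX : Finset (Set X) := hT.toFinset with hTX
  set TF : Finset (Set Y) := T'.filter (fun G => kY G ≠ 0) with hTF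
  set TV : Finset (Set X) := TF.image (fun G => f ⁻¹' G) with hTV
  set R : Finset (Set X) := TX \ (TV ∪ H) with hR
  have hinj : Function.Injective (fun G : Set Y => f ⁻¹' G) :=
    Function.Surjective.preimage_injective hsurj
  have hTVsub : TV ⊆ TX := by
    intro D hD
    rw [hTV, Finset.mem_image] at hD
    obtain ⟨G, hG', rfl⟩ := hD
    rw [hTF, Finset.mem_filter] at hG'
    rw [hTX, Set.Finite.mem_toFinset]
    exact hKT _ (fun h => hG'.2 (Nat.le_zero.1 (h ▸ hKY G)))
  have hHsub : H ⊆ TX := by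
    intro D hD
    rw [hTX, Set.Finite.mem_toFinset]
    exact hH D hD
  have hdisj : Disjoint TV H := by
    rw [Finset.disjoint_left]
    intro D hD hDH
    rw [hTV, Finset.mem_image] at hD
    obtain ⟨G, hG', hGD⟩ := hD
    rw [hTF, Finset.mem_filter] at hG'
    exact hHv D hDH G hG'.2 hGD
  -- local equations
  set gX : Set X → X → ℂ := fun D z => if D ∈ TV then g' (f '' D) (f z) else
    form (fun J => fd.p a₀ D J (f z)) (v₀ z) with hgX
  have himg : ∀ G : Set Y, f '' (f ⁻¹' G) = G := fun G => image_preimage_eq G hsurj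
  have hfe : ∀ᶠ z in 𝓝 z₀, f z ∈ B.U a₀ :=
    (hf z₀).continuousAt.eventually ((B.triv a₀).isOpen.mem_nhds ha₀)
  have hformH : ∀ D ∈ T, HolV E (fun z => form (fun J => fd.p a₀ D J (f z)) (v₀ z)) z₀ :=
    fun D hD => form_holV (fun J => HolV.comp (fd.hol a₀ D hD J _ ha₀) (hf z₀)) hv₀.hol
  refine ⟨TX, gX, fun z => a' (f z) * (∏ G ∈ TF, g' G (f z) ^ (KX (f ⁻¹' G) - kY G)) *
    C.C (fd.P H a₀ (f z)) (v₀ z) *
    (∏ D ∈ R, form (fun J => fd.p a₀ D J (f z)) (v₀ z) ^ KX D) * Hh z ^ M, ?_, ?_, ?_, ?_⟩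
  · intro D hD
    rw [hTX, Set.Finite.mem_toFinset]
    exact hKT D hD
  · intro D hD
    by_cases hDV : D ∈ TV
    · have h1 : gX D = fun z => g' (f '' D) (f z) := by
        funext z; simp [hgX, hDV]
      simp only [h1]
      rw [hTV, Finset.mem_image] at hDV
      obtain ⟨G, hG', rfl⟩ := hDV
      rw [himg]
      rw [hTF, Finset.mem_filter] at hG'
      exact isLocalEq_comp hf hopen hsub (hg' G hG'.1)
    · have h1 : gX D = fun z => form (fun J => fd.p a₀ D J (f z)) (v₀ z) := by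
        funext z; simp [hgX, hDV]
      simp only [h1]
      rw [hTX, Set.Finite.mem_toFinset] at hD
      exact fd.eqn a₀ D hD z₀ v₀ ha₀ hv₀
  · have hC : HolV E (fun z => C.C (fd.P H a₀ (f z)) (v₀ z)) z₀ := by
      have hpair : HolV E (fun z => (fd.P H a₀ (f z), v₀ z)) z₀ := by
        refine HolV.prodMk ?_ hv₀.hol
        refine HolV.piF fun i => HolV.piF fun J => ?_
        exact HolV.comp (fd.hol a₀ i (hH i i.2) J _ ha₀) (hf z₀)
      exact HolV.comp_contDiff (C.hol.contDiffAt) hpair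
    have h1 : HolV E (fun z => a' (f z)) z₀ := HolV.comp ha' (hf z₀)
    have h2 : HolV E (fun z => ∏ G ∈ TF, g' G (f z) ^ (KX (f ⁻¹' G) - kY G)) z₀ := by
      refine HolV.prod fun G hG' => HolV.pow ?_ _
      rw [hTF, Finset.mem_filter] at hG'
      exact HolV.comp (hg' G hG'.1).holAt (hf z₀)
    have h3 : HolV E (fun z => ∏ D ∈ R, form (fun J => fd.p a₀ D J (f z)) (v₀ z) ^ KX D) z₀ := by
      refine HolV.prod fun D hD => HolV.pow (hformH D ?_) _
      rw [hR, Finset.mem_sdiff, hTX, Set.Finite.mem_toFinset] at hD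
      exact hD.1
    exact (((h1.mul h2).mul hC).mul h3).mul (hHh.pow M)
  · have hev' := (hf z₀).continuousAt.eventually hev
    filter_upwards [hev', hJ, hfe, hv₀.eventually] with z h1 h2 h3 h4 hne
    rw [sec_eq fd hsm hH e hG hf C hN τ h3 h4]
    -- split the product
    have hsplit : ∏ D ∈ TX, gX D z ^ KX D =
        (∏ G ∈ TF, g' G (f z) ^ KX (f ⁻¹' G)) *
        (∏ D ∈ H, form (fun J => fd.p a₀ D J (f z)) (v₀ z) ^ KX D) *
        (∏ D ∈ R, form (fun J => fd.p a₀ D J (f z)) (v₀ z) ^ KX D) := by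
      have hun : TX = (TV ∪ H) ∪ R := by
        rw [hR, Finset.union_sdiff_of_subset (Finset.union_subset hTVsub hHsub)]
      have hd2 : Disjoint (TV ∪ H) R := by rw [hR]; exact Finset.disjoint_sdiff
      rw [hun, Finset.prod_union hd2, Finset.prod_union hdisj]
      congr 1
      · congr 1
        · rw [hTV, Finset.prod_image (fun a _ b _ h => hinj h)]
          refine Finset.prod_congr rfl fun G hG' => ?_
          have : f ⁻¹' G ∈ TV := by rw [hTV]; exact Finset.mem_image_of_mem _ hG'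
          simp only [hgX, this, if_true, himg]
        · refine Finset.prod_congr rfl fun D hD => ?_
          have : D ∉ TV := fun h => Finset.disjoint_left.1 hdisj h hD
          simp only [hgX, this, if_false]
      · refine Finset.prod_congr rfl fun D hD => ?_
        have : D ∉ TV := fun h => Finset.disjoint_left.1 hd2 (Finset.mem_union_left _ h) hD
        simp only [hgX, this, if_false]
    rw [hsplit] at hne ⊢
    have hH' : ∏ i : H, form (fd.P H a₀ (f z) i) (v₀ z) ^ K i =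
        ∏ D ∈ H, form (fun J => fd.p a₀ D J (f z)) (v₀ z) ^ KX D := by
      rw [← Finset.prod_coe_sort H
        (fun D => form (fun J => fd.p a₀ D J (f z)) (v₀ z) ^ KX D)]
      refine Finset.prod_congr rfl fun i _ => ?_
      rw [hHK i]
      rfl
    have hTFe : ∏ G ∈ T', g' G (f z) ^ kY G = ∏ G ∈ TF, g' G (f z) ^ kY G := by
      rw [hTF, Finset.prod_filter]
      refine Finset.prod_congr rfl fun G _ => ?_
      by_cases hk : kY G = 0
      · simp [hk]
      · simp [hk]
    have hA1 : ∏ G ∈ TF, g' G (f z) ^ KX (f ⁻¹' G) =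
        (∏ G ∈ TF, g' G (f z) ^ kY G) * ∏ G ∈ TF, g' G (f z) ^ (KX (f ⁻¹' G) - kY G) := by
      rw [← Finset.prod_mul_distrib]
      refine Finset.prod_congr rfl fun G _ => ?_
      rw [← pow_add, Nat.add_sub_cancel' (hKY G)]
    have hne1 := left_ne_zero_of_mul (left_ne_zero_of_mul hne)
    have hne2 := right_ne_zero_of_mul (left_ne_zero_of_mul hne)
    have hne3 : ∏ G ∈ T', g' G (f z) ^ kY G ≠ 0 := by
      rw [hTFe]
      rw [hA1] at hne1
      exact left_ne_zero_of_mul hne1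
    have hτz := h1 hne3
    rw [hTFe] at hτz
    unfold val
    rw [hH', hA1]
    set Q1 := ∏ G ∈ TF, g' G (f z) ^ kY G with hQ1
    set Q2 := ∏ G ∈ TF, g' G (f z) ^ (KX (f ⁻¹' G) - kY G) with hQ2
    set Q3 := ∏ D ∈ H, form (fun J => fd.p a₀ D J (f z)) (v₀ z) ^ KX D with hQ3
    set Q4 := ∏ D ∈ R, form (fun J => fd.p a₀ D J (f z)) (v₀ z) ^ KX D with hQ4
    have hJM : jac E' (chartAt E' (f z₀)) (f z) ^ M * J e f v₀ z ^ M =
        Hh z ^ M * jac E (chartAt E z₀) z ^ M := by
      rw [← mul_pow, h2, mul_pow]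
    calc τ (f z) * (J e f v₀ z ^ M * C.C (fd.P H a₀ (f z)) (v₀ z) / Q3) * (Q1 * Q2 * Q3 * Q4)
        = (τ (f z) * Q1) * J e f v₀ z ^ M * C.C (fd.P H a₀ (f z)) (v₀ z) * Q2 * Q4 := by
          (clear * - hne2; field_simp)
      _ = a' (f z) * Q2 * C.C (fd.P H a₀ (f z)) (v₀ z) * Q4 *
          (jac E' (chartAt E' (f z₀)) (f z) ^ M * J e f v₀ z ^ M) := by
          rw [hτz]; ring
      _ = a' (f z) * Q2 * C.C (fd.P H a₀ (f z)) (v₀ z) * Q4 * Hh z ^ M *
          jac E (chartAt E z₀) z ^ M := by rw [hJM]; ring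

end Vale.Agent.P281

namespace Vale.Agent.P281

open scoped Manifold ContDiff Topology
open Set Filter Metric

set_option linter.unusedSectionVars false
set_option linter.unusedVariables false

universe u

variable {E : Type} [NormedAddCommGroup E] [NormedSpace ℂ E] [FiniteDimensional ℂ E]
variable {X : Type u} [TopologicalSpace X] [ChartedSpace E X] [IsManifold 𝓘(ℂ, E) ω X]

theorem chart_surj {x₀ z : X} (hzs : z ∈ (chartAt E x₀).source) :
    Function.Surjective (dV E (chartAt E x₀ : X → E) z) := by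
  have hdet : (dV E (chartAt E x₀ : X → E) z).det ≠ 0 := jac_chart_ne_zero hzs
  intro w
  refine ⟨(LinearMap.equivOfDetNeZero
    ((dV E (chartAt E x₀ : X → E) z : E →L[ℂ] E) : E →ₗ[ℂ] E) hdet).symm w, ?_⟩
  exact (LinearMap.equivOfDetNeZero
    ((dV E (chartAt E x₀ : X → E) z : E →L[ℂ] E) : E →ₗ[ℂ] E) hdet).apply_symm_apply w

theorem linearIndependent_precomp {V V' : Type*} [NormedAddCommGroup V] [NormedSpace ℂ V]
    [NormedAddCommGroup V'] [NormedSpace ℂ V']
    {A : V →L[ℂ] V'} (hA : Function.Surjective A) {ι : Type*} (φ : ι → (V' →L[ℂ] ℂ)) :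
    LinearIndependent ℂ (fun i => (φ i).comp A) ↔ LinearIndependent ℂ φ := by
  let L : (V' →L[ℂ] ℂ) →ₗ[ℂ] (V →L[ℂ] ℂ) :=
    { toFun := fun ψ => ψ.comp A
      map_add' := by intro a b; ext; simp
      map_smul' := by intro c a; ext; simp }
  have hL : LinearMap.ker L = ⊥ := by
    rw [LinearMap.ker_eq_bot']
    intro ψ hψ
    refine ContinuousLinearMap.ext fun w => ?_
    obtain ⟨ξ, rfl⟩ := hA w
    exact congrArg (fun B : V →L[ℂ] ℂ => B ξ) hψ
  exact L.linearIndependent_iff hL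

theorem linearIndependent_dif_iff {x₀ z : X} (hzs : z ∈ (chartAt E x₀).source) {ι : Type*}
    {h : ι → X → ℂ} (hh : ∀ i, HolV E (h i) z) :
    LinearIndependent ℂ (fun i => dif E (h i) z) ↔
    LinearIndependent ℂ (fun i => fderiv ℂ (h i ∘ (chartAt E x₀).symm) (chartAt E x₀ z)) := by
  have : (fun i => dif E (h i) z) = fun i =>
      (fderiv ℂ (h i ∘ (chartAt E x₀).symm) (chartAt E x₀ z)).comp
      (dV E (chartAt E x₀ : X → E) z) := by
    funext i
    exact dV_eq_chart hzs (hh i)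
  rw [this]
  exact linearIndependent_precomp (chart_surj hzs) _

/-- openness of linear independence of differentials. -/
theorem linearIndependent_dif_eventually {z : X} {ι : Type*} [Finite ι]
    {h : ι → X → ℂ} (hh : ∀ i, HolV E (h i) z)
    (hind : LinearIndependent ℂ (fun i => dif E (h i) z)) :
    ∀ᶠ y in 𝓝 z, LinearIndependent ℂ (fun i => dif E (h i) y) := by
  have hz : z ∈ (chartAt E z).source := mem_chart_source E z
  rw [linearIndependent_dif_iff hz hh] at hind
  have hc : ContinuousAt (fun y => fun i => fderiv ℂ (h i ∘ (chartAt E z).symm)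
      (chartAt E z y)) z := by
    rw [continuousAt_pi]
    intro i
    have : ContinuousAt (fderiv ℂ (h i ∘ (chartAt E z).symm)) (chartAt E z z) :=
      (((hh i).rep hz).fderiv_right (m := ω) (by simp)).continuousAt
    exact ContinuousAt.comp this ((chartAt E z).continuousAt hz)
  have h1 := hc.eventually hind.eventually
  have h2 : ∀ᶠ y in 𝓝 z, ∀ i, HolV E (h i) y :=
    Filter.eventually_all.2 fun i => (hh i).eventually
  filter_upwards [h1, h2, (chartAt E z).open_source.mem_nhds hz] with y hy1 hy2 hy3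
  rw [linearIndependent_dif_iff hy3 hy2]
  exact hy1

/-- near a point off the boundary, sections are holomorphic multiples of the Jacobian. -/
theorem section_local {m : ℕ} {k : Set X → ℕ} {s : X → ℂ} {z : X}
    (hs : IsSection E (fun (D : Set X) z g => IsLocalEq E D g z) m k s)
    (hz : ∀ D, k D ≠ 0 → ∃ g, IsLocalEq E D g z ∧ g z ≠ 0) :
    ∃ A : X → ℂ, HolV E A z ∧ ∀ᶠ y in 𝓝 z, s y = A y * jac E (chartAt E z) y ^ m := by
  obtain ⟨T, g, a, hT, hg, ha, hev⟩ := hs z
  have hg0 : ∀ i ∈ T, k i ≠ 0 → g i z ≠ 0 := by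
    intro i hi hk h0
    obtain ⟨g', hg', hne⟩ := hz i hk
    exact hne (hg'.mem_iff.1 ((hg i hi).mem_iff.2 h0))
  have hQ : HolV E (fun y => ∏ i ∈ T, g i y ^ k i) z :=
    HolV.prod fun i hi => ((hg i hi).holAt).pow _
  have hQ0 : ∏ i ∈ T, g i z ^ k i ≠ 0 := by
    refine Finset.prod_ne_zero_iff.2 fun i hi => ?_
    by_cases hk : k i = 0
    · simp [hk]
    · exact pow_ne_zero _ (hg0 i hi hk)
  refine ⟨fun y => a y / ∏ i ∈ T, g i y ^ k i, HolV.div ha hQ hQ0, ?_⟩
  filter_upwards [hev, hQ.continuousAt.eventually_ne hQ0] with y hy hy0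
  have := hy hy0
  rw [div_mul_eq_mul_div, ← this, mul_div_assoc, div_self hy0, mul_one]

theorem good_point {j : ℕ} {m : ℕ} {k : Set X → ℕ} {t : Fin (j + 1) → X → ℂ} {y₁ : X}
    (ht : ∀ b, IsSection E (fun (D : Set X) z g => IsLocalEq E D g z) m k (t b))
    (hy₁ : ∀ D, k D ≠ 0 → ∃ g, IsLocalEq E D g y₁ ∧ g y₁ ≠ 0) (ht0 : t 0 y₁ ≠ 0)
    (hind : LinearIndependent ℂ (fun b : Fin j => dif E (fun w => t b.succ w / t 0 w) y₁)) :
    ∃ y₂, ∀ᶠ y in 𝓝 y₂, t 0 y ≠ 0 ∧ (∀ b : Fin j, t b.succ y ≠ 0) ∧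
      (∀ b : Fin j, HolV E (fun w => t b.succ w / t 0 w) y) ∧
      LinearIndependent ℂ (fun b : Fin j => dif E (fun w => t b.succ w / t 0 w) y) := by
  have hloc := fun b => section_local (ht b) hy₁
  choose A hA hAev using hloc
  have hs : y₁ ∈ (chartAt E y₁).source := mem_chart_source E y₁
  have hjac : ∀ᶠ y in 𝓝 y₁, jac E (chartAt E y₁) y ^ m ≠ 0 := by
    filter_upwards [(chartAt E y₁).open_source.mem_nhds hs] with y hy
    exact pow_ne_zero _ (jac_chart_ne_zero hy)
  have hA0 : A 0 y₁ ≠ 0 := by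
    intro h0
    have := (hAev 0).self_of_nhds
    rw [h0, zero_mul] at this
    exact ht0 this
  have hA0ev : ∀ᶠ y in 𝓝 y₁, A 0 y ≠ 0 := (hA 0).continuousAt.eventually_ne hA0
  have ht0ev : ∀ᶠ y in 𝓝 y₁, t 0 y ≠ 0 := by
    filter_upwards [hAev 0, hjac, hA0ev] with y h1 h2 h3
    rw [h1]; exact mul_ne_zero h3 h2
  have hu : ∀ b : Fin j, HolV E (fun w => t b.succ w / t 0 w) y₁ := by
    intro b
    refine HolV.congr (HolV.div (hA b.succ) (hA 0) hA0) ?_
    filter_upwards [hAev 0, hAev b.succ, hjac] with y h1 h2 h3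
    rw [h1, h2, mul_div_mul_right _ _ h3]
  have hev1 : ∀ᶠ y in 𝓝 y₁, t 0 y ≠ 0 ∧ (∀ b : Fin j, HolV E (fun w => t b.succ w / t 0 w) y) ∧
      LinearIndependent ℂ (fun b : Fin j => dif E (fun w => t b.succ w / t 0 w) y) := by
    filter_upwards [ht0ev, Filter.eventually_all.2 fun b => (hu b).eventually,
      linearIndependent_dif_eventually hu hind] with y h1 h2 h3
    exact ⟨h1, h2, h3⟩
  -- a direction in which all differentials are nonzero
  set φ : Fin j → (E →L[ℂ] ℂ) := fun b =>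
    fderiv ℂ ((fun w => t b.succ w / t 0 w) ∘ (chartAt E y₁).symm) (chartAt E y₁ y₁) with hφ
  have hφind : LinearIndependent ℂ φ := (linearIndependent_dif_iff hs hu).1 hind
  obtain ⟨η, hη⟩ : ∃ η : E, ∀ b, φ b η ≠ 0 := by
    -- the map `η ↦ (φ b η)` is onto
    let Φ : E →ₗ[ℂ] (Fin j → ℂ) := LinearMap.pi fun b => (φ b : E →ₗ[ℂ] ℂ)
    have hsurj : LinearMap.range Φ = ⊤ := by
      by_contra hne
      obtain ⟨ψ, hψ0, hψ⟩ := Submodule.exists_le_ker_of_lt_top _ (lt_top_iff_ne_top.2 hne)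
      apply hψ0
      have h1 : ∀ b, ψ (Pi.single b 1) = 0 := by
        rw [Fintype.linearIndependent_iff] at hφind
        apply hφind
        refine ContinuousLinearMap.ext fun ξ => ?_
        have h2 : ψ (Φ ξ) = 0 := hψ ⟨ξ, rfl⟩
        have h3 : Φ ξ = ∑ b, (φ b ξ) • (Pi.single b (1 : ℂ) : Fin j → ℂ) := by
          funext b
          simp only [LinearMap.pi_apply, ContinuousLinearMap.coe_coe, Finset.sum_apply,
            Pi.smul_apply, Pi.single_apply, smul_eq_mul, mul_ite, mul_one, mul_zero,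
            Finset.sum_ite_eq, Finset.mem_univ, ↓reduceIte, Φ]
        rw [h3, map_sum] at h2
        simp only [map_smul, smul_eq_mul] at h2
        rw [sum_apply, zero_apply, ← h2]
        refine Finset.sum_congr rfl fun b _ => ?_
        simp [mul_comm]
      refine LinearMap.pi_ext' fun b => ?_
      ext
      simpa only [LinearMap.coe_comp, LinearMap.coe_single, Function.comp_apply,
        LinearMap.zero_comp, LinearMap.zero_apply] using h1 b
    obtain ⟨η, hη⟩ := LinearMap.range_eq_top.1 hsurj (fun _ => 1)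
    refine ⟨η, fun b => ?_⟩
    have := congrFun hη b
    simp only [Φ, LinearMap.pi_apply] at this
    have h5 : φ b η = 1 := this
    rw [h5]; exact one_ne_zero
  -- points on the corresponding curve
  set γ : ℂ → X := fun s => (chartAt E y₁).symm (chartAt E y₁ y₁ + s • η) with hγ
  have hγc : ContinuousAt γ 0 := by
    have h1 : ContinuousAt (chartAt E y₁).symm (chartAt E y₁ y₁ + (0 : ℂ) • η) := by
      rw [zero_smul, add_zero]
      exact (chartAt E y₁).continuousAt_symm ((chartAt E y₁).map_source hs)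
    exact ContinuousAt.comp (g := (chartAt E y₁).symm)
      (f := fun s : ℂ => chartAt E y₁ y₁ + s • η) h1 (by fun_prop)
  have hγ0 : γ 0 = y₁ := by simp only [hγ, zero_smul, add_zero, (chartAt E y₁).left_inv hs]
  have hne : ∀ b : Fin j, ∀ᶠ s in 𝓝[≠] (0 : ℂ), t b.succ (γ s) / t 0 (γ s) ≠ 0 := by
    intro b
    have hd : HasDerivAt (fun s : ℂ => ((fun w => t b.succ w / t 0 w) ∘ (chartAt E y₁).symm)
        (chartAt E y₁ y₁ + s • η)) (φ b η) 0 := by
      have h1 : HasFDerivAt ((fun w => t b.succ w / t 0 w) ∘ (chartAt E y₁).symm) (φ b)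
          (chartAt E y₁ y₁ + (0 : ℂ) • η) := by
        rw [zero_smul, add_zero]
        exact (((hu b).rep hs).differentiableAt (by simp)).hasFDerivAt
      have h2 : HasDerivAt (fun s : ℂ => chartAt E y₁ y₁ + s • η) η 0 := by
        have : HasDerivAt (fun s : ℂ => s • η) ((1 : ℂ) • η) 0 :=
          (hasDerivAt_id (0 : ℂ)).smul_const η
        simpa only [hasDerivAt_const_add_iff, one_smul] using this.const_add (chartAt E y₁ y₁)
      exact h1.comp_hasDerivAt (0 : ℂ) h2
    exact hd.eventually_ne (hη b)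
  have h6 : ∀ᶠ s in 𝓝[≠] (0 : ℂ), (∀ b : Fin j, t b.succ (γ s) / t 0 (γ s) ≠ 0) :=
    Filter.eventually_all.2 hne
  have h7 : ∀ᶠ s in 𝓝[≠] (0 : ℂ), ∀ᶠ y in 𝓝 (γ s), t 0 y ≠ 0 ∧
      (∀ b : Fin j, HolV E (fun w => t b.succ w / t 0 w) y) ∧
      LinearIndependent ℂ (fun b : Fin j => dif E (fun w => t b.succ w / t 0 w) y) := by
    have := eventually_eventually_nhds.2 hev1
    rw [← hγ0] at this
    exact (hγc.eventually this).filter_mono nhdsWithin_le_nhds
  obtain ⟨s, hs1, hs2⟩ := (h6.and h7).exists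
  refine ⟨γ s, ?_⟩
  have h8 : ∀ᶠ y in 𝓝 (γ s), ∀ b : Fin j, t b.succ y / t 0 y ≠ 0 :=
    Filter.eventually_all.2 fun b =>
      (hs2.self_of_nhds.2.1 b).continuousAt.eventually_ne (hs1 b)
  filter_upwards [h8, hs2] with y h9 h10
  exact ⟨h10.1, fun b h0 => h9 b (by rw [h0, zero_div]), h10.2⟩

end Vale.Agent.P281

namespace Vale.Agent.P281

open scoped Manifold ContDiff Topology
open Set Filter Metric

set_option linter.unusedSectionVars false
set_option linter.unusedVariables false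

universe u

theorem form_exists_zero {n d : ℕ} (hn : 2 ≤ n) (hd : 0 < d) (p : (Fin d → Fin n) → ℂ) :
    ∃ w : Fin n → ℂ, w ≠ 0 ∧ form p w = 0 := by
  set i₀ : Fin n := ⟨0, by omega⟩
  set i₁ : Fin n := ⟨1, by omega⟩
  have hi : i₀ ≠ i₁ := by simp [i₀, i₁]
  obtain ⟨P, hP⟩ := form_line p (Pi.single i₀ 1) (Pi.single i₁ 1)
  by_cases hdeg : P.degree = 0
  · refine ⟨Pi.single i₁ 1, ?_, ?_⟩
    · intro h0
      have := congrFun h0 i₁
      simp at this
    · rw [Polynomial.eq_C_of_degree_eq_zero hdeg] at hP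
      simp only [Polynomial.eval_C] at hP
      set c := P.coeff 0 with hc
      have h1 : ∀ s : ℂ, s ≠ 0 → form p (s • Pi.single i₀ 1 + Pi.single i₁ 1) = s ^ d * c := by
        intro s hs
        have : s • (Pi.single i₀ 1 : Fin n → ℂ) + Pi.single i₁ 1 =
            s • (Pi.single i₀ 1 + s⁻¹ • Pi.single i₁ 1) := by
          rw [smul_add, smul_smul, mul_inv_cancel₀ hs, one_smul]
        rw [this, form_smul, hP]
      have hcont : Continuous (fun s : ℂ => form p (s • Pi.single i₀ 1 + Pi.single i₁ 1)) :=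
        (form_contDiff p).continuous.comp (by fun_prop)
      have h2 : Tendsto (fun s : ℂ => form p (s • Pi.single i₀ 1 + Pi.single i₁ 1))
          (𝓝[≠] 0) (𝓝 (form p ((0 : ℂ) • Pi.single i₀ 1 + Pi.single i₁ 1))) :=
        (hcont.tendsto 0).mono_left nhdsWithin_le_nhds
      have h3 : Tendsto (fun s : ℂ => s ^ d * c) (𝓝[≠] 0) (𝓝 (0 ^ d * c)) := by
        have : Continuous (fun s : ℂ => s ^ d * c) := by fun_prop
        exact (this.tendsto 0).mono_left nhdsWithin_le_nhds
      have h4 : (fun s : ℂ => form p (s • Pi.single i₀ 1 + Pi.single i₁ 1)) =ᶠ[𝓝[≠] 0]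
          fun s => s ^ d * c := by
        filter_upwards [self_mem_nhdsWithin] with s hs
        exact h1 s hs
      have h5 := tendsto_nhds_unique (h2.congr' h4) h3
      rw [zero_smul, zero_add, zero_pow hd.ne', zero_mul] at h5
      exact h5
  · obtain ⟨t, ht⟩ := IsAlgClosed.exists_root P hdeg
    refine ⟨Pi.single i₀ 1 + t • Pi.single i₁ 1, ?_, ?_⟩
    · intro h0
      have := congrFun h0 i₀
      simp [hi] at this
    · rw [hP]; exact ht

theorem dense_compl_finite {X : Type*} [TopologicalSpace X] {T : Set (Set X)} (hT : T.Finite)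
    (hcl : ∀ D ∈ T, IsClosed D) (hd : ∀ D ∈ T, Dense Dᶜ) :
    IsOpen {x | ∀ D ∈ T, x ∉ D} ∧ Dense {x | ∀ D ∈ T, x ∉ D} := by
  induction T, hT using Set.Finite.induction_on with
  | empty => simp only [mem_empty_iff_false, IsEmpty.forall_iff, implies_true, ofPred_true,
               isOpen_univ, dense_univ, and_self]
  | @insert D T hD hT ih =>
    have h1 := ih (fun D' hD' => hcl D' (mem_insert_of_mem _ hD'))
      (fun D' hD' => hd D' (mem_insert_of_mem _ hD'))
    have h2 : {x | ∀ D' ∈ insert D T, x ∉ D'} = Dᶜ ∩ {x | ∀ D' ∈ T, x ∉ D'} := by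
      ext x
      simp only [mem_insert_iff, forall_eq_or_imp, mem_ofPred_eq, mem_inter_iff, mem_compl_iff]
    rw [h2]
    have h3 := (hcl D (mem_insert _ _)).isOpen_compl
    exact ⟨h3.inter h1.1, (hd D (mem_insert _ _)).inter_of_isOpen_left h1.2 h3⟩

variable {E E' : Type} [NormedAddCommGroup E] [NormedSpace ℂ E]
  [NormedAddCommGroup E'] [NormedSpace ℂ E']
variable {X Y : Type u} [TopologicalSpace X] [ChartedSpace E X] [IsManifold 𝓘(ℂ, E) ω X]
  [TopologicalSpace Y] [ChartedSpace E' Y] [IsManifold 𝓘(ℂ, E') ω Y]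
variable {f : X → Y} {r : ℕ} {B : ProjectiveBundle E E' f r} {T : Set (Set X)}

/-- invariance of the nonvanishing of a function of coefficients and vectors. -/
def InvNe {κ : Type*} (deg : κ → ℕ) (n : ℕ) (𝒢 : Set (Matrix (Fin n) (Fin n) ℂ))
    (Θ : Coefs deg n → (Fin n → ℂ) → ℂ) : Prop :=
  ∀ (p p' : Coefs deg n) (c : κ → ℂ) (g : Matrix (Fin n) (Fin n) ℂ) (v : Fin n → ℂ) (lam : ℂ),
    g ∈ 𝒢 → g.det ≠ 0 → (∀ i, c i ≠ 0) → lam ≠ 0 →
    (∀ i w, form (p i) w = c i * form (p' i) (g.mulVec w)) →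
    (Θ p v ≠ 0 ↔ Θ p' (lam • g.mulVec v) ≠ 0)

theorem holV_P (fd : FormData B T) {H : Finset (Set X)} (hH : ∀ D ∈ H, D ∈ T) {a : B.ι} {y : Y}
    (hy : y ∈ B.U a) : HolV E' (fun y => fd.P H a y) y := by
  refine HolV.piF fun i => HolV.piF fun J => ?_
  exact fd.hol a i (hH i i.2) J _ hy

theorem dense_cov [PreconnectedSpace X] [FiniteDimensional ℂ E] [FiniteDimensional ℂ E']
    (fd : FormData B T) (hsm : Smooth E T) {H : Finset (Set X)} (hH : ∀ D ∈ H, D ∈ T)
    (e : (E × ℂ) ≃L[ℂ] (E' × (Fin (r + 1) → ℂ)))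
    {𝒢 : Set (Matrix (Fin (r + 1)) (Fin (r + 1)) ℂ)} (hG : HasTrans B 𝒢)
    (hf : ∀ x, HolM E E' f x)
    {Θ : Coefs (fun i : H => fd.deg i) (r + 1) → (Fin (r + 1) → ℂ) → ℂ}
    (hΘ : ContDiff ℂ ω (fun q : Coefs (fun i : H => fd.deg i) (r + 1) × (Fin (r + 1) → ℂ) =>
      Θ q.1 q.2))
    (hinv : InvNe (fun i : H => fd.deg i) (r + 1) 𝒢 Θ)
    (hne : ∃ x a v, f x ∈ B.U a ∧ IsLift E f (B.π a) v x ∧ Θ (fd.P H a (f x)) (v x) ≠ 0) :
    Dense {x | ∀ a v, f x ∈ B.U a → IsLift E f (B.π a) v x → Θ (fd.P H a (f x)) (v x) ≠ 0} := by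
  have key : ∀ {x : X} {a b : B.ι} {v v' : X → (Fin (r + 1) → ℂ)}, f x ∈ B.U a → f x ∈ B.U b →
      IsLift E f (B.π a) v x → IsLift E f (B.π b) v' x →
      (Θ (fd.P H a (f x)) (v x) ≠ 0 ↔ Θ (fd.P H b (f x)) (v' x) ≠ 0) := by
    intro x a b v v' ha hb hv hv'
    obtain ⟨g, lam, hlam, hg, hgG, hgπ, hvx, hJ⟩ := lift_change B e hG hf ha hb hv hv'
    obtain ⟨c, hc0, hc⟩ := P_change fd hsm hH ha hb hg hgπ
    rw [hvx]
    exact hinv _ _ c g _ lam hgG hg hc0 hlam hc
  refine dense_of_local (E := E) ?_ ?_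
  · obtain ⟨x, a, v, ha, hv, hx⟩ := hne
    exact ⟨x, fun b v' hb hv' => (key ha hb hv hv').1 hx⟩
  · intro x₀
    obtain ⟨a₀, ha₀⟩ := B.cover (f x₀)
    obtain ⟨v₀, hv₀⟩ := (B.triv a₀).lift x₀ ha₀
    refine ⟨fun z => Θ (fd.P H a₀ (f z)) (v₀ z), ?_, ?_⟩
    · have hpair : HolV E (fun z => (fd.P H a₀ (f z), v₀ z)) x₀ :=
        HolV.prodMk (HolV.comp (holV_P fd hH ha₀) (hf x₀)) hv₀.hol
      exact HolV.comp_contDiff (hΘ.contDiffAt) hpair
    · have hfe : ∀ᶠ z in 𝓝 x₀, f z ∈ B.U a₀ :=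
        (hf x₀).continuousAt.eventually ((B.triv a₀).isOpen.mem_nhds ha₀)
      filter_upwards [hfe, hv₀.eventually] with z h1 h2
      constructor
      · intro h; exact h a₀ v₀ h1 h2
      · intro h b v' hb hv'; exact (key h1 hb h2 hv').1 h

end Vale.Agent.P281

namespace Vale.Agent.P281.GIT

open MvPolynomial Vale.Agent.P281
open scoped ContDiff Topology

set_option linter.unusedSectionVars false
set_option linter.unusedVariables false

section Theta

variable {κ : Type*} [Fintype κ] {deg : κ → ℕ} {r : ℕ} {K : κ → ℕ} {M N : ℕ}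

/-- nondegeneracy function of a system of covariants -/
noncomputable def theta (A : Fin (r + 1) → Covariant deg (r + 1) Set.univ K M N)
    (p : Coefs deg (r + 1)) (v : Fin (r + 1) → ℂ) : ℂ :=
  (A 0).C p v * (Matrix.of fun i l => fderiv ℂ ((A i).C p) v (Pi.single l 1)).det

theorem theta_ne (A : Fin (r + 1) → Covariant deg (r + 1) Set.univ K M N)
    (p : Coefs deg (r + 1)) (v : Fin (r + 1) → ℂ) :
    theta A p v ≠ 0 ↔ (A 0).C p v ≠ 0 ∧
      LinearIndependent ℂ (fun i => fderiv ℂ ((A i).C p) v) := by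
  unfold theta
  rw [mul_ne_zero_iff, linearIndependent_iff_det]

theorem covariant_contDiff (A : Covariant deg (r + 1) Set.univ K M N) (p : Coefs deg (r + 1)) :
    ContDiff ℂ ω (A.C p) := A.hol.comp (contDiff_const.prodMk contDiff_id)

theorem theta_contDiff (A : Fin (r + 1) → Covariant deg (r + 1) Set.univ K M N) :
    ContDiff ℂ ω (fun q : Coefs deg (r + 1) × (Fin (r + 1) → ℂ) => theta A q.1 q.2) := by
  unfold theta
  refine (A 0).hol.mul ?_
  have h1 : ∀ (i l : Fin (r + 1)), ContDiff ℂ ω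
      (fun q : Coefs deg (r + 1) × (Fin (r + 1) → ℂ) =>
        fderiv ℂ ((A i).C q.1) q.2 (Pi.single l 1)) := by
    intro i l
    set F : Coefs deg (r + 1) × (Fin (r + 1) → ℂ) → ℂ := fun q => (A i).C q.1 q.2 with hF
    have hFc : ContDiff ℂ ω F := (A i).hol
    have h2 : (fun q : Coefs deg (r + 1) × (Fin (r + 1) → ℂ) =>
        fderiv ℂ ((A i).C q.1) q.2 (Pi.single l 1)) =
        fun q => fderiv ℂ F q ((0 : Coefs deg (r + 1)), (Pi.single l 1 : Fin (r + 1) → ℂ)) := by
      funext q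
      have h3 : HasFDerivAt (fun w : Fin (r + 1) → ℂ => (q.1, w))
          (ContinuousLinearMap.inr ℂ (Coefs deg (r + 1)) (Fin (r + 1) → ℂ)) q.2 :=
        hasFDerivAt_prodMk_right _ _
      have h4 := ((hFc.differentiable (by simp)).differentiableAt (x := q)).hasFDerivAt
      have h5 : HasFDerivAt (F ∘ fun w : Fin (r + 1) → ℂ => (q.1, w))
          ((fderiv ℂ F q).comp (ContinuousLinearMap.inr ℂ (Coefs deg (r + 1))
            (Fin (r + 1) → ℂ))) q.2 := HasFDerivAt.comp q.2 h4 h3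
      have h6 : (F ∘ fun w : Fin (r + 1) → ℂ => (q.1, w)) = (A i).C q.1 := rfl
      rw [h6] at h5
      rw [h5.fderiv]
      rfl
    rw [h2]
    exact (hFc.fderiv_right (m := ω) (by simp)).clm_apply contDiff_const
  have h2 : (fun q : Coefs deg (r + 1) × (Fin (r + 1) → ℂ) =>
      (Matrix.of fun i l => fderiv ℂ ((A i).C q.1) q.2 (Pi.single l 1)).det) =
      fun q => ∑ σ : Equiv.Perm (Fin (r + 1)), ((Equiv.Perm.sign σ : ℤ) : ℂ) *
        ∏ i, fderiv ℂ ((A (σ i)).C q.1) q.2 (Pi.single i 1) := by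
    funext q
    rw [Matrix.det_apply']
    rfl
  rw [h2]
  exact ContDiff.sum fun σ _ => contDiff_const.mul (contDiff_prod fun i _ => h1 _ _)

theorem theta_invNe (A : Fin (r + 1) → Covariant deg (r + 1) Set.univ K M N) :
    InvNe deg (r + 1) Set.univ (theta A) := by
  intro p p' c g v lam _ hg hc hlam h
  rw [theta_ne, theta_ne]
  set k : ℂ := (lam ^ N)⁻¹ * (g.det ^ M * ∏ i, c i ^ K i) with hk
  have hk0 : k ≠ 0 := mul_ne_zero (inv_ne_zero (pow_ne_zero _ hlam))
    (mul_ne_zero (pow_ne_zero _ hg) (Finset.prod_ne_zero_iff.2 fun i _ => pow_ne_zero _ (hc i)))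
  have hrel : ∀ i w, (A i).C p w = k * (A i).C p' (lam • g.mulVec w) := by
    intro i w
    rw [(A i).law p p' c g w (Set.mem_univ _) hg hc h, (A i).homog, hk]
    have : lam ^ N ≠ 0 := pow_ne_zero _ hlam
    field_simp
  let G : (Fin (r + 1) → ℂ) →L[ℂ] (Fin (r + 1) → ℂ) :=
    lam • LinearMap.toContinuousLinearMap g.mulVecLin
  have hG : ∀ w, G w = lam • g.mulVec w := fun w => rfl
  have hGsurj : Function.Surjective G := by
    intro y
    have hu : IsUnit g := (Matrix.isUnit_iff_isUnit_det g).2 (isUnit_iff_ne_zero.2 hg)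
    obtain ⟨x, hx⟩ := (Matrix.mulVec_surjective_iff_isUnit.2 hu) (lam⁻¹ • y)
    refine ⟨x, ?_⟩
    rw [hG, show g.mulVec x = lam⁻¹ • y from hx, smul_smul, mul_inv_cancel₀ hlam, one_smul]
  let Ψ : ((Fin (r + 1) → ℂ) →L[ℂ] ℂ) →ₗ[ℂ] ((Fin (r + 1) → ℂ) →L[ℂ] ℂ) :=
    { toFun := fun φ => k • φ.comp G
      map_add' := fun φ ψ => by ext; simp
      map_smul' := fun a φ => by
        ext x
        show k * (a * φ (G x)) = a * (k * φ (G x))
        ring }
  have hΨ : LinearMap.ker Ψ = ⊥ := by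
    rw [LinearMap.ker_eq_bot']
    intro φ hφ
    ext1 x
    obtain ⟨y, rfl⟩ := hGsurj x
    have h1 : k * φ (G y) = 0 := congrArg (fun ψ : (Fin (r + 1) → ℂ) →L[ℂ] ℂ => ψ y) hφ
    exact (mul_eq_zero.1 h1).resolve_left hk0
  have hder : (fun i => fderiv ℂ ((A i).C p) v) =
      Ψ ∘ fun i => fderiv ℂ ((A i).C p') (lam • g.mulVec v) := by
    funext i
    have h1 : (A i).C p = fun w => k * ((A i).C p' ∘ G) w := funext fun w => hrel i w
    have h2 : HasFDerivAt ((A i).C p' ∘ G) ((fderiv ℂ ((A i).C p') (G v)).comp G) v :=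
      HasFDerivAt.comp v (((covariant_contDiff (A i) p').differentiable
        (by simp)).differentiableAt.hasFDerivAt) G.hasFDerivAt
    have h3 := h2.const_mul k
    rw [h1]
    exact h3.fderiv
  have h0 : (A 0).C p v ≠ 0 ↔ (A 0).C p' (lam • g.mulVec v) ≠ 0 := by
    rw [hrel 0 v, mul_ne_zero_iff]
    exact ⟨fun h => h.2, fun h => ⟨hk0, h⟩⟩
  rw [h0, hder, LinearMap.linearIndependent_iff Ψ hΨ]

theorem theta_ratio (A : Fin (r + 1) → Covariant deg (r + 1) Set.univ K M N)
    (p : Coefs deg (r + 1)) (v : Fin (r + 1) → ℂ) (h : theta A p v ≠ 0) :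
    (A 0).C p v ≠ 0 ∧ LinearIndependent ℂ (fun c : Fin r =>
        fderiv ℂ (fun w => (A c.succ).C p w / (A 0).C p w) v) := by
  obtain ⟨h0, hli⟩ := (theta_ne A p v).1 h
  refine ⟨h0, ?_⟩
  have hder : ∀ c : Fin r, fderiv ℂ ((A c.succ).C p) v =
      ((A c.succ).C p v / (A 0).C p v) • fderiv ℂ ((A 0).C p) v +
        (A 0).C p v • fderiv ℂ (fun w => (A c.succ).C p w / (A 0).C p w) v := by
    intro c
    have h1 : DifferentiableAt ℂ (fun w => (A c.succ).C p w / (A 0).C p w) v :=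
      (((covariant_contDiff (A c.succ) p).contDiffAt).div
        ((covariant_contDiff (A 0) p).contDiffAt) h0).differentiableAt (by simp)
    have h2 : DifferentiableAt ℂ ((A 0).C p) v :=
      ((covariant_contDiff (A 0) p).differentiable (by simp)).differentiableAt
    have h3 := HasFDerivAt.fun_mul h1.hasFDerivAt h2.hasFDerivAt
    have h4 : (fun w => (A c.succ).C p w / (A 0).C p w * (A 0).C p w) =ᶠ[𝓝 v]
        (A c.succ).C p := by
      have h5 : ∀ᶠ w in 𝓝 v, (A 0).C p w ≠ 0 :=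
        ((covariant_contDiff (A 0) p).continuous.continuousAt).eventually_ne h0
      filter_upwards [h5] with w hw
      exact div_mul_cancel₀ _ hw
    exact (h3.congr_of_eventuallyEq h4.symm).fderiv
  rw [Fintype.linearIndependent_iff] at hli ⊢
  intro a ha c
  have h1 := hli (Fin.cons (-∑ c, a c * ((A c.succ).C p v / (A 0).C p v)) a) ?_ c.succ
  · simpa only [Fin.cons_succ] using h1
  · refine ContinuousLinearMap.ext fun x => ?_
    have hax : ∑ c : Fin r, a c *
        fderiv ℂ (fun w => (A c.succ).C p w / (A 0).C p w) v x = 0 := by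
      have := congrArg (fun ψ : (Fin (r + 1) → ℂ) →L[ℂ] ℂ => ψ x) ha
      simpa only [sum_apply, smul_apply, smul_eq_mul, zero_apply] using this
    have hderx : ∀ c : Fin r, fderiv ℂ ((A c.succ).C p) v x =
        ((A c.succ).C p v / (A 0).C p v) * fderiv ℂ ((A 0).C p) v x +
        (A 0).C p v * fderiv ℂ (fun w => (A c.succ).C p w / (A 0).C p w) v x := by
      intro c
      rw [hder c]
      rfl
    have h1 : (∑ i : Fin (r + 1), (Fin.cons (-∑ c, a c * ((A c.succ).C p v / (A 0).C p v)) a :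
        Fin (r + 1) → ℂ) i • fderiv ℂ ((A i).C p) v) x =
        ∑ i : Fin (r + 1), (Fin.cons (-∑ c, a c * ((A c.succ).C p v / (A 0).C p v)) a :
        Fin (r + 1) → ℂ) i * fderiv ℂ ((A i).C p) v x := by
      simp only [sum_apply, smul_apply, smul_eq_mul]
    rw [h1, Fin.sum_univ_succ]
    simp only [Fin.cons_zero, Fin.cons_succ]
    have h2 : ∑ i : Fin r, a i * fderiv ℂ ((A i.succ).C p) v x =
        (∑ c, a c * ((A c.succ).C p v / (A 0).C p v)) * fderiv ℂ ((A 0).C p) v x +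
        (A 0).C p v * ∑ c : Fin r, a c *
          fderiv ℂ (fun w => (A c.succ).C p w / (A 0).C p w) v x := by
      rw [Finset.sum_mul, Finset.mul_sum, ← Finset.sum_add_distrib]
      refine Finset.sum_congr rfl fun c _ => ?_
      rw [hderx c]
      ring
    rw [h2, hax]
    simp

end Theta

end Vale.Agent.P281.GIT

namespace Vale.Agent.P281

open scoped Manifold ContDiff Topology
open Set Filter Metric

set_option linter.unusedSectionVars false
set_option linter.unusedVariables false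

universe u

variable {E E' : Type} [NormedAddCommGroup E] [NormedSpace ℂ E]
  [NormedAddCommGroup E'] [NormedSpace ℂ E']
variable {X Y : Type u} [TopologicalSpace X] [ChartedSpace E X] [IsManifold 𝓘(ℂ, E) ω X]
  [TopologicalSpace Y] [ChartedSpace E' Y] [IsManifold 𝓘(ℂ, E') ω Y]
variable {f : X → Y} {r : ℕ} {B : ProjectiveBundle E E' f r} {T : Set (Set X)}

theorem isSection_pow {Z : Type u} [TopologicalSpace Z] [ChartedSpace E Z]
    [IsManifold 𝓘(ℂ, E) ω Z] {m : ℕ} {k : Set Z → ℕ} {s : Z → ℂ}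
    (hs : IsSection E (fun (D : Set Z) z g => IsLocalEq E D g z) m k s) (q : ℕ) :
    IsSection E (fun (D : Set Z) z g => IsLocalEq E D g z) (m * q) (fun i => k i * q)
      (fun z => s z ^ q) := by
  intro z₀
  obtain ⟨T, g, a, hT, hg, ha, hev⟩ := hs z₀
  refine ⟨T, g, fun z => a z ^ q, fun i hi => hT i (left_ne_zero_of_mul hi), hg,
    HolV.pow ha q, ?_⟩
  filter_upwards [hev] with z hz hne
  have h1 : ∏ i ∈ T, g i z ^ (k i * q) = (∏ i ∈ T, g i z ^ k i) ^ q := by
    rw [← Finset.prod_pow]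
    exact Finset.prod_congr rfl fun i _ => by rw [pow_mul]
  rw [h1] at hne ⊢
  by_cases hq : q = 0
  · subst hq; simp
  · have h2 : ∏ i ∈ T, g i z ^ k i ≠ 0 := fun h0 => hne (by rw [h0, zero_pow hq])
    rw [← mul_pow, hz h2, mul_pow, pow_mul]

/-- differential along the fibre of a function of the coefficients and the vector. -/
theorem dif_fibre [FiniteDimensional ℂ E] [FiniteDimensional ℂ E'] (fd : FormData B T)
    {H : Finset (Set X)} (hH : ∀ D ∈ H, D ∈ T)
    (hf : ∀ x, HolM E E' f x) {a : B.ι} {x : X} (ha : f x ∈ B.U a)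
    {v : X → (Fin (r + 1) → ℂ)} (hv : IsLift E f (B.π a) v x)
    {Φ : Coefs (fun i : H => fd.deg i) (r + 1) → (Fin (r + 1) → ℂ) → ℂ}
    (hΦ : ContDiffAt ℂ ω (fun q : Coefs (fun i : H => fd.deg i) (r + 1) × (Fin (r + 1) → ℂ) =>
      Φ q.1 q.2) (fd.P H a (f x), v x)) {ξ : E} (hξ : dM E E' f x ξ = 0) :
    dif E (fun z => Φ (fd.P H a (f z)) (v z)) x ξ =
      fderiv ℂ (Φ (fd.P H a (f x))) (v x) (dV E v x ξ) := by
  have hP : HolV E (fun z => fd.P H a (f z)) x := HolV.comp (holV_P fd hH ha) (hf x)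
  have hpair : HolV E (fun z => (fd.P H a (f z), v z)) x := HolV.prodMk hP hv.hol
  have h1 := dV_comp_contDiff (v := fun z => (fd.P H a (f z), v z)) hΦ hpair
  rw [dif_eq_dV, h1, ContinuousLinearMap.comp_apply, dV_prodMk hP hv.hol]
  have h2 : dV E (fun z => fd.P H a (f z)) x ξ = 0 := by
    rw [dV_comp (holV_P fd hH ha) (hf x), ContinuousLinearMap.comp_apply, hξ, map_zero]
  rw [ContinuousLinearMap.prod_apply, h2]
  have h3 : HasFDerivAt (fun w : Fin (r + 1) → ℂ => (fd.P H a (f x), w))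
      (ContinuousLinearMap.inr ℂ (Coefs (fun i : H => fd.deg i) (r + 1)) (Fin (r + 1) → ℂ))
      (v x) := hasFDerivAt_prodMk_right _ _
  have h4 := ((hΦ.differentiableAt (by simp)).hasFDerivAt).comp (v x) h3
  have h5 : ((fun q : Coefs (fun i : H => fd.deg i) (r + 1) × (Fin (r + 1) → ℂ) =>
      Φ q.1 q.2) ∘ fun w : Fin (r + 1) → ℂ => (fd.P H a (f x), w)) = Φ (fd.P H a (f x)) := rfl
  rw [h5] at h4
  rw [h4.fderiv]
  simp only [ContinuousLinearMap.comp_apply, ContinuousLinearMap.inr_apply]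

theorem kodGE_lower [FiniteDimensional ℂ E] [FiniteDimensional ℂ E'] [ConnectedSpace X]
    [Nonempty Y]
    (hr : 0 < r) (e : (E × ℂ) ≃L[ℂ] (E' × (Fin (r + 1) → ℂ)))
    (hfc : ContMDiff 𝓘(ℂ, E) 𝓘(ℂ, E') ω f) (hopen : IsOpenMap f)
    (hsub : ∀ x, Function.Surjective (dM E E' f x)) (hsurj : Function.Surjective f)
    {Δ : Set X → ℝ} (hfin : {D | Δ D ≠ 0}.Finite) (hprime : ∀ D, Δ D ≠ 0 → IsPrimeDivisor E D)
    (hsm : Smooth E {D | Δ D ≠ 0})
    (fd : FormData B {D | Δ D ≠ 0}) {H : Finset (Set X)}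
    (hHT : ∀ D ∈ H, Δ D ≠ 0) (hHd : ∀ D ∈ H, 0 < fd.deg D)
    {𝒢 : Set (Matrix (Fin (r + 1)) (Fin (r + 1)) ℂ)} (hG : HasTrans B 𝒢)
    {M N r' : ℕ} {K : H → ℕ} (hM : 0 < M)
    (C : Fin (r' + 1) → Covariant (fun i : H => fd.deg i) (r + 1) 𝒢 K M N)
    (hN : (r + 1) * M + N = ∑ i : H, fd.deg i * K i)
    (hint : ∀ D, ∃ k : ℕ, (k : ℝ) = M * Δ D) (hK : ∀ i : H, (K i : ℝ) = M * Δ i)
    {Θ : Coefs (fun i : H => fd.deg i) (r + 1) → (Fin (r + 1) → ℂ) → ℂ}
    (hΘ : ContDiff ℂ ω (fun q : Coefs (fun i : H => fd.deg i) (r + 1) × (Fin (r + 1) → ℂ) =>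
      Θ q.1 q.2))
    (hinv : InvNe (fun i : H => fd.deg i) (r + 1) 𝒢 Θ)
    (hne : ∃ x a v, f x ∈ B.U a ∧ IsLift E f (B.π a) v x ∧ Θ (fd.P H a (f x)) (v x) ≠ 0)
    (hΘC : ∀ p v, Θ p v ≠ 0 → (C 0).C p v ≠ 0 ∧
      LinearIndependent ℂ (fun c : Fin r' =>
        fderiv ℂ (fun w => (C c.succ).C p w / (C 0).C p w) v))
    {bY : Set Y → ℝ} (hb : ∀ G, bY G ≤ Δ (f ⁻¹' G)) (hbp : ∀ G, bY G ≠ 0 → IsPrimeDivisor E' G)
    {j : ℕ} (hY : KodGE E' (fun (D : Set Y) z g => IsLocalEq E' D g z) bY j) :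
    KodGE E (fun (D : Set X) z g => IsLocalEq E D g z) Δ (r' + j) := by
  classical
  have hf : ∀ x, HolM E E' f x := fun x => hfc x
  obtain ⟨m₁, kY, t, y₁, hm₁, hkY, ht, hy₁, ht0, hind⟩ := hY
  obtain ⟨y₂, hy₂⟩ := good_point ht hy₁ ht0 hind
  have hH' : ∀ D ∈ H, D ∈ {D | Δ D ≠ 0} := hHT
  choose kD hkD using hint
  -- the powers and products
  obtain ⟨q, rfl⟩ : ∃ q, m₁ = q + 1 := ⟨m₁ - 1, by omega⟩
  have hKi : ∀ i : H, K i = kD i := by
    intro i
    have := (hK i).trans (hkD i).symm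
    exact_mod_cast this
  let C' : Fin (r' + 1) → Covariant (fun i : H => fd.deg i) (r + 1) 𝒢
      (fun i => (q + 1) * K i) ((q + 1) * M) ((q + 1) * N) := fun c =>
    ((C c).mul ((C 0).pow q)).cast (by funext i; ring) (by ring) (by ring)
  have hC' : ∀ c p v, (C' c).C p v = (C c).C p v * (C 0).C p v ^ q := fun c p v => rfl
  have hN' : (r + 1) * ((q + 1) * M) + (q + 1) * N =
      ∑ i : H, fd.deg i * ((q + 1) * K i) := by
    have h1 : ∑ i : H, fd.deg i * ((q + 1) * K i) = (q + 1) * ∑ i : H, fd.deg i * K i := by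
      rw [Finset.mul_sum]
      exact Finset.sum_congr rfl fun i _ => by ring
    rw [h1, ← hN]; ring
  set KX : Set X → ℕ := fun D => (q + 1) * kD D with hKX
  set τ : Fin (j + 1) → Y → ℂ := fun b y => t b y ^ M with hτ
  set S : Fin (r' + 1) → Fin (j + 1) → X → ℂ := fun c b =>
    sec fd H (C' c).C (fun i => (q + 1) * K i) ((q + 1) * M) e (τ b) with hS
  -- the vertical components
  have hKY : ∀ G, kY G * M ≤ KX (f ⁻¹' G) := by
    intro G
    have h1 : ((kY G * M : ℕ) : ℝ) ≤ (KX (f ⁻¹' G) : ℕ) := by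
      rw [hKX]
      push_cast
      rw [hkY G, hkD]
      have := hb G
      have hMr : (0 : ℝ) < M := by exact_mod_cast hM
      have h3 := mul_le_mul_of_nonneg_left this (show (0 : ℝ) ≤ ((q + 1 : ℕ) : ℝ) * M by (clear * - hM; positivity))
      push_cast at h3 ⊢
      nlinarith only [h3]
    exact_mod_cast h1
  have hHv : ∀ D ∈ H, ∀ G, kY G * M ≠ 0 → f ⁻¹' G ≠ D := by
    intro D hD G hG' hGD
    have hkG : kY G ≠ 0 := left_ne_zero_of_mul hG'
    have hbG : bY G ≠ 0 := by
      intro h0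
      have := hkY G
      rw [h0, mul_zero] at this
      exact hkG (by exact_mod_cast this)
    obtain ⟨y, -, hy⟩ := IsLocalEq.exists_notMem (hbp G hbG).2.1 isOpen_univ
      (univ_nonempty (α := Y))
    obtain ⟨a, ha⟩ := B.cover y
    obtain ⟨w, hw0, hw⟩ := form_exists_zero (by omega : 2 ≤ r + 1) (hHd D hD)
      (fun J => fd.p a D J y)
    have h1 := (mem_iff_form B fd (hHT D hD) ha hw0).2 hw
    rw [← hGD, mem_preimage, (B.triv a).proj y ha w hw0] at h1
    exact hy h1
  have hsec : ∀ c b, IsSection E (fun (D : Set X) z g => IsLocalEq E D g z) ((q + 1) * M) KX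
      (S c b) := by
    intro c b
    refine isSection_sec fd hfin hsm hH' e hG hf hopen hsub hsurj (C' c) hN'
      (kY := fun G => kY G * M) (isSection_pow (ht b) M) ?_ hKY ?_ hHv
    · intro D hD
      rw [hKX] at hD
      have hkd : kD D ≠ 0 := right_ne_zero_of_mul hD
      intro h0
      have h1 := hkD D
      rw [show Δ D = 0 from h0, mul_zero] at h1
      exact hkd (by exact_mod_cast h1)
    · intro i
      simp only [hKX, hKi i]
  -- choice of the point
  have hV : ∃ V : Set Y, IsOpen V ∧ V.Nonempty ∧ ∀ y ∈ V, t 0 y ≠ 0 ∧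
      (∀ b : Fin j, t b.succ y ≠ 0) ∧
      (∀ b : Fin j, HolV E' (fun w => t b.succ w / t 0 w) y) ∧
      LinearIndependent ℂ (fun b : Fin j => dif E' (fun w => t b.succ w / t 0 w) y) := by
    obtain ⟨V, hV1, hV2, hV3⟩ := eventually_nhds_iff.1 hy₂
    exact ⟨V, hV2, ⟨y₂, hV3⟩, hV1⟩
  obtain ⟨V, hVo, hVne, hV⟩ := hV
  have hcont : Continuous f := hfc.continuous
  have hdc := dense_compl_finite hfin (fun D hD => (hprime D hD).1) (fun D hD => by
    rw [dense_iff_inter_open]
    intro U hU hUne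
    obtain ⟨x, hxU, hxD⟩ := IsLocalEq.exists_notMem (hprime D hD).2.1 hU hUne
    exact ⟨x, hxU, hxD⟩)
  have hfV : (f ⁻¹' V).Nonempty := by
    obtain ⟨y, hy⟩ := hVne
    obtain ⟨x, rfl⟩ := hsurj y
    exact ⟨x, hy⟩
  have h3 : (f ⁻¹' V ∩ {x | ∀ D ∈ {D | Δ D ≠ 0}, x ∉ D}).Nonempty :=
    hdc.2.inter_open_nonempty _ (hVo.preimage hcont) hfV
  obtain ⟨x, ⟨hxV, hxD⟩, hxΘ⟩ := (dense_cov fd hsm hH' e hG hf hΘ hinv hne).inter_open_nonempty _
    ((hVo.preimage hcont).inter hdc.1) h3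
  obtain ⟨hx1, hx2, hx3, hx4⟩ := hV _ hxV
  obtain ⟨a, ha⟩ := B.cover (f x)
  obtain ⟨v, hv⟩ := (B.triv a).lift x ha
  obtain ⟨hC0, hCind⟩ := hΘC _ _ (hxΘ a v ha hv)
  -- nonvanishing of the building blocks near `x`
  have hev : ∀ᶠ z in 𝓝 x, f z ∈ B.U a ∧ IsLift E f (B.π a) v z ∧ t 0 (f z) ≠ 0 ∧
      (C 0).C (fd.P H a (f z)) (v z) ≠ 0 ∧ (∀ D, Δ D ≠ 0 → z ∉ D) := by
    have e1 : ∀ᶠ z in 𝓝 x, f z ∈ B.U a :=
      hcont.continuousAt.eventually ((B.triv a).isOpen.mem_nhds ha)
    have e2 : ∀ᶠ z in 𝓝 x, f z ∈ V := hcont.continuousAt.eventually (hVo.mem_nhds hxV)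
    have hpair : HolV E (fun z => (fd.P H a (f z), v z)) x :=
      HolV.prodMk (HolV.comp (holV_P fd hH' ha) (hf x)) hv.hol
    have e3 : ∀ᶠ z in 𝓝 x, (C 0).C (fd.P H a (f z)) (v z) ≠ 0 := by
      have : HolV E (fun z => (C 0).C (fd.P H a (f z)) (v z)) x :=
        HolV.comp_contDiff ((C 0).hol.contDiffAt) hpair
      exact this.continuousAt.eventually_ne hC0
    filter_upwards [e1, e2, e3, hv.eventually, hdc.1.mem_nhds hxD] with z h1 h2 h3 h4 h5
    exact ⟨h1, h4, (hV _ h2).1, h3, h5⟩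
  have hval : ∀ᶠ z in 𝓝 x, ∀ c b, S c b z = t b (f z) ^ M *
      (J e f v z ^ ((q + 1) * M) * ((C c).C (fd.P H a (f z)) (v z) *
        (C 0).C (fd.P H a (f z)) (v z) ^ q) /
        ∏ i : H, form (fd.P H a (f z) i) (v z) ^ ((q + 1) * K i)) := by
    filter_upwards [hev] with z hz c b
    exact sec_eq fd hsm hH' e hG hf (C' c) hN' (τ b) hz.1 hz.2.1
  have hblock : ∀ᶠ z in 𝓝 x, J e f v z ^ ((q + 1) * M) ≠ 0 ∧
      ∏ i : H, form (fd.P H a (f z) i) (v z) ^ ((q + 1) * K i) ≠ 0 := by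
    filter_upwards [hev] with z hz
    refine ⟨pow_ne_zero _ (J_ne_zero e hfc (B.triv a) hz.1 hz.2.1).1, ?_⟩
    refine Finset.prod_ne_zero_iff.2 fun i _ => pow_ne_zero _ ?_
    intro h0
    have h1 := (mem_iff_form B fd (hHT i i.2) hz.1 hz.2.1.ne_zero).2 h0
    rw [hz.2.1.eq] at h1
    exact hz.2.2.2.2 i (hHT i i.2) h1
  -- the ratios
  have hratC : ∀ c : Fin r', (fun z => S c.succ 0 z / S 0 0 z) =ᶠ[𝓝 x]
      fun z => (C c.succ).C (fd.P H a (f z)) (v z) / (C 0).C (fd.P H a (f z)) (v z) := by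
    intro c
    filter_upwards [hev, hval, hblock] with z h1 h2 h3
    rw [h2, h2]
    have i1 := h1.2.2.1
    have i2 := h1.2.2.2.1
    have i3 := h3.1
    have i4 := h3.2
    have i5 : t 0 (f z) ^ M ≠ 0 := pow_ne_zero _ i1
    field_simp
  have hratT : ∀ b : Fin j, (fun z => S 0 b.succ z / S 0 0 z) =ᶠ[𝓝 x]
      fun z => (t b.succ (f z) / t 0 (f z)) ^ M := by
    intro b
    filter_upwards [hev, hval, hblock] with z h1 h2 h3
    rw [h2, h2]
    have i1 := h1.2.2.1
    have i2 := h1.2.2.2.1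
    have i3 := h3.1
    have i4 := h3.2
    have i5 : t 0 (f z) ^ M ≠ 0 := pow_ne_zero _ i1
    rw [div_pow]
    field_simp
  -- the family
  set sX : Fin (r' + j + 1) → X → ℂ := Fin.cons (S 0 0) (fun p : Fin (r' + j) =>
    Sum.elim (fun c : Fin r' => S c.succ 0) (fun b : Fin j => S 0 b.succ)
      (finSumFinEquiv.symm p)) with hsX
  have hsX0 : sX 0 = S 0 0 := rfl
  have hsXs : ∀ p : Fin (r' + j), sX p.succ = Sum.elim (fun c : Fin r' => S c.succ 0)
      (fun b : Fin j => S 0 b.succ) (finSumFinEquiv.symm p) := fun p => by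
    rw [hsX, Fin.cons_succ]
  refine ⟨(q + 1) * M, KX, sX, x, by (clear * - hM; positivity), ?_, ?_, ?_, ?_, ?_⟩
  · intro D
    rw [hKX]
    push_cast
    rw [hkD D]; ring
  · intro p
    refine Fin.cases ?_ (fun p => ?_) p
    · rw [hsX0]; exact hsec 0 0
    · rw [hsXs]
      rcases finSumFinEquiv.symm p with c | b
      · exact hsec c.succ 0
      · exact hsec 0 b.succ
  · intro D hD
    have hΔ : Δ D ≠ 0 := by
      intro h0
      rw [hKX] at hD
      have hkd : kD D ≠ 0 := right_ne_zero_of_mul hD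
      have h1 := hkD D
      rw [h0, mul_zero] at h1
      exact hkd (by exact_mod_cast h1)
    obtain ⟨g, hg⟩ := (hprime D hΔ).2.1 x
    exact ⟨g, hg, fun h0 => hxD D hΔ (hg.mem_iff.2 h0)⟩
  · rw [hsX0, hval.self_of_nhds]
    have h1 := hblock.self_of_nhds
    refine mul_ne_zero (pow_ne_zero _ hx1) (div_ne_zero (mul_ne_zero h1.1
      (mul_ne_zero hC0 (pow_ne_zero _ hC0))) h1.2)
  · -- linear independence
    have hfun : (fun p : Fin (r' + j) => dif E (fun w => sX p.succ w / sX 0 w) x) =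
        (fun s : Fin r' ⊕ Fin j => dif E (fun w => (Sum.elim (fun c : Fin r' => S c.succ 0)
          (fun b : Fin j => S 0 b.succ) s) w / S 0 0 w) x) ∘ finSumFinEquiv.symm := by
      funext p
      simp only [Function.comp_apply, hsXs, hsX0]
    rw [hfun, linearIndependent_equiv finSumFinEquiv.symm, Fintype.linearIndependent_iff]
    intro γ hγ
    rw [Fintype.sum_sum_type] at hγ
    simp only [Sum.elim_inl, Sum.elim_inr] at hγ
    -- differentials
    have hΦ : ∀ c : Fin r', ContDiffAt ℂ ω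
        (fun q : Coefs (fun i : H => fd.deg i) (r + 1) × (Fin (r + 1) → ℂ) =>
        (fun p w => (C c.succ).C p w / (C 0).C p w) q.1 q.2) (fd.P H a (f x), v x) :=
      fun c => ((C c.succ).hol.contDiffAt).div ((C 0).hol.contDiffAt) hC0
    have hdC : ∀ (c : Fin r') (ξ : E), dM E E' f x ξ = 0 →
        dif E (fun w => S c.succ 0 w / S 0 0 w) x ξ =
        fderiv ℂ (fun w => (C c.succ).C (fd.P H a (f x)) w / (C 0).C (fd.P H a (f x)) w)
          (v x) (dV E v x ξ) := by
      intro c ξ hξ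
      have h1 : dif E (fun w => S c.succ 0 w / S 0 0 w) x =
          dif E (fun z => (fun p w => (C c.succ).C p w / (C 0).C p w)
            (fd.P H a (f z)) (v z)) x := dV_congr (hratC c)
      rw [h1]
      exact dif_fibre fd hH' hf ha hv
        (Φ := fun p w => (C c.succ).C p w / (C 0).C p w) (hΦ c) hξ
    have hdT : ∀ (b : Fin j), dif E (fun w => S 0 b.succ w / S 0 0 w) x =
        ((M : ℂ) * (t b.succ (f x) / t 0 (f x)) ^ (M - 1)) •
        (dif E' (fun w => t b.succ w / t 0 w) (f x)).comp (dM E E' f x) := by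
      intro b
      have h1 : dif E (fun w => S 0 b.succ w / S 0 0 w) x =
          dif E (fun z => (fun w => (t b.succ w / t 0 w) ^ M) (f z)) x := dV_congr (hratT b)
      rw [h1, dif_comp (HolV.pow (hx3 b) M) (hf x)]
      have h2 : dif E' (fun w => (t b.succ w / t 0 w) ^ M) (f x) =
          ((M : ℂ) * (t b.succ (f x) / t 0 (f x)) ^ (M - 1)) •
            dif E' (fun w => t b.succ w / t 0 w) (f x) := by
        have h3 := dV_comp_contDiff (G := fun s : ℂ => s ^ M)
          (v := fun w => t b.succ w / t 0 w) (x := f x) (contDiff_id.pow M).contDiffAt (hx3 b)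
        rw [dif_eq_dV, h3]
        refine ContinuousLinearMap.ext fun η => ?_
        simp only [ContinuousLinearMap.comp_apply, smul_apply]
        have h4 : HasDerivAt (fun s : ℂ => s ^ M)
          ((M : ℂ) * (t b.succ (f x) / t 0 (f x)) ^ (M - 1)) (t b.succ (f x) / t 0 (f x)) :=
          hasDerivAt_pow M _
        rw [h4.hasFDerivAt.fderiv, ContinuousLinearMap.toSpanSingleton_apply, smul_eq_mul,
          smul_eq_mul, mul_comm]
        rfl
      rw [h2]
      rfl
    -- the fibre part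
    have hLs := (J_ne_zero e hfc (B.triv a) ha hv).2.2
    have hγC : ∀ c, γ (Sum.inl c) = 0 := by
      rw [Fintype.linearIndependent_iff] at hCind
      refine hCind (fun c => γ (Sum.inl c)) ?_
      refine ContinuousLinearMap.ext fun w => ?_
      obtain ⟨⟨ξ, s⟩, hξ⟩ := hLs (0, w)
      rw [Lmap_apply] at hξ
      obtain ⟨hξ1, hξ2⟩ := Prod.mk.inj hξ
      have h1 := congrArg (fun A : E →L[ℂ] ℂ => A ξ) hγ
      simp only [add_apply, sum_apply, smul_apply, zero_apply] at h1
      have h2 : ∀ b : Fin j, dif E (fun w => S 0 b.succ w / S 0 0 w) x ξ = 0 := by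
        intro b
        rw [hdT b, smul_apply, ContinuousLinearMap.comp_apply, hξ1, map_zero, smul_zero]
      simp only [h2, smul_zero, Finset.sum_const_zero, add_zero] at h1
      rw [sum_apply, zero_apply, ← hξ2]
      have h3 : ∀ c : Fin r', fderiv ℂ (fun w => (C c.succ).C (fd.P H a (f x)) w /
          (C 0).C (fd.P H a (f x)) w) (v x) (v x) = 0 := by
        intro c
        have hd1 : DifferentiableAt ℂ (fun w => (C c.succ).C (fd.P H a (f x)) w /
            (C 0).C (fd.P H a (f x)) w) (v x) := by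
          have := ((hΦ c).comp (v x) (contDiffAt_const.prodMk contDiffAt_id) :
            ContDiffAt ℂ ω (fun w => (C c.succ).C (fd.P H a (f x)) w /
            (C 0).C (fd.P H a (f x)) w) (v x))
          exact this.differentiableAt (by simp)
        have hd2 : HasDerivAt (fun s : ℂ => (1 + s) • v x) (v x) 0 := by
          have h6 : HasDerivAt (fun s : ℂ => (1 + s) • v x) ((1 : ℂ) • v x) 0 := by
            refine HasDerivAt.smul_const ?_ _
            simpa using (hasDerivAt_id (0 : ℂ)).const_add 1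
          rwa [one_smul] at h6
        have hd3 : HasFDerivAt (fun w => (C c.succ).C (fd.P H a (f x)) w /
            (C 0).C (fd.P H a (f x)) w) (fderiv ℂ (fun w => (C c.succ).C (fd.P H a (f x)) w /
            (C 0).C (fd.P H a (f x)) w) (v x)) ((1 + (0 : ℂ)) • v x) := by
          rw [add_zero, one_smul]
          exact hd1.hasFDerivAt
        have hd4 := hd3.comp_hasDerivAt (0 : ℂ) hd2
        have hd5 : (fun s : ℂ => (C c.succ).C (fd.P H a (f x)) ((1 + s) • v x) /
            (C 0).C (fd.P H a (f x)) ((1 + s) • v x)) =ᶠ[𝓝 0] fun _ =>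
            (C c.succ).C (fd.P H a (f x)) (v x) / (C 0).C (fd.P H a (f x)) (v x) := by
          have hc1 : ContinuousAt (fun s : ℂ => 1 + s) 0 := by fun_prop
          filter_upwards [hc1.eventually_ne (by simp : (1 : ℂ) + 0 ≠ 0)] with s hs
          rw [(C c.succ).homog, (C 0).homog, mul_div_mul_left _ _ (pow_ne_zero _ hs)]
        have hd6 : HasDerivAt (fun s : ℂ => (C c.succ).C (fd.P H a (f x)) ((1 + s) • v x) /
            (C 0).C (fd.P H a (f x)) ((1 + s) • v x)) 0 0 :=
          (hasDerivAt_const (0 : ℂ) _).congr_of_eventuallyEq hd5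
        exact hd4.unique hd6
      have h4 : ∑ c : Fin r', γ (Sum.inl c) • dif E (fun w => S c.succ 0 w / S 0 0 w) x ξ = 0 :=
        h1
      calc ∑ c : Fin r', (γ (Sum.inl c) • fderiv ℂ (fun w => (C c.succ).C (fd.P H a (f x)) w /
            (C 0).C (fd.P H a (f x)) w) (v x)) (dV E v x ξ + s • v x)
          = ∑ c : Fin r', γ (Sum.inl c) • dif E (fun w => S c.succ 0 w / S 0 0 w) x ξ := by
            refine Finset.sum_congr rfl fun c _ => ?_
            rw [hdC c ξ hξ1, smul_apply, map_add, map_smul, h3 c, smul_zero, add_zero]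
        _ = 0 := h4
    have hγT : ∀ b, γ (Sum.inr b) = 0 := by
      have hTind := hx4
      rw [Fintype.linearIndependent_iff] at hTind
      have h1 := hTind (fun b => γ (Sum.inr b) *
        ((M : ℂ) * (t b.succ (f x) / t 0 (f x)) ^ (M - 1))) (by
          refine ContinuousLinearMap.ext fun η => ?_
          obtain ⟨ξ, rfl⟩ := hsub x η
          have h2 := congrArg (fun A : E →L[ℂ] ℂ => A ξ) hγ
          simp only [hγC, add_apply, sum_apply, smul_apply, zero_smul, Finset.sum_const_zero,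
            zero_add, zero_apply] at h2
          rw [sum_apply, zero_apply, ← h2]
          refine Finset.sum_congr rfl fun b _ => ?_
          rw [hdT b, smul_apply, smul_apply, ContinuousLinearMap.comp_apply, smul_smul])
      intro b
      have h2 := h1 b
      have h3 : ((M : ℂ) * (t b.succ (f x) / t 0 (f x)) ^ (M - 1)) ≠ 0 :=
        mul_ne_zero (by exact_mod_cast hM.ne') (pow_ne_zero _ (div_ne_zero (hx2 b) hx1))
      exact (mul_eq_zero.1 h2).resolve_right h3
    intro s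
    rcases s with c | b
    · exact hγC c
    · exact hγT b

end Vale.Agent.P281
end

section

namespace Vale.Agent.P281

open scoped Manifold ContDiff Topology
open Set Filter Metric

set_option linter.unusedSectionVars false
set_option linter.unusedVariables false

universe u

variable {E E' : Type} [NormedAddCommGroup E] [NormedSpace ℂ E]
  [NormedAddCommGroup E'] [NormedSpace ℂ E']
variable {X Y : Type u} [TopologicalSpace X] [ChartedSpace E X] [IsManifold 𝓘(ℂ, E) ω X]
  [TopologicalSpace Y] [ChartedSpace E' Y] [IsManifold 𝓘(ℂ, E') ω Y]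
variable {f : X → Y} {r : ℕ} {B : ProjectiveBundle E E' f r}

theorem exists_lift_value (hf : Continuous f) {a : B.ι} {y : Y} (hy : y ∈ B.U a)
    {w : Fin (r + 1) → ℂ} (hw : w ≠ 0) :
    ∃ v, IsLift E f (B.π a) v (B.π a y w) ∧ v (B.π a y w) = w := by
  have hfx : f (B.π a y w) = y := (B.triv a).proj y hy w hw
  obtain ⟨v₀, hv₀⟩ := (B.triv a).lift (B.π a y w) (by rw [hfx]; exact hy)
  have hv0 : v₀ (B.π a y w) ≠ 0 := hv₀.2.self_of_nhds.1
  have hv1 : B.π a y (v₀ (B.π a y w)) = B.π a y w := by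
    have := hv₀.2.self_of_nhds.2
    rwa [hfx] at this
  obtain ⟨c, hc⟩ := ((B.triv a).eq_iff y hy _ hv0 w hw).1 hv1
  have hc0 : c ≠ 0 := by
    rintro rfl
    rw [zero_smul] at hc
    exact hw hc
  refine ⟨fun z => c • v₀ z, ⟨?_, ?_⟩, hc.symm⟩
  · exact (ContinuousLinearMap.contMDiff
      (c • ContinuousLinearMap.id ℂ (Fin (r + 1) → ℂ))).contMDiffAt.comp _ hv₀.1
  · have hU : ∀ᶠ z in 𝓝 (B.π a y w), f z ∈ B.U a := by
      refine hf.continuousAt.eventually ?_
      rw [hfx]
      exact (B.triv a).isOpen.mem_nhds hy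
    filter_upwards [hv₀.2, hU] with z hz hzU
    refine ⟨smul_ne_zero hc0 hz.1, ?_⟩
    have := ((B.triv a).eq_iff (f z) hzU _ hz.1 _ (smul_ne_zero hc0 hz.1)).2 ⟨c, rfl⟩
    rw [← this]
    exact hz.2

theorem form_contDiff_pair {κ : Type*} [Fintype κ] {deg : κ → ℕ} {n : ℕ} (i : κ) :
    ContDiff ℂ ω (fun q : Coefs deg n × (Fin n → ℂ) => form (q.1 i) q.2) := by
  unfold form
  refine ContDiff.sum fun J _ => ?_
  have h1 : ContDiff ℂ ω (fun q : Coefs deg n × (Fin n → ℂ) => q.1 i) :=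
    (ContinuousLinearMap.proj (R := ℂ) (φ := fun i => (Fin (deg i) → Fin n) → ℂ)
      i).contDiff.comp contDiff_fst
  refine ContDiff.mul ((contDiff_apply ℂ ℂ J).comp h1) (contDiff_prod fun l _ => ?_)
  exact (contDiff_apply ℂ ℂ (J l)).comp contDiff_snd

/-- Transversal fibres give transversal tuples of forms. -/
theorem trForm_of_transversal [FiniteDimensional ℂ E] [FiniteDimensional ℂ E'] {Δ : Set X → ℝ}
    (hf : ContMDiff 𝓘(ℂ, E) 𝓘(ℂ, E') ω f)
    (fd : FormData B {D | Δ D ≠ 0}) {H : Finset (Set X)} (hH : ∀ D ∈ H, Δ D ≠ 0)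
    {y : Y} (htr : IsTransversal (E := E) (E' := E') f Δ y) {a : B.ι} (ha : y ∈ B.U a) :
    GIT.TrForm (fd.P H a y) := by
  classical
  intro w hw
  set x := B.π a y w with hx
  have hfx : f x = y := (B.triv a).proj y ha w hw
  obtain ⟨v, hv, hvx⟩ := exists_lift_value hf.continuous ha hw
  rw [← hx] at hv hvx
  have hfa : f x ∈ B.U a := by rw [hfx]; exact ha
  set g : Set X → X → ℂ := fun D z => form (fun J => fd.p a D J (f z)) (v z) with hg
  have hgeq : ∀ D, Δ D ≠ 0 → x ∈ D → IsLocalEq E D (g D) x := fun D hD _ =>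
    fd.eqn a D hD x v hfa hv
  have h1 := htr x g hfx hgeq
  -- subfamily
  have hmem : ∀ i : {i : H // form (fd.P H a y i) w = 0}, Δ i.1 ≠ 0 ∧ x ∈ i.1.1 := by
    intro i
    refine ⟨hH _ i.1.2, ?_⟩
    rw [hx, mem_iff_form B fd (hH _ i.1.2) ha hw]
    exact i.2
  let s : {i : H // form (fd.P H a y i) w = 0} → {D : Set X // Δ D ≠ 0 ∧ x ∈ D} :=
    fun i => ⟨i.1.1, hmem i⟩
  have hs : Function.Injective s := by
    intro i j hij
    apply Subtype.ext
    apply Subtype.ext
    exact congrArg (fun z => z.1) hij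
  have h2 := h1.comp s hs
  -- factor through the fibre derivative
  let L : LinearMap.ker (mfderiv 𝓘(ℂ, E) 𝓘(ℂ, E') f x : E →L[ℂ] E').toLinearMap →ₗ[ℂ]
      (Fin (r + 1) → ℂ) := (dV E v x : E →ₗ[ℂ] (Fin (r + 1) → ℂ)).domRestrict _
  let Ψ : ((Fin (r + 1) → ℂ) →L[ℂ] ℂ) →ₗ[ℂ]
      (LinearMap.ker (mfderiv 𝓘(ℂ, E) 𝓘(ℂ, E') f x : E →L[ℂ] E').toLinearMap →ₗ[ℂ] ℂ) :=
    { toFun := fun φ => (φ : (Fin (r + 1) → ℂ) →ₗ[ℂ] ℂ).comp L
      map_add' := fun _ _ => rfl
      map_smul' := fun _ _ => rfl }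
  apply LinearIndependent.of_comp Ψ
  refine (linearIndependent_equiv' (Equiv.refl _) ?_).1 h2
  funext i
  refine LinearMap.ext fun ξ => ?_
  have hξ : dM E E' f x ξ.1 = 0 := ξ.2
  have h3 := dif_fibre fd hH hf hfa hv (Φ := fun q v => form (q i.1) v)
    (form_contDiff_pair i.1).contDiffAt hξ
  show fderiv ℂ (form (fd.P H a y i.1)) w (dV E v x ξ.1) = dif E (g i.1.1) x ξ.1
  rw [hfx, hvx] at h3
  rw [← h3]
  rfl

end Vale.Agent.P281

namespace Vale.Agent.P281

open scoped Manifold ContDiff Topology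
open Set Filter Metric

set_option linter.unusedSectionVars false
set_option linter.unusedVariables false

universe u

variable {E : Type} [NormedAddCommGroup E] [NormedSpace ℂ E]
variable {X : Type u} [TopologicalSpace X] [ChartedSpace E X] [IsManifold 𝓘(ℂ, E) ω X]
variable {W : Type} [NormedAddCommGroup W] [NormedSpace ℂ W]

/-- the map `(ξ, c) ↦ Du ξ + c u`. -/
noncomputable def L0 (u : X → W) (x : X) : (E × ℂ) →L[ℂ] W :=
  (dV E u x).comp (ContinuousLinearMap.fst ℂ E ℂ) +
    (ContinuousLinearMap.snd ℂ E ℂ).smulRight (u x)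

theorem L0_apply (u : X → W) (x : X) (ξ : E) (c : ℂ) :
    L0 (E := E) u x (ξ, c) = dV E u x ξ + c • u x := by
  simp only [L0, add_apply, ContinuousLinearMap.comp_apply, ContinuousLinearMap.coe_fst',
    ContinuousLinearMap.smulRight_apply, ContinuousLinearMap.coe_snd']

/-- Jacobian of a homogeneous lift. -/
noncomputable def J0 (e : (E × ℂ) ≃L[ℂ] W) (u : X → W) (x : X) : ℂ :=
  ((L0 (E := E) u x).comp (e.symm : W →L[ℂ] (E × ℂ))).det

theorem det_conj_e0 (e : (E × ℂ) ≃L[ℂ] W) (A : (E × ℂ) →L[ℂ] (E × ℂ)) (L : (E × ℂ) →L[ℂ] W) :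
    ((L.comp A).comp (e.symm : W →L[ℂ] (E × ℂ))).det =
      (L.comp (e.symm : W →L[ℂ] (E × ℂ))).det * A.det := by
  have h1 : (L.comp A).comp (e.symm : W →L[ℂ] (E × ℂ)) =
      (L.comp (e.symm : W →L[ℂ] (E × ℂ))).comp
        (((e : (E × ℂ) →L[ℂ] W).comp A).comp (e.symm : W →L[ℂ] (E × ℂ))) := by
    refine ContinuousLinearMap.ext fun w => ?_
    simp only [ContinuousLinearMap.comp_apply, ContinuousLinearEquiv.coe_coe,
      ContinuousLinearEquiv.symm_apply_apply]
  rw [h1, clm_det_comp]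
  congr 1
  exact LinearMap.det_conj (A : (E × ℂ) →ₗ[ℂ] (E × ℂ)) e.toLinearEquiv

theorem J0_congr (e : (E × ℂ) ≃L[ℂ] W) {u u' : X → W} {x : X} (h : u =ᶠ[𝓝 x] u') :
    J0 e u x = J0 e u' x := by
  unfold J0 L0
  rw [dV_congr h, h.self_of_nhds]

theorem J0_smul [FiniteDimensional ℂ E] [FiniteDimensional ℂ W] (e : (E × ℂ) ≃L[ℂ] W)
    {u : X → W} {lam : X → ℂ} {x : X}
    (hl : HolV E lam x) (h0 : lam x ≠ 0) (hv : HolV E u x) :
    J0 e (fun z => lam z • u z) x = lam x ^ (Module.finrank ℂ W) * J0 e u x := by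
  let Sh : (E × ℂ) →L[ℂ] (E × ℂ) :=
    (ContinuousLinearMap.fst ℂ E ℂ).prod
      (((lam x)⁻¹ • dV E lam x).comp (ContinuousLinearMap.fst ℂ E ℂ) +
        ContinuousLinearMap.snd ℂ E ℂ)
  have hL : L0 (E := E) (fun z => lam z • u z) x =
      lam x • ((L0 (E := E) u x).comp Sh) := by
    refine ContinuousLinearMap.ext fun p => ?_
    obtain ⟨ξ, c⟩ := p
    have hSh : Sh (ξ, c) = (ξ, (lam x)⁻¹ * dV E lam x ξ + c) := by
      simp [Sh]
    rw [L0_apply, dV_smul hl hv, smul_apply, ContinuousLinearMap.comp_apply, hSh, L0_apply]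
    simp only [add_apply, smul_apply, ContinuousLinearMap.smulRight_apply]
    rw [smul_add, smul_smul, smul_smul, mul_add, mul_inv_cancel_left₀ h0, add_smul, ← add_assoc,
      mul_comm c]
  unfold J0
  rw [hL]
  have h1 : (lam x • ((L0 (E := E) u x).comp Sh)).comp (e.symm : W →L[ℂ] (E × ℂ)) =
      lam x • (((L0 (E := E) u x).comp Sh).comp (e.symm : W →L[ℂ] (E × ℂ))) := by
    refine ContinuousLinearMap.ext fun w => ?_
    simp only [ContinuousLinearMap.smul_comp, smul_apply, ContinuousLinearMap.comp_apply,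
      ContinuousLinearEquiv.coe_coe]
  rw [h1]
  have h2 : (lam x • (((L0 (E := E) u x).comp Sh).comp (e.symm : W →L[ℂ] (E × ℂ)))).det =
      lam x ^ (Module.finrank ℂ W) *
        (((L0 (E := E) u x).comp Sh).comp (e.symm : W →L[ℂ] (E × ℂ))).det := by
    unfold ContinuousLinearMap.det
    exact LinearMap.det_smul _ _
  rw [h2, det_conj_e0]
  have : Sh.det = 1 := det_shear _
  rw [this, mul_one]

theorem J0_local [FiniteDimensional ℂ E] [FiniteDimensional ℂ W]
    (e : (E × ℂ) ≃L[ℂ] W) {u : X → W} {x₀ : X} (hv : HolV E u x₀) :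
    ∃ H : X → ℂ, HolV E H x₀ ∧ ∀ᶠ x in 𝓝 x₀, J0 e u x = H x * jac E (chartAt E x₀) x := by
  set φ := chartAt E x₀ with hφ
  let A : E → (W →L[ℂ] W) := fun w =>
    ((fderiv ℂ (u ∘ φ.symm) w).comp (ContinuousLinearMap.fst ℂ E ℂ) +
      (ContinuousLinearMap.snd ℂ E ℂ).smulRight ((u ∘ φ.symm) w)).comp
        (e.symm : W →L[ℂ] (E × ℂ))
  have hx0 : x₀ ∈ φ.source := mem_chart_source E x₀
  have hA : ContDiffAt ℂ ω A (φ x₀) := by
    have h2 : ContDiffAt ℂ ω (fderiv ℂ (u ∘ φ.symm)) (φ x₀) :=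
      (hv.rep hx0).fderiv_right (by simp only [WithTop.top_add, Std.le_refl])
    have h3 : ContDiffAt ℂ ω (u ∘ φ.symm) (φ x₀) := hv.rep hx0
    refine ContDiffAt.clm_comp ?_ contDiffAt_const
    exact (h2.clm_comp contDiffAt_const).add (contDiffAt_const.smulRight h3)
  refine ⟨fun x => (A (φ x)).det, ?_, ?_⟩
  · refine HolV.of_rep hx0 ?_
    have : ContDiffAt ℂ ω (fun w => (A w).det) (φ x₀) :=
      (contDiff_det.contDiffAt).comp _ hA
    refine this.congr_of_eventuallyEq ?_
    filter_upwards [φ.open_target.mem_nhds (φ.map_source hx0)] with w hw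
    have : φ ((chartAt E x₀).symm w) = w := φ.right_inv hw
    simp [this]
  · have hve := hv.eventually
    have hsrc : ∀ᶠ x in 𝓝 x₀, x ∈ φ.source := φ.open_source.mem_nhds hx0
    filter_upwards [hve, hsrc] with x hvx hxs
    let R : (E × ℂ) →L[ℂ] (E × ℂ) :=
      ((dV E (φ : X → E) x).comp (ContinuousLinearMap.fst ℂ E ℂ)).prod
        (ContinuousLinearMap.snd ℂ E ℂ)
    have hR : R.det = jac E φ x := by
      have : R.det = LinearMap.det (LinearMap.prodMap
        ((dV E (φ : X → E) x : E →L[ℂ] E) : E →ₗ[ℂ] E)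
        (LinearMap.id : ℂ →ₗ[ℂ] ℂ)) := rfl
      rw [this, LinearMap.det_prodMap, LinearMap.det_id, mul_one]
      rfl
    rw [← hR]
    unfold J0
    have key : (L0 (E := E) u x).comp (e.symm : W →L[ℂ] (E × ℂ)) =
        (((fderiv ℂ (u ∘ φ.symm) (φ x)).comp (ContinuousLinearMap.fst ℂ E ℂ) +
          (ContinuousLinearMap.snd ℂ E ℂ).smulRight ((u ∘ φ.symm) (φ x))).comp R).comp
          (e.symm : W →L[ℂ] (E × ℂ)) := by
      congr 1
      refine ContinuousLinearMap.ext fun p => ?_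
      obtain ⟨ξ, c⟩ := p
      have hRa : R (ξ, c) = (dV E (φ : X → E) x ξ, c) := rfl
      rw [ContinuousLinearMap.comp_apply, L0_apply, hRa, dV_eq_chart hxs hvx]
      simp only [ContinuousLinearMap.comp_apply, add_apply,
        ContinuousLinearMap.smulRight_apply, ContinuousLinearMap.coe_fst',
        ContinuousLinearMap.coe_snd', Function.comp_apply, φ.left_inv hxs]
      rfl
    rw [key, det_conj_e0]

end Vale.Agent.P281

namespace Vale.Agent.P281

open scoped Manifold ContDiff Topology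
open Set Filter Metric

set_option linter.unusedSectionVars false
set_option linter.unusedVariables false

universe u

section LiftRatio

variable {E E' : Type} [NormedAddCommGroup E] [NormedSpace ℂ E]
  [NormedAddCommGroup E'] [NormedSpace ℂ E']
variable {X Y : Type u} [TopologicalSpace X] [ChartedSpace E X] [IsManifold 𝓘(ℂ, E) ω X]
  [TopologicalSpace Y] [ChartedSpace E' Y] [IsManifold 𝓘(ℂ, E') ω Y]
variable {f : X → Y} {r : ℕ} {U : Set Y} {π : Y → (Fin (r + 1) → ℂ) → X}

theorem lift_ratio (ht : IsTrivialization E E' f U π) {x : X} (hf : ContinuousAt f x)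
    (hx : f x ∈ U) {v v' : X → (Fin (r + 1) → ℂ)} (hv : IsLift E f π v x)
    (hv' : IsLift E f π v' x) :
    ∃ lam : X → ℂ, HolV E lam x ∧ lam x ≠ 0 ∧ v' =ᶠ[𝓝 x] fun z => lam z • v z := by
  obtain ⟨i, hi⟩ : ∃ i, v x i ≠ 0 := by
    by_contra hcon
    push Not at hcon
    exact hv.ne_zero (funext hcon)
  have hlamh : HolV E (fun z => v' z i / v z i) x := (hv'.hol.eval i).div (hv.hol.eval i) hi
  have hev : v' =ᶠ[𝓝 x] fun z => (v' z i / v z i) • v z := by
    have e2 : ∀ᶠ z in 𝓝 x, v z i ≠ 0 := (hv.hol.eval i).continuousAt.eventually_ne hi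
    have e3 : ∀ᶠ z in 𝓝 x, f z ∈ U := hf.eventually (ht.isOpen.mem_nhds hx)
    filter_upwards [e2, e3, hv.eventually, hv'.eventually] with z h2 h3 h4 h5
    obtain ⟨c, hc⟩ := (ht.eq_iff (f z) h3 (v z) h4.ne_zero (v' z) h5.ne_zero).1
      (by rw [h4.eq, h5.eq])
    have : v' z i / v z i = c := by
      rw [hc, Pi.smul_apply, smul_eq_mul, mul_div_assoc, div_self h2, mul_one]
    rw [this]
    exact hc
  refine ⟨_, hlamh, ?_, hev⟩
  intro h0
  have hx' : v' x = (v' x i / v x i) • v x := hev.self_of_nhds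
  rw [h0, zero_smul] at hx'
  exact hv'.ne_zero hx'

theorem lift_smul (ht : IsTrivialization E E' f U π) {x : X} (hf : ContinuousAt f x)
    (hx : f x ∈ U) {v : X → (Fin (r + 1) → ℂ)} (hv : IsLift E f π v x) {c : ℂ} (hc : c ≠ 0) :
    IsLift E f π (fun z => c • v z) x := by
  refine ⟨HolV.smul (HolV.const c x) hv.hol, ?_⟩
  have e3 : ∀ᶠ z in 𝓝 x, f z ∈ U := hf.eventually (ht.isOpen.mem_nhds hx)
  filter_upwards [e3, hv.2] with z h1 h2
  refine ⟨smul_ne_zero hc h2.1, ?_⟩
  rw [← (ht.eq_iff (f z) h1 (v z) h2.1 (c • v z) (smul_ne_zero hc h2.1)).2 ⟨c, rfl⟩]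
  exact h2.2

theorem exists_lift_at (ht : IsTrivialization E E' f U π) (hf : Continuous f) {y : Y} (hy : y ∈ U)
    {w : Fin (r + 1) → ℂ} (hw : w ≠ 0) :
    ∃ v, IsLift E f π v (π y w) ∧ v (π y w) = w := by
  have hfx : f (π y w) = y := ht.proj y hy w hw
  obtain ⟨v, hv⟩ := ht.lift (π y w) (by rw [hfx]; exact hy)
  obtain ⟨c, hc⟩ := (ht.eq_iff y hy (v (π y w)) hv.ne_zero w hw).1 (by
    have := hv.eq
    rw [hfx] at this
    rw [this])
  have hc0 : c ≠ 0 := by
    intro h0
    rw [h0, zero_smul] at hc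
    exact hw hc
  exact ⟨fun z => c • v z, lift_smul ht hf.continuousAt (by rw [hfx]; exact hy) hv hc0, hc.symm⟩

end LiftRatio

section InverseFn

variable {E : Type} [NormedAddCommGroup E] [NormedSpace ℂ E] [FiniteDimensional ℂ E]
variable {F : Type u} [TopologicalSpace F] [ChartedSpace E F] [IsManifold 𝓘(ℂ, E) ω F]
variable {W : Type} [NormedAddCommGroup W] [NormedSpace ℂ W] [FiniteDimensional ℂ W]

/-- holomorphic dependence of `p`, `λ` on `w = λ • u p`. -/
theorem inverse_fn {u : F → W} {p₀ : F} (hu : HolV E u p₀)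
    (hbij : Function.Bijective (L0 (E := E) u p₀)) {w : ℂ → W} {t₀ : ℂ}
    (hw : DifferentiableAt ℂ w t₀) {p : ℂ → F} {lam : ℂ → ℂ} (hp : ContinuousAt p t₀)
    (hp0 : p t₀ = p₀) (hlam : ContinuousAt lam t₀) (hlam0 : lam t₀ = 1)
    (heq : ∀ᶠ t in 𝓝 t₀, w t = lam t • u (p t)) :
    DifferentiableAt ℂ lam t₀ ∧ ∀ h : F → ℂ, HolV E h p₀ → DifferentiableAt ℂ (h ∘ p) t₀ := by
  have : CompleteSpace E := FiniteDimensional.complete ℂ E
  have : CompleteSpace W := FiniteDimensional.complete ℂ W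
  set φ := chartAt E p₀ with hφ
  have hx0 : p₀ ∈ φ.source := mem_chart_source E p₀
  set û : E → W := u ∘ φ.symm with hû
  have hûd : ContDiffAt ℂ ω û (φ p₀) := hu.rep hx0
  have hû0 : û (φ p₀) = u p₀ := by simp [hû, φ.left_inv hx0]
  set Ψ : E × ℂ → W := fun q => q.2 • û q.1 with hΨ
  have hΨd : ContDiffAt ℂ ω Ψ (φ p₀, 1) := by
    have h1 : ContDiffAt ℂ ω (fun q : E × ℂ => û q.1) (φ p₀, 1) :=
      ContDiffAt.comp (g := û) (f := Prod.fst) (φ p₀, (1 : ℂ)) hûd contDiffAt_fst
    exact contDiffAt_snd.smul h1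
  have hstrict := hΨd.hasStrictFDerivAt (by simp)
  -- formula for the derivative
  have hder : ∀ (ξ : E) (c : ℂ), fderiv ℂ Ψ (φ p₀, 1) (ξ, c) =
      fderiv ℂ û (φ p₀) ξ + c • u p₀ := by
    intro ξ c
    have h1 : HasFDerivAt (fun q : E × ℂ => û q.1)
        ((fderiv ℂ û (φ p₀)).comp (ContinuousLinearMap.fst ℂ E ℂ)) (φ p₀, 1) :=
      HasFDerivAt.comp (g := û) (f := Prod.fst) (φ p₀, (1 : ℂ))
        ((hûd.differentiableAt (by simp)).hasFDerivAt) hasFDerivAt_fst
    have h2 := (hasFDerivAt_snd (𝕜 := ℂ) (p := (φ p₀, (1 : ℂ)))).smul h1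
    have h3 : HasFDerivAt Ψ _ (φ p₀, 1) := h2
    rw [h3.fderiv]
    simp only [one_smul, hû0, add_apply, ContinuousLinearMap.comp_apply,
      ContinuousLinearMap.coe_fst', ContinuousLinearMap.smulRight_apply,
      ContinuousLinearMap.coe_snd']
  have hbij' : Function.Bijective (fderiv ℂ Ψ (φ p₀, 1)) := by
    have hfin : Module.finrank ℂ (E × ℂ) = Module.finrank ℂ W :=
      (LinearEquiv.ofBijective ((L0 (E := E) u p₀ : (E × ℂ) →L[ℂ] W) : (E × ℂ) →ₗ[ℂ] W)
        hbij).finrank_eq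
    have hsurj : Function.Surjective (fderiv ℂ Ψ (φ p₀, 1)) := by
      intro y
      obtain ⟨⟨ξ, c⟩, h⟩ := hbij.2 y
      rw [L0_apply, dV_eq_chart hx0 hu] at h
      refine ⟨(dV E (φ : F → E) p₀ ξ, c), ?_⟩
      rw [hder]
      exact h
    exact ⟨(LinearMap.injective_iff_surjective_of_finrank_eq_finrank hfin
      (f := ((fderiv ℂ Ψ (φ p₀, 1) : (E × ℂ) →L[ℂ] W) : (E × ℂ) →ₗ[ℂ] W))).2 hsurj, hsurj⟩
  let A : (E × ℂ) ≃L[ℂ] W := (LinearEquiv.ofBijective
    ((fderiv ℂ Ψ (φ p₀, 1) : (E × ℂ) →L[ℂ] W) : (E × ℂ) →ₗ[ℂ] W) hbij').toContinuousLinearEquiv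
  have hA : (A : (E × ℂ) →L[ℂ] W) = fderiv ℂ Ψ (φ p₀, 1) := by
    refine ContinuousLinearMap.ext fun q => rfl
  have hs : HasStrictFDerivAt Ψ (A : (E × ℂ) →L[ℂ] W) (φ p₀, 1) := by rw [hA]; exact hstrict
  have hΨ0 : Ψ (φ p₀, 1) = w t₀ := by
    rw [heq.self_of_nhds, hlam0, hp0]
    simp [hΨ, hû0]
  -- the curve
  have hcurve : ContinuousAt (fun t => (φ (p t), lam t)) t₀ := by
    refine ContinuousAt.prodMk ?_ hlam
    have : ContinuousAt φ (p t₀) := by rw [hp0]; exact φ.continuousAt hx0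
    exact ContinuousAt.comp this hp
  have hsrc : ∀ᶠ t in 𝓝 t₀, p t ∈ φ.source := by
    apply hp.eventually
    rw [hp0]
    exact φ.open_source.mem_nhds hx0
  have hc0 : (φ (p t₀), lam t₀) = (φ p₀, (1 : ℂ)) := by rw [hp0, hlam0]
  have hloc : ∀ᶠ t in 𝓝 t₀, hs.localInverse Ψ A (φ p₀, 1) (w t) = (φ (p t), lam t) := by
    have h1 : ∀ᶠ t in 𝓝 t₀, hs.localInverse Ψ A (φ p₀, 1) (Ψ (φ (p t), lam t)) =
        (φ (p t), lam t) := by
      have hct : Tendsto (fun t => (φ (p t), lam t)) (𝓝 t₀) (𝓝 (φ p₀, 1)) := by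
        have := hcurve.tendsto
        rwa [hc0] at this
      exact hct.eventually hs.eventually_left_inverse
    filter_upwards [h1, hsrc, heq] with t h1 h2 h3
    rw [← h1]
    congr 1
    rw [h3]
    simp [hΨ, hû, φ.left_inv h2]
  have hdiff : DifferentiableAt ℂ (fun t => (φ (p t), lam t)) t₀ := by
    have h1 : DifferentiableAt ℂ (hs.localInverse Ψ A (φ p₀, 1)) (w t₀) := by
      rw [← hΨ0]
      exact hs.to_localInverse.hasFDerivAt.differentiableAt
    have h2 : DifferentiableAt ℂ (fun t => hs.localInverse Ψ A (φ p₀, 1) (w t)) t₀ :=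
      DifferentiableAt.comp t₀ h1 hw
    exact h2.congr_of_eventuallyEq (hloc.mono fun t ht => ht.symm)
  refine ⟨hdiff.snd, fun h hh => ?_⟩
  have h1 : DifferentiableAt ℂ (h ∘ φ.symm) (φ (p t₀)) := by
    rw [hp0]
    exact (hh.rep hx0).differentiableAt (by simp)
  have h2 : DifferentiableAt ℂ (fun t => (h ∘ φ.symm) (φ (p t))) t₀ :=
    DifferentiableAt.comp (g := h ∘ φ.symm) (f := fun t => φ (p t)) t₀ h1 hdiff.fst
  refine h2.congr_of_eventuallyEq ?_
  filter_upwards [hsrc] with t ht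
  simp [φ.left_inv ht]

end InverseFn

end Vale.Agent.P281

namespace Vale.Agent.P281

open scoped Manifold ContDiff Topology
open Set Filter Metric

set_option linter.unusedSectionVars false
set_option linter.unusedVariables false

universe u

variable {E E' E₀ : Type} [NormedAddCommGroup E] [NormedSpace ℂ E]
  [NormedAddCommGroup E'] [NormedSpace ℂ E'] [NormedAddCommGroup E₀] [NormedSpace ℂ E₀]
  [FiniteDimensional ℂ E] [FiniteDimensional ℂ E'] [FiniteDimensional ℂ E₀]
variable {X Y F : Type u} [TopologicalSpace X] [ChartedSpace E X] [IsManifold 𝓘(ℂ, E) ω X]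
  [TopologicalSpace Y] [ChartedSpace E' Y] [IsManifold 𝓘(ℂ, E') ω Y]
  [TopologicalSpace F] [ChartedSpace E₀ F] [IsManifold 𝓘(ℂ, E₀) ω F]
variable {f : X → Y} {r : ℕ} {B : ProjectiveBundle E E' f r} {T : Set (Set X)}
  {i : F → X} {y : Y} {a : B.ι}

theorem dM_comp_zero (hf : ∀ x, HolM E E' f x) (hi : ∀ p, HolM E₀ E i p)
    (hfi : ∀ p, f (i p) = y) (p : F) (ξ : E₀) :
    dM E E' f (i p) (dM E₀ E i p ξ) = 0 := by
  have h1 := mfderiv_comp p ((hf (i p)).mdifferentiableAt (by simp))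
    ((hi p).mdifferentiableAt (by simp))
  have h2 : f ∘ i = fun _ => y := funext hfi
  rw [h2, mfderiv_const] at h1
  have h3 := congrArg (fun A : E₀ →L[ℂ] E' => A ξ) h1
  exact h3.symm

theorem L0_bij (e : (E × ℂ) ≃L[ℂ] (E' × (Fin (r + 1) → ℂ)))
    (e₀ : (E₀ × ℂ) ≃L[ℂ] (Fin (r + 1) → ℂ))
    (hfc : ContMDiff 𝓘(ℂ, E) 𝓘(ℂ, E') ω f) (hi : ∀ p, HolM E₀ E i p)
    (himm : ∀ p, Function.Injective (dM E₀ E i p)) (hfi : ∀ p, f (i p) = y) (hya : y ∈ B.U a)
    {p : F} {v : X → (Fin (r + 1) → ℂ)} (hv : IsLift E f (B.π a) v (i p)) :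
    Function.Bijective (L0 (E := E₀) (fun q => v (i q)) p) ∧
      J0 e₀ (fun q => v (i q)) p ≠ 0 := by
  have hinj : Function.Injective (L0 (E := E₀) (fun q => v (i q)) p) := by
    rw [injective_iff_map_eq_zero]
    rintro ⟨ξ, c⟩ hd
    rw [L0_apply, dV_comp hv.hol (hi p), ContinuousLinearMap.comp_apply] at hd
    have hL := (J_ne_zero e hfc (B.triv a) (by rw [hfi]; exact hya) hv).2.1
    have h1 : Lmap (E := E) (E' := E') f v (i p) (dM E₀ E i p ξ, c) = 0 := by
      rw [Lmap_apply, dM_comp_zero (fun x => hfc x) hi hfi p ξ, hd]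
      rfl
    have h2 := (injective_iff_map_eq_zero _).1 hL _ h1
    obtain ⟨h3, h4⟩ := Prod.mk_eq_zero.1 h2
    have h5 : ξ = 0 := by
      apply himm p
      rw [h3, map_zero]
    rw [h5, h4]; rfl
  have hfin : Module.finrank ℂ (E₀ × ℂ) = Module.finrank ℂ (Fin (r + 1) → ℂ) :=
    e₀.toLinearEquiv.finrank_eq
  have hbij : Function.Bijective (L0 (E := E₀) (fun q => v (i q)) p) :=
    ⟨hinj, (LinearMap.injective_iff_surjective_of_finrank_eq_finrank hfin).1 hinj⟩
  refine ⟨hbij, ?_⟩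
  unfold J0
  have hb : Function.Bijective
      ((L0 (E := E₀) (fun q => v (i q)) p).comp
        (e₀.symm : (Fin (r + 1) → ℂ) →L[ℂ] (E₀ × ℂ))) :=
    hbij.comp e₀.symm.bijective
  rw [ContinuousLinearMap.det]
  have := LinearEquiv.isUnit_det' (LinearEquiv.ofBijective
    (((L0 (E := E₀) (fun q => v (i q)) p).comp
      (e₀.symm : (Fin (r + 1) → ℂ) →L[ℂ] (E₀ × ℂ)) :
        (Fin (r + 1) → ℂ) →L[ℂ] (Fin (r + 1) → ℂ)) :
        (Fin (r + 1) → ℂ) →ₗ[ℂ] (Fin (r + 1) → ℂ)) hb)
  exact this.ne_zero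

/-- the quotient of a section by the standard one. -/
noncomputable def hfun (fd : FormData B T) (Tf : Finset (Set X)) (k : Set X → ℕ) (m : ℕ)
    (e₀ : (E₀ × ℂ) ≃L[ℂ] (Fin (r + 1) → ℂ)) (i : F → X) (y : Y) (a : B.ι) (s : F → ℂ)
    (v : X → (Fin (r + 1) → ℂ)) (p : F) : ℂ :=
  s p * (∏ D ∈ Tf, form (fun J => fd.p a D J y) (v (i p)) ^ k D) /
    J0 e₀ (fun q => v (i q)) p ^ m

theorem hfun_change (fd : FormData B T) (Tf : Finset (Set X)) (k : Set X → ℕ) (m : ℕ)
    (e₀ : (E₀ × ℂ) ≃L[ℂ] (Fin (r + 1) → ℂ)) (hi : ∀ p, HolM E₀ E i p) (s : F → ℂ)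
    {v v' : X → (Fin (r + 1) → ℂ)} {p : F} {lam : X → ℂ} (hlam : HolV E lam (i p))
    (h0 : lam (i p) ≠ 0) (hv : HolV E v (i p)) (hev : v' =ᶠ[𝓝 (i p)] fun z => lam z • v z) :
    hfun fd Tf k m e₀ i y a s v' p * lam (i p) ^ ((r + 1) * m) =
      lam (i p) ^ (∑ D ∈ Tf, fd.deg D * k D) * hfun fd Tf k m e₀ i y a s v p := by
  have h1 : (fun q => v' (i q)) =ᶠ[𝓝 p] fun q => lam (i q) • v (i q) :=
    (hi p).continuousAt.eventually hev
  have h2 : J0 e₀ (fun q => v' (i q)) p = lam (i p) ^ (r + 1) * J0 e₀ (fun q => v (i q)) p := by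
    rw [J0_congr e₀ h1, J0_smul e₀ (lam := fun q => lam (i q)) (HolV.comp hlam (hi p)) h0
      (HolV.comp hv (hi p))]
    simp
  have h3 : v' (i p) = lam (i p) • v (i p) := hev.self_of_nhds
  unfold hfun
  rw [h2, h3]
  have h4 : ∏ D ∈ Tf, form (fun J => fd.p a D J y) (lam (i p) • v (i p)) ^ k D =
      lam (i p) ^ (∑ D ∈ Tf, fd.deg D * k D) *
        ∏ D ∈ Tf, form (fun J => fd.p a D J y) (v (i p)) ^ k D := by
    rw [← Finset.prod_pow_eq_pow_sum, ← Finset.prod_mul_distrib]
    refine Finset.prod_congr rfl fun D _ => ?_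
    rw [form_smul, mul_pow, ← pow_mul]
  rw [h4, mul_pow, ← pow_mul]
  by_cases hJ : J0 e₀ (fun q => v (i q)) p ^ m = 0
  · simp only [hJ, mul_zero, div_zero, zero_mul]
  · have h5 : lam (i p) ^ ((r + 1) * m) ≠ 0 := pow_ne_zero _ h0
    field_simp

/-- equations on the fibre -/
def eqnF (E : Type) [NormedAddCommGroup E] [NormedSpace ℂ E] {X F : Type u} [TopologicalSpace X]
    [ChartedSpace E X] [TopologicalSpace F] (i : F → X) (D : Set X) (p : F) (g : F → ℂ) : Prop :=
  ∃ e, IsLocalEq E D e (i p) ∧ ∀ᶠ q in 𝓝 p, g q = e (i q)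

theorem eqnF_hol (hi : ∀ p, HolM E₀ E i p) {D : Set X} {p : F} {g : F → ℂ}
    (h : eqnF E i D p g) : HolV E₀ g p := by
  obtain ⟨e, he, hev⟩ := h
  exact HolV.congr (HolV.comp he.holAt (hi p)) hev

theorem eqnF_mem (hi : ∀ p, HolM E₀ E i p) {D : Set X} {p : F} {g : F → ℂ}
    (h : eqnF E i D p g) : ∀ᶠ q in 𝓝 p, (i q ∈ D ↔ g q = 0) := by
  obtain ⟨e, he, hev⟩ := h
  filter_upwards [hev, (hi p).continuousAt.eventually he.eventually] with q h1 h2
  rw [h1, h2.mem_iff]

theorem form_bound (fd : FormData B T) (hsm : Smooth E T) (hi : ∀ p, HolM E₀ E i p)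
    (hfi : ∀ p, f (i p) = y) (hya : y ∈ B.U a) {D : Set X} (hD : D ∈ T) {p : F} {g : F → ℂ}
    (hg : eqnF E i D p g) {v : X → (Fin (r + 1) → ℂ)} (hv : IsLift E f (B.π a) v (i p)) :
    ∃ C : ℝ, 0 ≤ C ∧ ∀ᶠ q in 𝓝 p, ‖form (fun J => fd.p a D J y) (v (i q))‖ ≤ C * ‖g q‖ := by
  obtain ⟨e, he, hev⟩ := hg
  have h1 := fd.eqn a D hD (i p) v (by rw [hfi]; exact hya) hv
  obtain ⟨C, hC⟩ := he.bound h1 (fun hx => hsm D hD _ hx _ he)
  refine ⟨|C|, abs_nonneg _, ?_⟩
  filter_upwards [hev, (hi p).continuousAt.eventually hC] with q h2 h3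
  rw [hfi] at h3
  rw [h2]
  exact h3.trans (mul_le_mul_of_nonneg_right (le_abs_self _) (norm_nonneg _))

theorem hfun_bound (e : (E × ℂ) ≃L[ℂ] (E' × (Fin (r + 1) → ℂ)))
    (e₀ : (E₀ × ℂ) ≃L[ℂ] (Fin (r + 1) → ℂ))
    (hfc : ContMDiff 𝓘(ℂ, E) 𝓘(ℂ, E') ω f) (hi : ∀ p, HolM E₀ E i p)
    (himm : ∀ p, Function.Injective (dM E₀ E i p)) (hfi : ∀ p, f (i p) = y) (hya : y ∈ B.U a)
    (fd : FormData B T) (hsm : Smooth E T) {Tf : Finset (Set X)} (hTf : ∀ D, D ∈ Tf ↔ D ∈ T)
    {k : Set X → ℕ} (hk : ∀ D, k D ≠ 0 → D ∈ T) {m : ℕ} {s : F → ℂ}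
    (hs : IsSection E₀ (eqnF E i) m k s) {p : F} {v : X → (Fin (r + 1) → ℂ)}
    (hv : IsLift E f (B.π a) v (i p)) :
    ∃ C : ℝ, ∀ᶠ q in 𝓝 p, ‖hfun fd Tf k m e₀ i y a s v q‖ ≤ C := by
  classical
  obtain ⟨T', g, b, hT', hg, hb, hev⟩ := hs p
  obtain ⟨Hh, hHh, hJ⟩ := J0_local e₀ (HolV.comp hv.hol (hi p))
  -- constants
  have hC : ∀ D : Set X, ∃ C : ℝ, 0 ≤ C ∧ (k D ≠ 0 →
      ∀ᶠ q in 𝓝 p, ‖form (fun J => fd.p a D J y) (v (i q))‖ ≤ C * ‖g D q‖) := by
    intro D
    by_cases hkD : k D = 0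
    · exact ⟨0, le_rfl, fun h => absurd hkD h⟩
    · obtain ⟨C, hC0, hC⟩ := form_bound fd hsm hi hfi hya (hk D hkD) (hg D (hT' D hkD)) hv
      exact ⟨C, hC0, fun _ => hC⟩
  choose C hC0 hC using hC
  have hJp := (L0_bij e e₀ hfc hi himm hfi hya hv).2
  have hHp : Hh p ≠ 0 := by
    intro h0
    have := hJ.self_of_nhds
    rw [h0, zero_mul] at this
    exact hJp this
  set T1 : Finset (Set X) := Tf.filter (fun D => k D ≠ 0) with hT1
  have hT1' : T1 = T'.filter (fun D => k D ≠ 0) := by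
    ext D
    simp only [hT1, Finset.mem_filter, hTf]
    constructor
    · rintro ⟨_, h2⟩; exact ⟨hT' D h2, h2⟩
    · rintro ⟨_, h2⟩; exact ⟨hk D h2, h2⟩
  have hprod1 : ∀ q, ∏ D ∈ Tf, form (fun J => fd.p a D J y) (v (i q)) ^ k D =
      ∏ D ∈ T1, form (fun J => fd.p a D J y) (v (i q)) ^ k D := by
    intro q
    rw [hT1, Finset.prod_filter]
    refine Finset.prod_congr rfl fun D _ => ?_
    by_cases hkD : k D = 0 <;> simp [hkD]
  have hprod2 : ∀ q, ∏ D ∈ T', g D q ^ k D = ∏ D ∈ T1, g D q ^ k D := by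
    intro q
    rw [hT1', Finset.prod_filter]
    refine Finset.prod_congr rfl fun D _ => ?_
    by_cases hkD : k D = 0 <;> simp [hkD]
  have hall : ∀ᶠ q in 𝓝 p, ∀ D ∈ T1,
      ‖form (fun J => fd.p a D J y) (v (i q))‖ ≤ C D * ‖g D q‖ := by
    rw [Finset.eventually_all]
    intro D hD
    rw [hT1, Finset.mem_filter] at hD
    exact hC D hD.2
  set Bd : F → ℝ := fun q => ‖b q‖ * (∏ D ∈ T1, C D ^ k D) / ‖Hh q‖ ^ m with hBd
  have hBdc : ContinuousAt Bd p := by
    have h1 : HolV E₀ b p := hb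
    refine ContinuousAt.div (h1.continuousAt.norm.mul continuousAt_const)
      (hHh.continuousAt.norm.pow m) (pow_ne_zero _ (norm_ne_zero_iff.2 hHp))
  have hlt : ∀ᶠ q in 𝓝 p, Bd q < Bd p + 1 := hBdc.eventually_lt_const (by linarith only [])
  have hjac : ∀ᶠ q in 𝓝 p, jac E₀ (chartAt E₀ p) q ≠ 0 := by
    filter_upwards [(chartAt E₀ p).open_source.mem_nhds (mem_chart_source E₀ p)] with q hq
    exact jac_chart_ne_zero hq
  refine ⟨Bd p + 1, ?_⟩
  filter_upwards [hev, hJ, hall, hlt, hjac, hHh.continuousAt.eventually_ne hHp]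
    with q h1 h2 h3 h4 h5 h6
  have hBpos : 0 ≤ Bd q := by
    rw [hBd]
    have : 0 ≤ ∏ D ∈ T1, C D ^ k D := Finset.prod_nonneg fun D _ => pow_nonneg (hC0 D) _
    (clear * - h6 this; positivity)
  refine le_trans ?_ h4.le
  unfold hfun
  rw [hprod1]
  by_cases hP : ∏ D ∈ T1, form (fun J => fd.p a D J y) (v (i q)) ^ k D = 0
  · rw [hP]; simpa only [mul_zero, zero_div, norm_zero] using hBpos
  · -- all forms are nonzero, hence the local equations too
    have hgne : ∏ D ∈ T1, g D q ^ k D ≠ 0 := by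
      rw [← ne_eq, Finset.prod_ne_zero_iff] at hP
      rw [Finset.prod_ne_zero_iff]
      intro D hD h0
      have hkD : k D ≠ 0 := by rw [hT1, Finset.mem_filter] at hD; exact hD.2
      have hg0 : g D q = 0 := pow_eq_zero_iff hkD |>.1 h0
      have := h3 D hD
      rw [hg0, norm_zero, mul_zero] at this
      apply hP D hD
      rw [norm_le_zero_iff.1 this, zero_pow hkD]
    have hsq := h1 (by rw [hprod2]; exact hgne)
    rw [hprod2] at hsq
    have hsq' : s q = b q * jac E₀ (chartAt E₀ p) q ^ m / ∏ D ∈ T1, g D q ^ k D := by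
      rw [eq_div_iff hgne]; exact hsq
    have hJ2 : J0 e₀ (fun q => v (i q)) q = Hh q * jac E₀ (chartAt E₀ p) q := h2
    rw [hJ2, hsq', norm_div, norm_mul, norm_div, norm_mul, norm_pow, norm_pow, norm_mul,
      mul_pow, norm_prod, norm_prod]
    simp only [norm_pow]
    have hle : ∏ D ∈ T1, ‖form (fun J => fd.p a D J y) (v (i q))‖ ^ k D ≤
        (∏ D ∈ T1, C D ^ k D) * ∏ D ∈ T1, ‖g D q‖ ^ k D := by
      rw [← Finset.prod_mul_distrib]
      refine Finset.prod_le_prod (fun D _ => by (clear * -; positivity)) fun D hD => ?_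
      rw [← mul_pow]
      exact pow_le_pow_left₀ (norm_nonneg _) (h3 D hD) _
    have hgpos : 0 < ∏ D ∈ T1, ‖g D q‖ ^ k D := by
      rw [Finset.prod_ne_zero_iff] at hgne
      refine Finset.prod_pos fun D hD => ?_
      have h7 := hgne D hD
      have hkD : k D ≠ 0 := by rw [hT1, Finset.mem_filter] at hD; exact hD.2
      have : g D q ≠ 0 := fun h0 => h7 (by rw [h0, zero_pow hkD])
      positivity
    have hjpos : 0 < ‖jac E₀ (chartAt E₀ p) q‖ := norm_pos_iff.2 h5
    have hHpos : 0 < ‖Hh q‖ := norm_pos_iff.2 h6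
    rw [hBd]
    simp only
    rw [div_le_div_iff₀ (by positivity) (by positivity)]
    set G := ∏ D ∈ T1, ‖g D q‖ ^ k D with hG
    set FF := ∏ D ∈ T1, ‖form (fun J => fd.p a D J y) (v (i q))‖ ^ k D with hFF
    set CC := ∏ D ∈ T1, C D ^ k D with hCC
    have h8 : ‖b q‖ * ‖jac E₀ (chartAt E₀ p) q‖ ^ m / G * FF ≤
        ‖b q‖ * ‖jac E₀ (chartAt E₀ p) q‖ ^ m * CC := by
      rw [div_mul_eq_mul_div, div_le_iff₀ hgpos]
      calc ‖b q‖ * ‖jac E₀ (chartAt E₀ p) q‖ ^ m * FF
          ≤ ‖b q‖ * ‖jac E₀ (chartAt E₀ p) q‖ ^ m * (CC * G) := by (clear * - h5 hle; gcongr)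
        _ = ‖b q‖ * ‖jac E₀ (chartAt E₀ p) q‖ ^ m * CC * G := by ring
    calc ‖b q‖ * ‖jac E₀ (chartAt E₀ p) q‖ ^ m / G * FF * ‖Hh q‖ ^ m
        ≤ ‖b q‖ * ‖jac E₀ (chartAt E₀ p) q‖ ^ m * CC * ‖Hh q‖ ^ m := by (clear * - h6 h8; gcongr)
      _ = ‖b q‖ * CC * (‖Hh q‖ ^ m * ‖jac E₀ (chartAt E₀ p) q‖ ^ m) := by ring

theorem hfun_hol (e : (E × ℂ) ≃L[ℂ] (E' × (Fin (r + 1) → ℂ)))
    (e₀ : (E₀ × ℂ) ≃L[ℂ] (Fin (r + 1) → ℂ))
    (hfc : ContMDiff 𝓘(ℂ, E) 𝓘(ℂ, E') ω f) (hi : ∀ p, HolM E₀ E i p)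
    (himm : ∀ p, Function.Injective (dM E₀ E i p)) (hfi : ∀ p, f (i p) = y) (hya : y ∈ B.U a)
    (fd : FormData B T) {Tf : Finset (Set X)} 
    {k : Set X → ℕ} {m : ℕ} {s : F → ℂ}
    (hs : IsSection E₀ (eqnF E i) m k s) {p : F} {v : X → (Fin (r + 1) → ℂ)}
    (hv : IsLift E f (B.π a) v (i p)) (hp : ∀ D, k D ≠ 0 → i p ∉ D) :
    HolV E₀ (fun q => hfun fd Tf k m e₀ i y a s v q) p := by
  classical
  obtain ⟨T', g, b, hT', hg, hb, hev⟩ := hs p
  obtain ⟨Hh, hHh, hJ⟩ := J0_local e₀ (HolV.comp hv.hol (hi p))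
  have hJp := (L0_bij e e₀ hfc hi himm hfi hya hv).2
  have hHp : Hh p ≠ 0 := by
    intro h0
    have := hJ.self_of_nhds
    rw [h0, zero_mul] at this
    exact hJp this
  have hQ : HolV E₀ (fun q => ∏ D ∈ T', g D q ^ k D) p :=
    HolV.prod fun D hD => (eqnF_hol hi (hg D hD)).pow _
  have hQ0 : ∏ D ∈ T', g D p ^ k D ≠ 0 := by
    refine Finset.prod_ne_zero_iff.2 fun D hD => ?_
    by_cases hk : k D = 0
    · simp [hk]
    · refine pow_ne_zero _ fun h0 => hp D hk ?_
      exact ((eqnF_mem hi (hg D hD)).self_of_nhds).2 h0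
  have hP : HolV E₀ (fun q => ∏ D ∈ Tf, form (fun J => fd.p a D J y) (v (i q)) ^ k D) p := by
    refine HolV.prod fun D _ => HolV.pow ?_ _
    exact form_holV (fun J => HolV.const _ _) (HolV.comp hv.hol (hi p))
  have hb' : HolV E₀ b p := hb
  have hmain : HolV E₀ (fun q => (b q * ∏ D ∈ Tf, form (fun J => fd.p a D J y) (v (i q)) ^ k D) /
      ((∏ D ∈ T', g D q ^ k D) * Hh q ^ m)) p :=
    HolV.div (hb'.mul hP) (hQ.mul (hHh.pow m)) (mul_ne_zero hQ0 (pow_ne_zero _ hHp))
  refine HolV.congr hmain ?_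
  have hjac : ∀ᶠ q in 𝓝 p, jac E₀ (chartAt E₀ p) q ≠ 0 := by
    filter_upwards [(chartAt E₀ p).open_source.mem_nhds (mem_chart_source E₀ p)] with q hq
    exact jac_chart_ne_zero hq
  filter_upwards [hev, hJ, hjac, hHh.continuousAt.eventually_ne hHp,
    hQ.continuousAt.eventually_ne hQ0] with q h1 h2 h3 h4 h5
  have hsq := h1 h5
  have hsq' : s q = b q * jac E₀ (chartAt E₀ p) q ^ m / ∏ D ∈ T', g D q ^ k D := by
    rw [eq_div_iff h5]; exact hsq
  have hJ2 : J0 e₀ (fun q => v (i q)) q = Hh q * jac E₀ (chartAt E₀ p) q := h2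
  unfold hfun
  rw [hJ2, hsq', mul_pow]
  have h6 : jac E₀ (chartAt E₀ p) q ^ m ≠ 0 := pow_ne_zero _ h3
  have h7 : Hh q ^ m ≠ 0 := pow_ne_zero _ h4
  field_simp

end Vale.Agent.P281

namespace Vale.Agent.P281

open scoped Manifold ContDiff Topology
open Set Filter Metric

set_option linter.unusedSectionVars false
set_option linter.unusedVariables false

universe u

variable {E E' E₀ : Type} [NormedAddCommGroup E] [NormedSpace ℂ E]
  [NormedAddCommGroup E'] [NormedSpace ℂ E'] [NormedAddCommGroup E₀] [NormedSpace ℂ E₀]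
  [FiniteDimensional ℂ E] [FiniteDimensional ℂ E'] [FiniteDimensional ℂ E₀]
variable {X Y F : Type u} [TopologicalSpace X] [ChartedSpace E X] [IsManifold 𝓘(ℂ, E) ω X]
  [TopologicalSpace Y] [ChartedSpace E' Y] [IsManifold 𝓘(ℂ, E') ω Y]
  [TopologicalSpace F] [ChartedSpace E₀ F] [IsManifold 𝓘(ℂ, E₀) ω F]
variable {f : X → Y} {r : ℕ} {B : ProjectiveBundle E E' f r} {T : Set (Set X)}
  {i : F → X} {y : Y} {a : B.ι}

/-- points of the fibre and normalized lifts attached to vectors. -/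
theorem exists_point (hfc : ContMDiff 𝓘(ℂ, E) 𝓘(ℂ, E') ω f) (hrng : ∀ x, f x = y → ∃ p, i p = x)
    (hya : y ∈ B.U a) {w : Fin (r + 1) → ℂ} (hw : w ≠ 0) :
    ∃ (p : F) (v : X → (Fin (r + 1) → ℂ)), i p = B.π a y w ∧ IsLift E f (B.π a) v (i p) ∧
      v (i p) = w := by
  obtain ⟨p, hp⟩ := hrng (B.π a y w) ((B.triv a).proj y hya w hw)
  obtain ⟨v, hv, hvw⟩ := exists_lift_at (B.triv a) hfc.continuous hya hw
  exact ⟨p, v, hp, by rw [hp]; exact hv, by rw [hp]; exact hvw⟩

/-- The function `H` on the space of vectors. -/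
theorem exists_H (e : (E × ℂ) ≃L[ℂ] (E' × (Fin (r + 1) → ℂ)))
    (e₀ : (E₀ × ℂ) ≃L[ℂ] (Fin (r + 1) → ℂ))
    (hfc : ContMDiff 𝓘(ℂ, E) 𝓘(ℂ, E') ω f) (hi : ∀ p, HolM E₀ E i p)
    (hemb : Topology.IsEmbedding i)
    (himm : ∀ p, Function.Injective (dM E₀ E i p)) (hfi : ∀ p, f (i p) = y)
    (hrng : ∀ x, f x = y → ∃ p, i p = x) (hya : y ∈ B.U a)
    (fd : FormData B T) (hsm : Smooth E T) {Tf : Finset (Set X)} (hTf : ∀ D, D ∈ Tf ↔ D ∈ T)
    {k : Set X → ℕ} (hk : ∀ D, k D ≠ 0 → D ∈ T) {m : ℕ} {s : F → ℂ}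
    (hs : IsSection E₀ (eqnF E i) m k s) :
    ∃ H : (Fin (r + 1) → ℂ) → ℂ,
      (∀ (p : F) (v : X → (Fin (r + 1) → ℂ)), IsLift E f (B.π a) v (i p) →
        H (v (i p)) = hfun fd Tf k m e₀ i y a s v p) ∧
      (∀ (c : ℂ) w, c ≠ 0 → w ≠ 0 → H (c • w) * c ^ ((r + 1) * m) =
        c ^ (∑ D ∈ Tf, fd.deg D * k D) * H w) ∧
      (∃ C : ℝ, ∀ w, ‖w‖ = 1 → ‖H w‖ ≤ C) ∧
      (∀ (w : ℂ → (Fin (r + 1) → ℂ)) (t₀ : ℂ), DifferentiableAt ℂ w t₀ → w t₀ ≠ 0 →
        (∀ D, k D ≠ 0 → form (fun J => fd.p a D J y) (w t₀) ≠ 0) →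
        DifferentiableAt ℂ (fun t => H (w t)) t₀) := by
  classical
  have hex : ∀ w : Fin (r + 1) → ℂ, ∃ q : F × (X → (Fin (r + 1) → ℂ)), w ≠ 0 →
      i q.1 = B.π a y w ∧ IsLift E f (B.π a) q.2 (i q.1) ∧ q.2 (i q.1) = w := by
    intro w
    by_cases hw : w = 0
    · have hne : (Pi.single 0 1 : Fin (r + 1) → ℂ) ≠ 0 := by
        intro h0
        have := congrFun h0 0
        simp at this
      obtain ⟨p, v, -⟩ := exists_point (E := E) (f := f) (i := i) (B := B) (a := a) hfc hrng hya hne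
      exact ⟨(p, v), fun h => absurd hw h⟩
    · obtain ⟨p, v, h1, h2, h3⟩ := exists_point (E := E) (f := f) (i := i) (B := B) (a := a)
        hfc hrng hya hw
      exact ⟨(p, v), fun _ => ⟨h1, h2, h3⟩⟩
  choose Q hQ using hex
  set P : (Fin (r + 1) → ℂ) → F := fun w => (Q w).1 with hP
  set V : (Fin (r + 1) → ℂ) → (X → (Fin (r + 1) → ℂ)) := fun w => (Q w).2 with hV
  have hQ1 : ∀ w ≠ 0, i (P w) = B.π a y w := fun w hw => (hQ w hw).1
  have hQ2 : ∀ w ≠ 0, IsLift E f (B.π a) (V w) (i (P w)) := fun w hw => (hQ w hw).2.1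
  have hQ3 : ∀ w ≠ 0, V w (i (P w)) = w := fun w hw => (hQ w hw).2.2
  set H : (Fin (r + 1) → ℂ) → ℂ := fun w => hfun fd Tf k m e₀ i y a s (V w) (P w) with hH
  -- general change formula
  have hchange : ∀ (w : Fin (r + 1) → ℂ) (v : X → (Fin (r + 1) → ℂ)) (c : ℂ) (p : F), w ≠ 0 →
      c ≠ 0 → IsLift E f (B.π a) v (i p) → w = c • v (i p) →
      H w * c ^ ((r + 1) * m) = c ^ (∑ D ∈ Tf, fd.deg D * k D) *
        hfun fd Tf k m e₀ i y a s v p := by
    intro w v c p hw hc hv hwv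
    have hpe : P w = p := by
      apply hemb.injective
      rw [hQ1 w hw]
      have h1 := hv.eq
      rw [hfi] at h1
      rw [← h1]
      exact ((B.triv a).eq_iff y hya (v (i p)) hv.ne_zero w hw).2 ⟨c, hwv⟩ |>.symm
    have hVl := hQ2 w hw
    have hV3 := hQ3 w hw
    rw [hpe] at hVl hV3
    obtain ⟨lam, hlam, hlam0, hev⟩ := lift_ratio (B.triv a) hfc.continuous.continuousAt
      (by rw [hfi]; exact hya) hv hVl
    have hlc : lam (i p) = c := by
      have h1 : V w (i p) = lam (i p) • v (i p) := hev.self_of_nhds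
      rw [hV3, hwv] at h1
      have h2 : (c - lam (i p)) • v (i p) = 0 := by rw [sub_smul, h1, sub_self]
      have h3 := (smul_eq_zero.1 h2).resolve_right hv.ne_zero
      exact (sub_eq_zero.1 h3).symm
    have h4 := hfun_change (y := y) (a := a) fd Tf k m e₀ hi s hlam hlam0 hv.hol hev
    rw [hlc] at h4
    rw [hH]
    simp only
    rw [hpe]
    exact h4
  have hval : ∀ (p : F) (v : X → (Fin (r + 1) → ℂ)), IsLift E f (B.π a) v (i p) →
        H (v (i p)) = hfun fd Tf k m e₀ i y a s v p := by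
    intro p v hv
    have := hchange (v (i p)) v 1 p hv.ne_zero one_ne_zero hv (by rw [one_smul])
    simpa using this
  -- local description near a vector
  have hlocal : ∀ (w₀ : Fin (r + 1) → ℂ), w₀ ≠ 0 →
      ∃ lam : (Fin (r + 1) → ℂ) → ℂ, ContinuousAt lam w₀ ∧ lam w₀ = 1 ∧
        ContinuousAt P w₀ ∧ (∀ᶠ w in 𝓝 w₀, lam w ≠ 0 ∧ w = lam w • V w₀ (i (P w)) ∧
          H w * lam w ^ ((r + 1) * m) = lam w ^ (∑ D ∈ Tf, fd.deg D * k D) *
            hfun fd Tf k m e₀ i y a s (V w₀) (P w)) := by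
    intro w₀ hw₀
    have hPc : ContinuousAt P w₀ := by
      rw [hemb.isInducing.continuousAt_iff]
      have h1 := pi_continuousAt B a hya (M := 1) (by simp) hw₀
      simp only [Matrix.one_mulVec] at h1
      refine h1.congr ?_
      have : ∀ᶠ w in 𝓝 w₀, w ≠ 0 := isOpen_ne.mem_nhds hw₀
      filter_upwards [this] with w hw
      exact (hQ1 w hw).symm
    obtain ⟨j, hj⟩ : ∃ j, w₀ j ≠ 0 := by
      by_contra hcon
      push Not at hcon
      exact hw₀ (funext hcon)
    have hVc : ContinuousAt (fun w => V w₀ (i (P w))) w₀ := by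
      have h1 : ContinuousAt (V w₀) (i (P w₀)) := (hQ2 w₀ hw₀).hol.continuousAt
      have h2 : ContinuousAt (fun w => i (P w)) w₀ :=
        ContinuousAt.comp (g := i) (f := P) hemb.continuous.continuousAt hPc
      exact ContinuousAt.comp (g := V w₀) (f := fun w => i (P w)) h1 h2
    have hVcj : ContinuousAt (fun w => V w₀ (i (P w)) j) w₀ :=
      (continuous_apply j).continuousAt.comp hVc
    have hV0 : V w₀ (i (P w₀)) j = w₀ j := by rw [hQ3 w₀ hw₀]
    refine ⟨fun w => w j / V w₀ (i (P w)) j, ?_, ?_, hPc, ?_⟩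
    · refine ContinuousAt.div (continuous_apply j).continuousAt hVcj ?_
      rw [hV0]; exact hj
    · simp only
      rw [hV0, div_self hj]
    · have e1 : ∀ᶠ w in 𝓝 w₀, w ≠ 0 := isOpen_ne.mem_nhds hw₀
      have e2 : ∀ᶠ w in 𝓝 w₀, V w₀ (i (P w)) j ≠ 0 := hVcj.eventually_ne (by rw [hV0]; exact hj)
      have e3 : ∀ᶠ w in 𝓝 w₀, w j ≠ 0 :=
        (continuous_apply j).continuousAt.eventually_ne hj
      have e4 : ∀ᶠ w in 𝓝 w₀, IsLift E f (B.π a) (V w₀) (i (P w)) :=
        (ContinuousAt.comp (g := i) (f := P) hemb.continuous.continuousAt hPc).eventually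
          (hQ2 w₀ hw₀).eventually
      filter_upwards [e1, e2, e3, e4] with w h1 h2 h3 h4
      have hlne : w j / V w₀ (i (P w)) j ≠ 0 := div_ne_zero h3 h2
      have hweq : w = (w j / V w₀ (i (P w)) j) • V w₀ (i (P w)) := by
        obtain ⟨c, hc⟩ := ((B.triv a).eq_iff y hya (V w₀ (i (P w))) h4.ne_zero w h1).1 (by
          have h5 := h4.eq
          rw [hfi] at h5
          rw [h5, hQ1 w h1])
        have : w j / V w₀ (i (P w)) j = c := by
          conv_lhs => rw [show w j = c * V w₀ (i (P w)) j from by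
            conv_lhs => rw [hc]
            rfl]
          rw [mul_div_assoc, div_self h2, mul_one]
        rw [this]; exact hc
      exact ⟨hlne, hweq, hchange w (V w₀) _ (P w) h1 hlne h4 hweq⟩
  refine ⟨H, hval, ?_, ?_, ?_⟩
  · intro c w hc hw
    have h1 := hchange (c • w) (V w) c (P w) (smul_ne_zero hc hw) hc (hQ2 w hw)
      (by rw [hQ3 w hw])
    exact h1
  · have := sphere_bound (fun w => ‖H w‖) (fun _ => 1) (fun _ => zero_le_one) (fun w₀ hw₀ => by
      obtain ⟨lam, hl1, hl2, hP1, hev⟩ := hlocal w₀ hw₀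
      obtain ⟨C, hC⟩ := hfun_bound e e₀ hfc hi himm hfi hya fd hsm hTf hk hs (hQ2 w₀ hw₀)
      have h1 : ∀ᶠ w in 𝓝 w₀, ‖hfun fd Tf k m e₀ i y a s (V w₀) (P w)‖ ≤ C :=
        hP1.eventually hC
      set R : (Fin (r + 1) → ℂ) → ℝ := fun w => ‖lam w‖ ^ (∑ D ∈ Tf, fd.deg D * k D) /
        ‖lam w‖ ^ ((r + 1) * m) with hR
      have hRc : ContinuousAt R w₀ := by
        refine ContinuousAt.div (hl1.norm.pow _) (hl1.norm.pow _) ?_
        rw [hl2]; simp
      have h2 : ∀ᶠ w in 𝓝 w₀, R w < R w₀ + 1 := hRc.eventually_lt_const (by linarith only [])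
      refine ⟨(R w₀ + 1) * |C|, ?_⟩
      filter_upwards [hev, h1, h2] with w h3 h4 h5
      obtain ⟨h6, h7, h8⟩ := h3
      have h9 : ‖H w‖ = R w * ‖hfun fd Tf k m e₀ i y a s (V w₀) (P w)‖ := by
        have h10 : 0 < ‖lam w‖ ^ ((r + 1) * m) := pow_pos (norm_pos_iff.2 h6) _
        have h11 := congrArg norm h8
        rw [norm_mul, norm_mul, norm_pow, norm_pow] at h11
        rw [hR]
        simp only
        rw [div_mul_eq_mul_div, eq_div_iff h10.ne', h11]
      rw [h9, mul_one]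
      have h12 : 0 ≤ R w := by rw [hR]; positivity
      calc R w * ‖hfun fd Tf k m e₀ i y a s (V w₀) (P w)‖ ≤ (R w₀ + 1) * C :=
            mul_le_mul h5.le h4 (norm_nonneg _) (h12.trans h5.le)
        _ ≤ (R w₀ + 1) * |C| := by
            have : 0 ≤ R w₀ + 1 := h12.trans h5.le
            gcongr
            exact le_abs_self C)
    obtain ⟨C, hC⟩ := this
    exact ⟨C, fun w hw => by simpa only [mul_one] using hC w hw⟩
  · intro w t₀ hw hw0 hform
    obtain ⟨lam, hl1, hl2, hP1, hev⟩ := hlocal (w t₀) hw0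
    have hwc : ContinuousAt w t₀ := hw.continuousAt
    have hip : ∀ D, k D ≠ 0 → i (P (w t₀)) ∉ D := by
      intro D hkD hmem
      rw [hQ1 _ hw0] at hmem
      exact hform D hkD ((mem_iff_form B fd (hk D hkD) hya hw0).1 hmem)
    have hbij := (L0_bij e e₀ hfc hi himm hfi hya (hQ2 _ hw0)).1
    have hu : HolV E₀ (fun q => V (w t₀) (i q)) (P (w t₀)) :=
      HolV.comp (hQ2 _ hw0).hol (hi _)
    have hinv := inverse_fn hu hbij hw (p := fun t => P (w t)) (lam := fun t => lam (w t))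
      (ContinuousAt.comp (g := P) (f := w) hP1 hwc) rfl
      (ContinuousAt.comp (g := lam) (f := w) hl1 hwc) hl2
      (by
        filter_upwards [hwc.eventually hev] with t ht
        exact ht.2.1)
    have hh := hinv.2 _ (hfun_hol e e₀ hfc hi himm hfi hya fd (Tf := Tf) hs (hQ2 _ hw0) hip)
    have hmain : DifferentiableAt ℂ (fun t => lam (w t) ^ (∑ D ∈ Tf, fd.deg D * k D) *
        hfun fd Tf k m e₀ i y a s (V (w t₀)) (P (w t)) / lam (w t) ^ ((r + 1) * m)) t₀ := by
      refine DifferentiableAt.div ((hinv.1.pow _).mul hh) (hinv.1.pow _) ?_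
      rw [hl2]; simp
    refine hmain.congr_of_eventuallyEq ?_
    filter_upwards [hwc.eventually hev] with t ht
    obtain ⟨h6, h7, h8⟩ := ht
    rw [eq_div_iff (pow_ne_zero _ h6)]
    exact h8

end Vale.Agent.P281

namespace Vale.Agent.P281

open scoped Manifold ContDiff Topology
open Set Filter Metric

set_option linter.unusedSectionVars false
set_option linter.unusedVariables false

universe u

theorem poly_zero_finite (P : Polynomial ℂ) {t : ℂ} (h : P.eval t ≠ 0) :
    {t : ℂ | P.eval t = 0}.Finite := by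
  have hP : P ≠ 0 := by
    intro h0
    rw [h0] at h
    simp at h
  refine (P.roots.toFinset.finite_toSet).subset fun t ht => ?_
  simp only [Finset.mem_coe, Multiset.mem_toFinset, Polynomial.mem_roots hP]
  exact ht

theorem exists_large {Z : Set ℂ} (hZ : Z.Finite) (R : ℝ) : ∃ t : ℂ, t ∉ Z ∧ R ≤ ‖t‖ := by
  by_contra hcon
  push Not at hcon
  have hinf : (Set.range (fun n : ℕ => ((n : ℂ)))).Infinite :=
    Set.infinite_range_of_injective Nat.cast_injective
  apply hinf
  have hsub : Set.range (fun n : ℕ => ((n : ℂ))) ⊆ Z ∪ (fun n : ℕ => (n : ℂ)) ''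
      (Finset.range (⌈R⌉₊ + 1) : Set ℕ) := by
    rintro _ ⟨n, rfl⟩
    by_cases hn : (n : ℂ) ∈ Z
    · exact Or.inl hn
    · right
      have := hcon _ hn
      refine ⟨n, ?_, rfl⟩
      simp only [Finset.coe_range, mem_Iio]
      have h1 : (n : ℝ) < R := by simpa using this
      have h2 : (n : ℝ) < ⌈R⌉₊ := h1.trans_le (Nat.le_ceil R)
      have h3 : n < ⌈R⌉₊ := by exact_mod_cast h2
      omega
  exact (hZ.union ((Finset.finite_toSet _).image _)).subset hsub

variable {E E' E₀ : Type} [NormedAddCommGroup E] [NormedSpace ℂ E]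
  [NormedAddCommGroup E'] [NormedSpace ℂ E'] [NormedAddCommGroup E₀] [NormedSpace ℂ E₀]
  [FiniteDimensional ℂ E] [FiniteDimensional ℂ E'] [FiniteDimensional ℂ E₀]
variable {X Y F : Type u} [TopologicalSpace X] [ChartedSpace E X] [IsManifold 𝓘(ℂ, E) ω X]
  [TopologicalSpace Y] [ChartedSpace E' Y] [IsManifold 𝓘(ℂ, E') ω Y]
  [TopologicalSpace F] [ChartedSpace E₀ F] [IsManifold 𝓘(ℂ, E₀) ω F]
variable {f : X → Y} {r : ℕ} {B : ProjectiveBundle E E' f r} {T : Set (Set X)}
  {i : F → X} {y : Y} {a : B.ι}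

theorem fibre_main (hr : 0 < r) (e : (E × ℂ) ≃L[ℂ] (E' × (Fin (r + 1) → ℂ)))
    (e₀ : (E₀ × ℂ) ≃L[ℂ] (Fin (r + 1) → ℂ))
    (hfc : ContMDiff 𝓘(ℂ, E) 𝓘(ℂ, E') ω f) (hi : ∀ p, HolM E₀ E i p)
    (hemb : Topology.IsEmbedding i)
    (himm : ∀ p, Function.Injective (dM E₀ E i p)) (hfi : ∀ p, f (i p) = y)
    (hrng : ∀ x, f x = y → ∃ p, i p = x) (hya : y ∈ B.U a)
    (fd : FormData B T) (hsm : Smooth E T) {Tf : Finset (Set X)} (hTf : ∀ D, D ∈ Tf ↔ D ∈ T)
    {k : Set X → ℕ} (hk : ∀ D, k D ≠ 0 → D ∈ T) {m : ℕ} {s : F → ℂ}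
    (hs : IsSection E₀ (eqnF E i) m k s) (hL : ∑ D ∈ Tf, fd.deg D * k D ≤ (r + 1) * m) :
    ∃ c : ℂ, (∀ (p : F) (v : X → (Fin (r + 1) → ℂ)), IsLift E f (B.π a) v (i p) →
      (∀ D, k D ≠ 0 → i p ∉ D) → hfun fd Tf k m e₀ i y a s v p = c) ∧
      (∑ D ∈ Tf, fd.deg D * k D < (r + 1) * m → c = 0) := by
  classical
  obtain ⟨H, hH1, hH2, ⟨C, hC⟩, hH4⟩ := exists_H e e₀ hfc hi hemb himm hfi hrng hya fd hsm hTf hk hs
  set L := ∑ D ∈ Tf, fd.deg D * k D with hLdef
  -- global bound
  have hC0 : 0 ≤ C := by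
    obtain ⟨u, hu⟩ : ∃ u : Fin (r + 1) → ℂ, ‖u‖ = 1 := ⟨fun _ => 1, by
      rw [pi_norm_const]; simp⟩
    exact (norm_nonneg _).trans (hC u hu)
  have hbound : ∀ w : Fin (r + 1) → ℂ, w ≠ 0 → ‖H w‖ * ‖w‖ ^ ((r + 1) * m - L) ≤ C := by
    intro w hw
    have hwn : 0 < ‖w‖ := norm_pos_iff.2 hw
    set u : Fin (r + 1) → ℂ := ((‖w‖ : ℂ))⁻¹ • w with hu
    have hun : ‖u‖ = 1 := by
      rw [hu, norm_smul, norm_inv, Complex.norm_real, norm_norm, inv_mul_cancel₀ hwn.ne']
    have hcne : (‖w‖ : ℂ) ≠ 0 := by exact_mod_cast hwn.ne'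
    have hwu : w = (‖w‖ : ℂ) • u := by rw [hu, smul_smul, mul_inv_cancel₀ hcne, one_smul]
    have hu0 : u ≠ 0 := by
      intro h0; rw [h0, norm_zero] at hun; exact zero_ne_one hun
    have h1 := hH2 (‖w‖ : ℂ) u hcne hu0
    rw [← hwu] at h1
    have h2 := congrArg norm h1
    rw [norm_mul, norm_mul, norm_pow, norm_pow, Complex.norm_real, norm_norm] at h2
    have h3 : ‖w‖ ^ ((r + 1) * m) = ‖w‖ ^ ((r + 1) * m - L) * ‖w‖ ^ L := by
      rw [← pow_add, Nat.sub_add_cancel hL]
    rw [h3] at h2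
    have h4 : 0 < ‖w‖ ^ L := pow_pos hwn _
    have h5 : (‖H w‖ * ‖w‖ ^ ((r + 1) * m - L)) * ‖w‖ ^ L ≤ C * ‖w‖ ^ L := by
      calc (‖H w‖ * ‖w‖ ^ ((r + 1) * m - L)) * ‖w‖ ^ L
          = ‖w‖ ^ L * ‖H u‖ := by rw [← h2]; ring
        _ ≤ ‖w‖ ^ L * C := by gcongr; exact hC u hun
        _ = C * ‖w‖ ^ L := by ring
    exact le_of_mul_le_mul_right h5 h4
  -- zeros on a line
  have hlineZ : ∀ (w₀ w₁ : Fin (r + 1) → ℂ), w₀ ≠ 0 →
      (∀ D, k D ≠ 0 → form (fun J => fd.p a D J y) w₀ ≠ 0) →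
      {t : ℂ | w₀ + t • w₁ = 0 ∨ ∃ D ∈ Tf, k D ≠ 0 ∧
        form (fun J => fd.p a D J y) (w₀ + t • w₁) = 0}.Finite := by
    intro w₀ w₁ hw₀ hform
    obtain ⟨j, hj⟩ : ∃ j, w₀ j ≠ 0 := by
      by_contra hcon
      push Not at hcon
      exact hw₀ (funext hcon)
    have h1 : {t : ℂ | w₀ + t • w₁ = 0}.Finite := by
      have h2 := poly_zero_finite (Polynomial.C (w₀ j) + Polynomial.C (w₁ j) * Polynomial.X)
        (t := 0) (by simpa using hj)
      refine h2.subset fun t ht => ?_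
      have := congrFun (show w₀ + t • w₁ = 0 from ht) j
      simp only [Pi.add_apply, Pi.smul_apply, smul_eq_mul, Pi.zero_apply] at this
      simp only [mem_ofPred_eq, Polynomial.eval_add, Polynomial.eval_mul, Polynomial.eval_C,
        Polynomial.eval_X]
      linear_combination this
    have h3 : (⋃ D ∈ (Tf.filter (fun D => k D ≠ 0) : Finset (Set X)),
        {t : ℂ | form (fun J => fd.p a D J y) (w₀ + t • w₁) = 0}).Finite := by
      refine Set.Finite.biUnion (Finset.finite_toSet _) fun D hD => ?_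
      have hD' : D ∈ Tf ∧ k D ≠ 0 := by simpa using hD
      obtain ⟨P, hP⟩ := form_line (fun J => fd.p a D J y) w₀ w₁
      have h4 := poly_zero_finite P (t := 0) (by
        rw [← hP, zero_smul, add_zero]; exact hform D hD'.2)
      refine h4.subset fun t ht => ?_
      simp only [mem_ofPred_eq] at ht ⊢
      rw [← hP]; exact ht
    refine (h1.union h3).subset fun t ht => ?_
    rcases ht with ht | ⟨D, hD, hkD, ht⟩
    · exact Or.inl ht
    · right
      simp only [mem_iUnion]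
      exact ⟨D, by simpa using ⟨hD, hkD⟩, ht⟩
  have hlineD : ∀ (w₀ w₁ : Fin (r + 1) → ℂ) (t : ℂ),
      t ∉ {t : ℂ | w₀ + t • w₁ = 0 ∨ ∃ D ∈ Tf, k D ≠ 0 ∧
        form (fun J => fd.p a D J y) (w₀ + t • w₁) = 0} →
      DifferentiableAt ℂ (fun t : ℂ => H (w₀ + t • w₁)) t := by
    intro w₀ w₁ t ht
    simp only [mem_ofPred_eq, not_or, not_exists, not_and] at ht
    refine hH4 (fun t => w₀ + t • w₁) t ?_ ht.1 (fun D hkD => ht.2 D ((hTf D).2 (hk D hkD)) hkD)
    have : DifferentiableAt ℂ (fun t : ℂ => t • w₁) t := differentiableAt_id.smul_const w₁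
    exact this.const_add w₀
  -- constancy
  have hconst : ∀ (w₀ w₁ : Fin (r + 1) → ℂ), w₀ ≠ 0 → w₁ ≠ 0 →
      (∀ D, k D ≠ 0 → form (fun J => fd.p a D J y) w₀ ≠ 0) →
      (∀ D, k D ≠ 0 → form (fun J => fd.p a D J y) w₁ ≠ 0) →
      (L = (r + 1) * m → H w₀ = H w₁) := by
    intro w₀ w₁ hw₀ hw₁ hf₀ hf₁ hLe
    have hZ := hlineZ w₀ (w₁ - w₀) hw₀ hf₀
    have := liouville_finite hZ (fun t : ℂ => H (w₀ + t • (w₁ - w₀)))
      (hlineD w₀ (w₁ - w₀)) C (fun t ht => by
        simp only [mem_ofPred_eq, not_or] at ht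
        have h1 := hbound _ ht.1
        rw [hLe, Nat.sub_self, pow_zero, mul_one] at h1
        exact h1)
      0 (by
        simp only [mem_ofPred_eq, zero_smul, add_zero, not_or, not_exists, not_and]
        exact ⟨hw₀, fun D _ hkD => hf₀ D hkD⟩)
      1 (by
        simp only [mem_ofPred_eq, one_smul, add_sub_cancel, not_or, not_exists, not_and]
        exact ⟨hw₁, fun D _ hkD => hf₁ D hkD⟩)
    simpa using this
  have hvanish : ∀ (w₀ : Fin (r + 1) → ℂ), w₀ ≠ 0 →
      (∀ D, k D ≠ 0 → form (fun J => fd.p a D J y) w₀ ≠ 0) → L < (r + 1) * m → H w₀ = 0 := by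
    intro w₀ hw₀ hf₀ hLlt
    obtain ⟨j, hj⟩ : ∃ j, w₀ j ≠ 0 := by
      by_contra hcon
      push Not at hcon
      exact hw₀ (funext hcon)
    obtain ⟨j', hj'⟩ : ∃ j' : Fin (r + 1), j' ≠ j := by
      have : Nontrivial (Fin (r + 1)) := Fin.nontrivial_iff_two_le.2 (by omega)
      exact exists_ne j
    set w₁ : Fin (r + 1) → ℂ := Pi.single j' 1 with hw₁
    have hZ := hlineZ w₀ w₁ hw₀ hf₀
    have hcoord : ∀ t : ℂ, ‖w₀ j‖ ≤ ‖w₀ + t • w₁‖ := by
      intro t
      have h1 := norm_le_pi_norm (w₀ + t • w₁) j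
      have h2 : (w₀ + t • w₁) j = w₀ j := by
        simp [hw₁, Pi.single_apply, hj'.symm]
      rwa [h2] at h1
    have hcoord' : ∀ t : ℂ, ‖t‖ - ‖w₀ j'‖ ≤ ‖w₀ + t • w₁‖ := by
      intro t
      have h1 := norm_le_pi_norm (w₀ + t • w₁) j'
      have h2 : (w₀ + t • w₁) j' = w₀ j' + t := by
        simp [hw₁]
      rw [h2] at h1
      have h3 : ‖t‖ ≤ ‖w₀ j' + t‖ + ‖w₀ j'‖ := by
        calc ‖t‖ = ‖(w₀ j' + t) - w₀ j'‖ := by ring_nf
          _ ≤ ‖w₀ j' + t‖ + ‖w₀ j'‖ := norm_sub_le _ _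
      linarith only [h1, h3]
    have hδ : 0 < ‖w₀ j‖ := norm_pos_iff.2 hj
    have hne : ∀ t : ℂ, w₀ + t • w₁ ≠ 0 := by
      intro t h0
      have := hcoord t
      rw [h0, norm_zero] at this
      linarith only [hδ, this]
    set K := (r + 1) * m - L with hK
    have hKpos : 0 < K := Nat.sub_pos_of_lt hLlt
    have hpt : ∀ t : ℂ, ‖H (w₀ + t • w₁)‖ ≤ C / ‖w₀ j‖ ^ K := by
      intro t
      rw [le_div_iff₀ (pow_pos hδ _)]
      calc ‖H (w₀ + t • w₁)‖ * ‖w₀ j‖ ^ K ≤ ‖H (w₀ + t • w₁)‖ * ‖w₀ + t • w₁‖ ^ K := by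
            gcongr; exact hcoord t
        _ ≤ C := hbound _ (hne t)
    have h0Z : (0 : ℂ) ∉ {t : ℂ | w₀ + t • w₁ = 0 ∨ ∃ D ∈ Tf, k D ≠ 0 ∧
        form (fun J => fd.p a D J y) (w₀ + t • w₁) = 0} := by
      simp only [mem_ofPred_eq, zero_smul, add_zero, not_or, not_exists, not_and]
      exact ⟨hw₀, fun D _ hkD => hf₀ D hkD⟩
    have hliou := liouville_finite hZ (fun t : ℂ => H (w₀ + t • w₁)) (hlineD w₀ w₁)
      (C / ‖w₀ j‖ ^ K) (fun t _ => hpt t) 0 h0Z
    simp only [zero_smul, add_zero] at hliou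
    by_contra hHne
    have hHpos : 0 < ‖H w₀‖ := norm_pos_iff.2 hHne
    obtain ⟨t, htZ, ht⟩ := exists_large hZ (‖w₀ j'‖ + 1 + C / ‖H w₀‖ + 1)
    have h1 := hliou t htZ
    have h2 := hbound _ (hne t)
    rw [← h1] at h2
    have h3 : 1 + C / ‖H w₀‖ + 1 ≤ ‖w₀ + t • w₁‖ := by
      have := hcoord' t
      linarith only [ht, this]
    have hCH : 0 ≤ C / ‖H w₀‖ := by (clear * - hC0 hHne; positivity)
    have h4 : ‖w₀ + t • w₁‖ ≤ ‖w₀ + t • w₁‖ ^ K :=
      le_self_pow₀ (by linarith only [h3, hCH]) hKpos.ne'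
    have h5 : ‖H w₀‖ * (C / ‖H w₀‖ + 1) ≤ C := by
      calc ‖H w₀‖ * (C / ‖H w₀‖ + 1) ≤ ‖H w₀‖ * ‖w₀ + t • w₁‖ ^ K := by
            gcongr
            linarith only [h3, h4]
        _ ≤ C := h2
    rw [mul_add, mul_div_cancel₀ _ hHpos.ne'] at h5
    linarith only [hHpos, h5]
  -- conclusion
  by_cases hex : ∃ w : Fin (r + 1) → ℂ, w ≠ 0 ∧
      (∀ D, k D ≠ 0 → form (fun J => fd.p a D J y) w ≠ 0)
  · obtain ⟨w, hw0, hwf⟩ := hex
    refine ⟨H w, fun p v hv hp => ?_, fun hlt => hvanish w hw0 hwf hlt⟩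
    have hvf : ∀ D, k D ≠ 0 → form (fun J => fd.p a D J y) (v (i p)) ≠ 0 := by
      intro D hkD h0
      apply hp D hkD
      have h1 := (mem_iff_form B fd (hk D hkD) hya hv.ne_zero).2 h0
      have h2 := hv.eq
      rw [hfi] at h2
      rwa [h2] at h1
    rw [← hH1 p v hv]
    rcases hL.lt_or_eq with hlt | heq
    · rw [hvanish _ hv.ne_zero hvf hlt, hvanish w hw0 hwf hlt]
    · exact hconst _ _ hv.ne_zero hw0 hvf hwf heq
  · refine ⟨0, fun p v hv hp => ?_, fun _ => rfl⟩
    exfalso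
    apply hex
    refine ⟨v (i p), hv.ne_zero, fun D hkD h0 => ?_⟩
    apply hp D hkD
    have h1 := (mem_iff_form B fd (hk D hkD) hya hv.ne_zero).2 h0
    have h2 := hv.eq
    rw [hfi] at h2
    rwa [h2] at h1

end Vale.Agent.P281

namespace Vale.Agent.P281

open scoped Manifold ContDiff Topology
open Set Filter Metric

set_option linter.unusedSectionVars false
set_option linter.unusedVariables false

universe u

theorem kodGE_le {E₀ : Type} [NormedAddCommGroup E₀] [NormedSpace ℂ E₀] [FiniteDimensional ℂ E₀]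
    {F : Type u} [TopologicalSpace F] [ChartedSpace E₀ F] {ι : Type u}
    {eqn : ι → F → (F → ℂ) → Prop} {c : ι → ℝ} {j : ℕ} (h : KodGE E₀ eqn c j) :
    j ≤ Module.finrank ℂ E₀ := by
  obtain ⟨m, k, s, z, hm, hk', hs, hz, hs0, hind⟩ := h
  -- independent functionals
  let φ : Fin j → Module.Dual ℂ E₀ := fun b =>
    (dif E₀ (fun w => s b.succ w / s 0 w) z : E₀ →ₗ[ℂ] ℂ)
  have hφ : LinearIndependent ℂ φ := by
    let L : (E₀ →L[ℂ] ℂ) →ₗ[ℂ] Module.Dual ℂ E₀ :=
      { toFun := fun ψ => (ψ : E₀ →ₗ[ℂ] ℂ)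
        map_add' := fun a b => rfl
        map_smul' := fun c a => rfl }
    have hL : LinearMap.ker L = ⊥ := by
      rw [LinearMap.ker_eq_bot']
      intro ψ hψ
      refine ContinuousLinearMap.ext fun w => ?_
      exact congrArg (fun B : Module.Dual ℂ E₀ => B w) hψ
    exact hind.map' L hL
  have := hφ.fintype_card_le_finrank
  rwa [Fintype.card_fin, Subspace.dual_finrank_eq] at this

variable {E E' E₀ : Type} [NormedAddCommGroup E] [NormedSpace ℂ E]
  [NormedAddCommGroup E'] [NormedSpace ℂ E'] [NormedAddCommGroup E₀] [NormedSpace ℂ E₀]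
  [FiniteDimensional ℂ E] [FiniteDimensional ℂ E'] [FiniteDimensional ℂ E₀]
variable {X Y F : Type u} [TopologicalSpace X] [ChartedSpace E X] [IsManifold 𝓘(ℂ, E) ω X]
  [TopologicalSpace Y] [ChartedSpace E' Y] [IsManifold 𝓘(ℂ, E') ω Y]
  [TopologicalSpace F] [ChartedSpace E₀ F] [IsManifold 𝓘(ℂ, E₀) ω F]
variable {f : X → Y} {r : ℕ} {B : ProjectiveBundle E E' f r}
  {i : F → X} {y : Y} {a : B.ι}

theorem kodF_le (hr : 0 < r) (e : (E × ℂ) ≃L[ℂ] (E' × (Fin (r + 1) → ℂ)))
    (e₀ : (E₀ × ℂ) ≃L[ℂ] (Fin (r + 1) → ℂ))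
    (hfc : ContMDiff 𝓘(ℂ, E) 𝓘(ℂ, E') ω f) (hi : ∀ p, HolM E₀ E i p)
    (hemb : Topology.IsEmbedding i)
    (himm : ∀ p, Function.Injective (dM E₀ E i p)) (hfi : ∀ p, f (i p) = y)
    (hrng : ∀ x, f x = y → ∃ p, i p = x) (hya : y ∈ B.U a)
    {Δ : Set X → ℝ} (hfin : {D | Δ D ≠ 0}.Finite) (hcl : ∀ D, Δ D ≠ 0 → IsClosed D)
    (fd : FormData B {D | Δ D ≠ 0}) (hsm : Smooth E {D | Δ D ≠ 0}) {j : ℕ}
    (h : KodGE E₀ (eqnF E i) Δ j)
    (hS : ∑ D ∈ hfin.toFinset, (fd.deg D : ℝ) * Δ D ≤ r + 1) :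
    j = 0 ∧ ∑ D ∈ hfin.toFinset, (fd.deg D : ℝ) * Δ D = r + 1 := by
  obtain ⟨m, k, s, z, hm, hk', hs, hz, hs0, hind⟩ := h
  set Tf := hfin.toFinset with hTfdef
  have hTf : ∀ D, D ∈ Tf ↔ D ∈ {D | Δ D ≠ 0} := fun D => Set.Finite.mem_toFinset _
  have hk : ∀ D, k D ≠ 0 → D ∈ {D | Δ D ≠ 0} := by
    intro D hkD h0
    have := hk' D
    rw [show Δ D = 0 from h0, mul_zero] at this
    exact hkD (by exact_mod_cast this)
  have hLr : ((∑ D ∈ Tf, fd.deg D * k D : ℕ) : ℝ) =
      m * ∑ D ∈ Tf, (fd.deg D : ℝ) * Δ D := by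
    push_cast
    rw [Finset.mul_sum]
    refine Finset.sum_congr rfl fun D _ => ?_
    rw [hk' D]; ring
  have hmr : (0 : ℝ) < m := by exact_mod_cast hm
  have hL : ∑ D ∈ Tf, fd.deg D * k D ≤ (r + 1) * m := by
    have h1 : ((∑ D ∈ Tf, fd.deg D * k D : ℕ) : ℝ) ≤ (((r + 1) * m : ℕ) : ℝ) := by
      rw [hLr]
      push_cast
      nlinarith only [hS]
    exact_mod_cast h1
  have hzD : ∀ D, k D ≠ 0 → i z ∉ D := by
    intro D hkD hmem
    obtain ⟨g, hg, hg0⟩ := hz D hkD
    exact hg0 (((eqnF_mem hi hg).self_of_nhds).1 hmem)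
  obtain ⟨v, hv⟩ := (B.triv a).lift (i z) (by rw [hfi]; exact hya)
  have hmain := fun b => fibre_main hr e e₀ hfc hi hemb himm hfi hrng hya fd hsm hTf hk (hs b) hL
  choose c hc hc0 using hmain
  -- nonvanishing of the factors
  have hfac : ∀ q, IsLift E f (B.π a) v (i q) → (∀ D, k D ≠ 0 → i q ∉ D) →
      (∏ D ∈ Tf, form (fun J => fd.p a D J y) (v (i q)) ^ k D) ≠ 0 ∧
      J0 e₀ (fun q => v (i q)) q ^ m ≠ 0 := by
    intro q hvq hq
    refine ⟨Finset.prod_ne_zero_iff.2 fun D _ => ?_,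
      pow_ne_zero _ (L0_bij e e₀ hfc hi himm hfi hya hvq).2⟩
    by_cases hkD : k D = 0
    · simp [hkD]
    · refine pow_ne_zero _ fun h0 => hq D hkD ?_
      have h1 := (mem_iff_form B fd (hk D hkD) hya hvq.ne_zero).2 h0
      have h2 := hvq.eq
      rw [hfi] at h2
      rwa [h2] at h1
  have hc0ne : c 0 ≠ 0 := by
    rw [← hc 0 z v hv hzD]
    obtain ⟨h1, h2⟩ := hfac z hv hzD
    exact div_ne_zero (mul_ne_zero hs0 h1) h2
  have heq : ∑ D ∈ Tf, fd.deg D * k D = (r + 1) * m := by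
    rcases hL.lt_or_eq with hlt | heq
    · exact absurd (hc0 0 hlt) hc0ne
    · exact heq
  refine ⟨?_, ?_⟩
  · by_contra hj
    have b : Fin j := ⟨0, Nat.pos_of_ne_zero hj⟩
    apply hind.ne_zero b
    have hev : (fun w => s b.succ w / s 0 w) =ᶠ[𝓝 z] fun _ => c b.succ / c 0 := by
      have e1 : ∀ᶠ q in 𝓝 z, IsLift E f (B.π a) v (i q) :=
        (hi z).continuousAt.eventually hv.eventually
      have e2 : ∀ᶠ q in 𝓝 z, ∀ D ∈ Tf, k D ≠ 0 → i q ∉ D := by
        rw [Finset.eventually_all]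
        intro D hD
        by_cases hkD : k D = 0
        · exact Filter.Eventually.of_forall fun q h => absurd hkD h
        · have h3 : ∀ᶠ q in 𝓝 z, i q ∈ Dᶜ :=
            (hi z).continuousAt.eventually
              ((hcl D ((hTf D).1 hD)).isOpen_compl.mem_nhds (hzD D hkD))
          filter_upwards [h3] with q hq _
          exact hq
      filter_upwards [e1, e2] with q h1 h2
      have hq : ∀ D, k D ≠ 0 → i q ∉ D := fun D hkD => h2 D ((hTf D).2 (hk D hkD)) hkD
      have h3 := hc b.succ q v h1 hq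
      have h4 := hc 0 q v h1 hq
      obtain ⟨h5, h6⟩ := hfac q h1 hq
      rw [← h3, ← h4]
      unfold hfun
      by_cases hs0q : s 0 q = 0
      · exfalso
        apply hc0ne
        rw [← h4]
        unfold hfun
        rw [hs0q]; simp only [ne_eq, zero_mul, zero_div]
      · field_simp
    unfold dif
    rw [hev.mfderiv_eq, mfderiv_const]
    rfl
  · have h1 : ((∑ D ∈ Tf, fd.deg D * k D : ℕ) : ℝ) = (((r + 1) * m : ℕ) : ℝ) := by rw [heq]
    rw [hLr] at h1
    push_cast at h1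
    have h2 : (m : ℝ) * (∑ D ∈ Tf, (fd.deg D : ℝ) * Δ D) = m * (r + 1) := by rw [h1]; ring
    exact mul_left_cancel₀ hmr.ne' h2

end Vale.Agent.P281

namespace Vale.Agent.P281

open scoped Manifold ContDiff Topology
open Set Filter Metric

set_option linter.unusedSectionVars false
set_option linter.unusedVariables false

universe u

variable {E E' : Type} [NormedAddCommGroup E] [NormedSpace ℂ E]
  [NormedAddCommGroup E'] [NormedSpace ℂ E']
  [FiniteDimensional ℂ E] [FiniteDimensional ℂ E']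

/-- existence of the covariants needed for the lower bound -/
def HasCov {X Y : Type u} [TopologicalSpace X] [ChartedSpace E X]
    [TopologicalSpace Y] [ChartedSpace E' Y] {f : X → Y} {r : ℕ}
    (B : ProjectiveBundle E E' f r) (Δ : Set X → ℝ) (fd : FormData B {D | Δ D ≠ 0})
    (H : Finset (Set X)) (𝒢 : Set (Matrix (Fin (r + 1)) (Fin (r + 1)) ℂ)) (r' : ℕ) : Prop :=
  ∃ (M N : ℕ) (K : H → ℕ)
    (C : Fin (r' + 1) → Covariant (fun i : H => fd.deg i) (r + 1) 𝒢 K M N)
    (Θ : Coefs (fun i : H => fd.deg i) (r + 1) → (Fin (r + 1) → ℂ) → ℂ),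
    0 < M ∧ (r + 1) * M + N = ∑ i : H, fd.deg i * K i ∧ (∀ D, ∃ k : ℕ, (k : ℝ) = M * Δ D) ∧
    (∀ i : H, (K i : ℝ) = M * Δ i) ∧
    ContDiff ℂ ω (fun q : Coefs (fun i : H => fd.deg i) (r + 1) × (Fin (r + 1) → ℂ) =>
      Θ q.1 q.2) ∧
    InvNe (fun i : H => fd.deg i) (r + 1) 𝒢 Θ ∧
    (∃ x a v, f x ∈ B.U a ∧ IsLift E f (B.π a) v x ∧ Θ (fd.P H a (f x)) (v x) ≠ 0) ∧
    (∀ p v, Θ p v ≠ 0 → (C 0).C p v ≠ 0 ∧
      LinearIndependent ℂ (fun c : Fin r' =>
        fderiv ℂ (fun w => (C c.succ).C p w / (C 0).C p w) v))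

theorem isAnalytic_empty {Y : Type u} [TopologicalSpace Y] [ChartedSpace E' Y] :
    IsAnalytic E' (∅ : Set Y) := by
  intro y
  refine ⟨univ, isOpen_univ, mem_univ _, 1, fun _ _ => 1, fun _ z _ => contMDiffAt_const,
    fun z _ => ?_⟩
  simp

theorem campana_core (O : OrbFib.{u} E E') {r : ℕ} (hr : 0 < r)
    (hdim : Module.finrank ℂ E = Module.finrank ℂ E' + r)
    (B : ProjectiveBundle E E' O.f r)
    (fd : FormData B {D | O.Δ D ≠ 0}) {H : Finset (Set O.X)}
    (hH : ∀ D, D ∈ H ↔ O.Δ D ≠ 0 ∧ 0 < fd.deg D)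
    {𝒢 : Set (Matrix (Fin (r + 1)) (Fin (r + 1)) ℂ)} (hG : HasTrans B 𝒢)
    (hcov0 : ∑ D ∈ H, (fd.deg D : ℝ) * O.Δ D = r + 1 → HasCov B O.Δ fd H 𝒢 0)
    (hcov1 : (r + 1 : ℝ) < ∑ D ∈ H, (fd.deg D : ℝ) * O.Δ D → HasCov B O.Δ fd H 𝒢 r)
    (y : O.Y) (E₀ : Type) [NormedAddCommGroup E₀] [NormedSpace ℂ E₀] [FiniteDimensional ℂ E₀]
    (hdim0 : Module.finrank ℂ E₀ + Module.finrank ℂ E' = Module.finrank ℂ E)
    (F : Type u) [TopologicalSpace F] [ChartedSpace E₀ F] [IsManifold 𝓘(ℂ, E₀) ω F]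
    (i : F → O.X) (hF : IsFibre O y E₀ i) :
    kod E₀ (fun (D : Set O.X) (p : F) (g : F → ℂ) =>
      ∃ e, IsLocalEq E D e (i p) ∧ ∀ᶠ q in 𝓝 p, g q = e (i q)) O.Δ +
      kodaira E' (orbBase E E' O.f O.Δ) ≤ kodaira E O.Δ := by
  classical
  have hfin : {D | O.Δ D ≠ 0}.Finite := O.snc.finite
  have hsm : Smooth E {D | O.Δ D ≠ 0} := smooth_of_snc O.snc
  have hcl : ∀ D, O.Δ D ≠ 0 → IsClosed D := fun D hD => (O.snc.prime D hD).1
  have hΔ0 : ∀ D, 0 ≤ O.Δ D ∧ O.Δ D ≤ 1 := by
    intro D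
    obtain ⟨q, hq, h0, h1⟩ := O.snc.rational D
    rw [hq]
    exact ⟨by exact_mod_cast h0, by exact_mod_cast h1⟩
  have hopen := isOpenMap_of_bundle B
  have hsub := submersion_of_bundle O.hol hdim B
  have hsum : ∑ D ∈ hfin.toFinset, (fd.deg D : ℝ) * O.Δ D = ∑ D ∈ H, (fd.deg D : ℝ) * O.Δ D := by
    symm
    refine Finset.sum_subset (fun D hD => ?_) (fun D hD hDH => ?_)
    · rw [Set.Finite.mem_toFinset]; exact ((hH D).1 hD).1
    · rw [Set.Finite.mem_toFinset] at hD
      have : ¬ 0 < fd.deg D := fun h => hDH ((hH D).2 ⟨hD, h⟩)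
      have h0 : fd.deg D = 0 := by omega
      rw [h0]; simp
  have hfinr : Module.finrank ℂ (E × ℂ) = Module.finrank ℂ (E' × (Fin (r + 1) → ℂ)) := by
    simp only [Module.finrank_prod, hdim, Module.finrank_self, Module.finrank_fintype_fun_eq_card,
      Fintype.card_fin]; ring
  let e : (E × ℂ) ≃L[ℂ] (E' × (Fin (r + 1) → ℂ)) := ContinuousLinearEquiv.ofFinrankEq hfinr
  have hE₀ : Module.finrank ℂ E₀ = r := by omega
  have hfin0 : Module.finrank ℂ (E₀ × ℂ) = Module.finrank ℂ (Fin (r + 1) → ℂ) := by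
    simp [hE₀]
  let e₀ : (E₀ × ℂ) ≃L[ℂ] (Fin (r + 1) → ℂ) := ContinuousLinearEquiv.ofFinrankEq hfin0
  obtain ⟨a, ha⟩ := B.cover y
  have hfi : ∀ p, O.f (i p) = y := by
    intro p
    have : i p ∈ O.f ⁻¹' {y} := by rw [← hF.range_eq]; exact mem_range_self p
    exact this
  have hrng : ∀ x, O.f x = y → ∃ p, i p = x := by
    intro x hx
    have : x ∈ range i := by rw [hF.range_eq]; exact hx
    exact this
  have hi : ∀ p, HolM E₀ E i p := fun p => hF.hol p
  -- the base
  set kF := kod E₀ (eqnF E i) O.Δ with hkF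
  show kF + kodaira E' (orbBase E E' O.f O.Δ) ≤ kodaira E O.Δ
  by_cases hYne : ∃ j, KodGE E' (fun (D : Set O.Y) z g => IsLocalEq E' D g z)
      (orbBase E E' O.f O.Δ) j
  · -- the largest `j`
    obtain ⟨j₀, hj₀, hj₀max⟩ : ∃ j₀, KodGE E' (fun (D : Set O.Y) z g => IsLocalEq E' D g z)
        (orbBase E E' O.f O.Δ) j₀ ∧ ∀ j, KodGE E' (fun (D : Set O.Y) z g => IsLocalEq E' D g z)
        (orbBase E E' O.f O.Δ) j → j ≤ j₀ := by
      obtain ⟨j, hj⟩ := hYne
      refine ⟨Nat.findGreatest (fun j => KodGE E' (fun (D : Set O.Y) z g => IsLocalEq E' D g z)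
        (orbBase E E' O.f O.Δ) j) (Module.finrank ℂ E'), ?_, ?_⟩
      · exact Nat.findGreatest_spec (P := fun j => KodGE E' (fun (D : Set O.Y) z g =>
          IsLocalEq E' D g z) (orbBase E E' O.f O.Δ) j) (kodGE_le hj) hj
      · intro j' hj'
        exact Nat.le_findGreatest (kodGE_le hj') hj'
    have hYle : kodaira E' (orbBase E E' O.f O.Δ) ≤ ((j₀ : ℕ∞) : WithBot ℕ∞) := by
      unfold kodaira kod
      refine iSup₂_le fun j hj => ?_
      exact_mod_cast hj₀max j hj
    -- the lower bound from covariants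
    have hlow : ∀ r', HasCov B O.Δ fd H 𝒢 r' →
        (((r' + j₀ : ℕ) : ℕ∞) : WithBot ℕ∞) ≤ kodaira E O.Δ := by
      rintro r' ⟨M, N, K, C, Θ, hM, hN, hint, hK, hΘ, hinv, hne, hΘC⟩
      have hYnonempty : Nonempty O.Y := inferInstance
      have := kodGE_lower hr e O.hol hopen hsub O.surj hfin O.snc.prime hsm fd
        (fun D hD => ((hH D).1 hD).1) (fun D hD => ((hH D).1 hD).2) hG hM C hN hint hK hΘ hinv
        hne hΘC (bY := orbBase E E' O.f O.Δ)
        (fun G => orbBase_le (fun x => O.hol x) hopen hsub O.surj O.fib (hΔ0 _).1 (hΔ0 _).2)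
        (fun G hG' => by
          by_contra hnp
          apply hG'
          unfold orbBase
          rw [if_neg hnp]) hj₀
      unfold kodaira kod
      exact le_iSup₂_of_le (r' + j₀) this le_rfl
    rcases lt_trichotomy (∑ D ∈ H, (fd.deg D : ℝ) * O.Δ D) (r + 1 : ℝ) with hlt | heq | hgt
    · have hbot : kF = ⊥ := by
        rw [hkF]
        unfold kod
        rw [iSup₂_eq_bot]
        intro j hj
        exfalso
        have := (kodF_le hr e e₀ O.hol hi hF.emb (fun p => hF.imm p) hfi hrng ha hfin hcl fd hsm hj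
          (by rw [hsum]; exact hlt.le)).2
        rw [hsum] at this
        exact hlt.ne this
      rw [hbot, WithBot.bot_add]
      exact bot_le
    · have hle : kF ≤ (((0 : ℕ) : ℕ∞) : WithBot ℕ∞) := by
        rw [hkF]
        unfold kod
        refine iSup₂_le fun j hj => ?_
        have := (kodF_le hr e e₀ O.hol hi hF.emb (fun p => hF.imm p) hfi hrng ha hfin hcl fd hsm hj
          (by rw [hsum]; exact heq.le)).1
        rw [this]
      calc kF + kodaira E' (orbBase E E' O.f O.Δ) ≤ (((0 : ℕ) : ℕ∞) : WithBot ℕ∞) + ((j₀ : ℕ∞) : WithBot ℕ∞) :=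
            add_le_add hle hYle
        _ = (((0 + j₀ : ℕ) : ℕ∞) : WithBot ℕ∞) := by push_cast; rfl
        _ ≤ kodaira E O.Δ := hlow 0 (hcov0 heq)
    · have hle : kF ≤ (((r : ℕ) : ℕ∞) : WithBot ℕ∞) := by
        rw [hkF]
        unfold kod
        refine iSup₂_le fun j hj => ?_
        have := kodGE_le hj
        rw [hE₀] at this
        exact_mod_cast this
      calc kF + kodaira E' (orbBase E E' O.f O.Δ) ≤ (((r : ℕ) : ℕ∞) : WithBot ℕ∞) + ((j₀ : ℕ∞) : WithBot ℕ∞) :=
            add_le_add hle hYle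
        _ = (((r + j₀ : ℕ) : ℕ∞) : WithBot ℕ∞) := by push_cast; rfl
        _ ≤ kodaira E O.Δ := hlow r (hcov1 hgt)
  · have h1 : kodaira E' (orbBase E E' O.f O.Δ) = ⊥ := by
      unfold kodaira kod
      rw [iSup₂_eq_bot]
      intro j hj
      exact absurd ⟨j, hj⟩ hYne
    rw [h1, WithBot.add_bot]
    exact bot_le

theorem campana_of_cov (O : OrbFib.{u} E E') {r : ℕ} (hr : 0 < r)
    (hdim : Module.finrank ℂ E = Module.finrank ℂ E' + r)
    (B : ProjectiveBundle E E' O.f r)
    (fd : FormData B {D | O.Δ D ≠ 0}) {H : Finset (Set O.X)}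
    (hH : ∀ D, D ∈ H ↔ O.Δ D ≠ 0 ∧ 0 < fd.deg D)
    {𝒢 : Set (Matrix (Fin (r + 1)) (Fin (r + 1)) ℂ)} (hG : HasTrans B 𝒢)
    (hcov0 : ∑ D ∈ H, (fd.deg D : ℝ) * O.Δ D = r + 1 → HasCov B O.Δ fd H 𝒢 0)
    (hcov1 : (r + 1 : ℝ) < ∑ D ∈ H, (fd.deg D : ℝ) * O.Δ D → HasCov B O.Δ fd H 𝒢 r) :
    CampanaInequality O := by
  have hbase : kodBase O ≤ kodaira E' (orbBase E E' O.f O.Δ) :=
    iInf₂_le O (Relation.EqvGen.refl O)
  refine ⟨fun _ => ∅, fun _ => ⟨isAnalytic_empty, ?_⟩, ?_⟩
  · exact (Set.empty_ne_univ (α := O.Y))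
  intro y _ E₀ _ _ _ hdim0 F _ _ _ i hF
  refine (add_le_add_right hbase _).trans ?_
  exact campana_core O hr hdim B fd hH hG hcov0 hcov1 y E₀ hdim0 F i hF

end Vale.Agent.P281

namespace Vale.Agent.P281

open scoped Manifold ContDiff Topology
open Set Filter Metric

set_option linter.unusedSectionVars false
set_option linter.unusedVariables false

universe u

variable {E E' : Type} [NormedAddCommGroup E] [NormedSpace ℂ E]
  [NormedAddCommGroup E'] [NormedSpace ℂ E']
  [FiniteDimensional ℂ E] [FiniteDimensional ℂ E']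

/-- common denominator of the coefficients of a boundary -/
theorem exists_denominator {X : Type*} [TopologicalSpace X] [ChartedSpace E X] {Δ : Set X → ℝ}
    (h : IsSNCBoundary E Δ) :
    ∃ m : ℕ, 0 < m ∧ ∃ K : Set X → ℕ, (∀ D, (K D : ℝ) = m * Δ D) ∧ ∀ D, K D ≤ m := by
  classical
  choose q hq h0 h1 using h.rational
  set S := h.finite.toFinset with hS
  set m := ∏ D ∈ S, (q D).den with hm
  have hmpos : 0 < m := Finset.prod_pos fun D _ => (q D).pos
  have hK : ∀ D, ∃ k : ℕ, (k : ℝ) = m * Δ D := by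
    intro D
    by_cases hD : Δ D = 0
    · exact ⟨0, by rw [hD]; simp⟩
    · have hDS : D ∈ S := by rw [hS, Set.Finite.mem_toFinset]; exact hD
      obtain ⟨c, hc⟩ := Finset.dvd_prod_of_mem (fun D => (q D).den) hDS
      have hnum : 0 ≤ (q D).num := Rat.num_nonneg.2 (h0 D)
      refine ⟨c * (q D).num.toNat, ?_⟩
      have h2 : (((q D).num.toNat : ℕ) : ℝ) = ((q D).num : ℝ) := by
        have : (((q D).num.toNat : ℤ)) = (q D).num := Int.toNat_of_nonneg hnum
        exact_mod_cast this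
      have h3 : ((q D : ℚ) : ℝ) * ((q D).den : ℝ) = ((q D).num : ℝ) := by
        exact_mod_cast Rat.mul_den_eq_num (q D)
      push_cast
      rw [h2, hq D, ← h3]
      have h4 : (m : ℝ) = ((q D).den : ℝ) * c := by exact_mod_cast hc
      rw [h4]
      ring
  choose K hK using hK
  refine ⟨m, hmpos, K, hK, fun D => ?_⟩
  have h2 : (K D : ℝ) ≤ m := by
    rw [hK D, hq D]
    have h3 : ((q D : ℚ) : ℝ) ≤ 1 := by exact_mod_cast h1 D
    have h4 : (0 : ℝ) ≤ m := Nat.cast_nonneg _
    nlinarith only [h3]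
  exact_mod_cast h2

theorem hasCov_zero {X Y : Type u} [TopologicalSpace X] [ChartedSpace E X]
    [IsManifold 𝓘(ℂ, E) ω X]
    [TopologicalSpace Y] [ChartedSpace E' Y] [IsManifold 𝓘(ℂ, E') ω Y] {f : X → Y} {r : ℕ}
    {B : ProjectiveBundle E E' f r} {Δ : Set X → ℝ} (hf : Continuous f)
    (hΔ : IsSNCBoundary E Δ) {fd : FormData B {D | Δ D ≠ 0}}
    {H : Finset (Set X)} {y : Y} {a : B.ι} (ha : y ∈ B.U a) (htr : GIT.TrForm (fd.P H a y))
    (hsum : ∑ D ∈ H, (fd.deg D : ℝ) * Δ D = r + 1) : HasCov B Δ fd H univ 0 := by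
  classical
  obtain ⟨m, hm, K, hK, hKm⟩ := exists_denominator hΔ
  have hnat : (r + 1) * m + 0 = ∑ i : H, fd.deg i * K i := by
    have h1 : (((r + 1) * m + 0 : ℕ) : ℝ) = ((∑ i : H, fd.deg i * K i : ℕ) : ℝ) := by
      push_cast
      have h2 : ∑ i : H, (fd.deg i : ℝ) * (K i : ℝ) = m * ∑ D ∈ H, (fd.deg D : ℝ) * Δ D := by
        rw [Finset.mul_sum, ← Finset.sum_coe_sort H]
        exact Finset.sum_congr rfl fun i _ => by rw [hK]; ring
      rw [h2, hsum]
      ring
    exact_mod_cast h1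
  have hv : (Pi.single 0 1 : Fin (r + 1) → ℂ) ≠ 0 := by
    intro h
    have := congrFun h 0
    simp at this
  obtain ⟨j, hj, A, hA⟩ := GIT.exists_covariant (K := fun i : H => K i) (N := 0) (m := m)
    (fd.P H a y) htr (Pi.single 0 1) hv (fun i => hKm i) hnat
  obtain ⟨v, hvl, hvx⟩ := exists_lift_value (B := B) hf ha hv
  have hfx : f (B.π a y (Pi.single 0 1)) = y := (B.triv a).proj y ha _ hv
  refine ⟨j * m, j * 0, fun i => j * K i, fun _ => A, A.C, Nat.mul_pos hj hm, ?_, ?_, ?_, A.hol, ?_,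
    ⟨B.π a y (Pi.single 0 1), a, v, ?_, hvl, ?_⟩, ?_⟩
  · calc (r + 1) * (j * m) + j * 0 = j * ((r + 1) * m + 0) := by ring
      _ = ∑ i : H, fd.deg i * (j * K i) := by
        rw [hnat, Finset.mul_sum]
        exact Finset.sum_congr rfl fun i _ => by ring
  · intro D
    exact ⟨j * K D, by push_cast; rw [hK]; ring⟩
  · intro i
    push_cast
    rw [hK]
    ring
  · intro p p' c g w lam _ hg hc hlam h
    rw [A.law p p' c g w (mem_univ _) hg hc h, A.homog]
    constructor
    · intro h1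
      exact mul_ne_zero (pow_ne_zero _ hlam) (right_ne_zero_of_mul h1)
    · intro h1
      exact mul_ne_zero (mul_ne_zero (pow_ne_zero _ hg)
        (Finset.prod_ne_zero_iff.2 fun i _ => pow_ne_zero _ (hc i))) (right_ne_zero_of_mul h1)
  · rw [hfx]; exact ha
  · rw [hfx, hvx]; exact hA
  · intro p w hne
    exact ⟨hne, linearIndependent_empty_type⟩

theorem hasCov_pos {X Y : Type u} [TopologicalSpace X] [ChartedSpace E X]
    [IsManifold 𝓘(ℂ, E) ω X]
    [TopologicalSpace Y] [ChartedSpace E' Y] [IsManifold 𝓘(ℂ, E') ω Y] {f : X → Y} {r : ℕ}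
    {B : ProjectiveBundle E E' f r} {Δ : Set X → ℝ} (hf : Continuous f)
    (hΔ : IsSNCBoundary E Δ) {fd : FormData B {D | Δ D ≠ 0}}
    {H : Finset (Set X)} {y : Y} {a : B.ι} (ha : y ∈ B.U a) (htr : GIT.TrForm (fd.P H a y))
    (hr : 0 < r)
    (hsum : (r + 1 : ℝ) < ∑ D ∈ H, (fd.deg D : ℝ) * Δ D) : HasCov B Δ fd H univ r := by
  classical
  obtain ⟨m, hm, K, hK, hKm⟩ := exists_denominator hΔ
  have hlt : (r + 1) * m < ∑ i : H, fd.deg i * K i := by
    have h1 : (((r + 1) * m : ℕ) : ℝ) < ((∑ i : H, fd.deg i * K i : ℕ) : ℝ) := by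
      push_cast
      have h2 : ∑ i : H, (fd.deg i : ℝ) * (K i : ℝ) = m * ∑ D ∈ H, (fd.deg D : ℝ) * Δ D := by
        rw [Finset.mul_sum, ← Finset.sum_coe_sort H]
        exact Finset.sum_congr rfl fun i _ => by rw [hK]; ring
      rw [h2]
      have h3 : (0 : ℝ) < m := by exact_mod_cast hm
      nlinarith only [hsum, h3]
    exact_mod_cast h1
  obtain ⟨N, hN⟩ := Nat.exists_eq_add_of_lt hlt
  obtain ⟨j, hj, A, w, hAw, hli⟩ := GIT.exists_system (K := fun i : H => K i) (N := N + 1) (m := m)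
    (fd.P H a y) htr (fun i => hKm i) (by rw [hN]; ring) (Nat.succ_pos _)
  have hθ : GIT.theta A (fd.P H a y) w ≠ 0 := (GIT.theta_ne A _ _).2 ⟨hAw 0, hli⟩
  have hw : w ≠ 0 := by
    rintro rfl
    have h1 := (A 0).homog (fd.P H a y) 0 0
    rw [zero_smul, zero_pow (Nat.mul_pos hj (Nat.succ_pos N)).ne', zero_mul] at h1
    exact hAw 0 h1
  obtain ⟨v, hvl, hvx⟩ := exists_lift_value (B := B) hf ha hw
  have hfx : f (B.π a y w) = y := (B.triv a).proj y ha _ hw
  refine ⟨j * m, j * (N + 1), fun i => j * K i, A, GIT.theta A, Nat.mul_pos hj hm, ?_, ?_, ?_,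
    GIT.theta_contDiff A, GIT.theta_invNe A,
    ⟨B.π a y w, a, v, ?_, hvl, ?_⟩, fun p v h => GIT.theta_ratio A p v h⟩
  · calc (r + 1) * (j * m) + j * (N + 1) = j * ((r + 1) * m + N + 1) := by ring
      _ = ∑ i : H, fd.deg i * (j * K i) := by
        rw [← hN, Finset.mul_sum]
        exact Finset.sum_congr rfl fun i _ => by ring
  · intro D
    exact ⟨j * K D, by push_cast; rw [hK]; ring⟩
  · intro i
    push_cast
    rw [hK]
    ring
  · rw [hfx]; exact ha
  · rw [hfx, hvx]; exact hθ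

/-- Campana's inequality for projective bundles. -/
theorem campana_bundle (O : OrbFib.{u} E E') {r : ℕ} (hr : 0 < r)
    (hdim : Module.finrank ℂ E = Module.finrank ℂ E' + r)
    (B : ProjectiveBundle E E' O.f r)
    (hΔ : ∀ D, O.Δ D ≠ 0 → ∃ d, B.IsRelHypersurface D d)
    (htr : ∃ y, IsTransversal (E := E) (E' := E') O.f O.Δ y) :
    CampanaInequality O := by
  classical
  obtain ⟨fd⟩ := exists_formData B {D | O.Δ D ≠ 0} hΔ
  obtain ⟨y, hy⟩ := htr
  obtain ⟨a, ha⟩ := B.cover y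
  have hfin : {D | O.Δ D ≠ 0}.Finite := O.snc.finite
  set H : Finset (Set O.X) := hfin.toFinset.filter fun D => 0 < fd.deg D with hH
  have hH' : ∀ D, D ∈ H ↔ O.Δ D ≠ 0 ∧ 0 < fd.deg D := by
    intro D
    rw [hH, Finset.mem_filter, Set.Finite.mem_toFinset]
    rfl
  have htrF : GIT.TrForm (fd.P H a y) :=
    trForm_of_transversal O.hol fd (fun D hD => ((hH' D).1 hD).1) hy ha
  exact campana_of_cov O hr hdim B fd hH' (hasTrans_univ B)
    (fun h => hasCov_zero O.hol.continuous O.snc ha htrF h)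
    (fun h => hasCov_pos O.hol.continuous O.snc ha htrF hr h)

end Vale.Agent.P281

namespace Vale.Agent.P281.JB

open scoped Manifold ContDiff Topology ENNReal
open Set Filter Vale.Agent.P281

set_option linter.unusedSectionVars false
set_option linter.unusedVariables false

universe u

section Lin

variable {E : Type*} [NormedAddCommGroup E] [NormedSpace ℂ E]

theorem surjective_of_linearIndependent {ι : Type*} [Finite ι] {φ : ι → (E →L[ℂ] ℂ)}
    (h : LinearIndependent ℂ φ) : Function.Surjective (fun (ξ : E) (i : ι) => φ i ξ) := by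
  classical
  have hft : Fintype ι := Fintype.ofFinite ι
  let Φ : E →ₗ[ℂ] (ι → ℂ) := LinearMap.pi fun i => (φ i : E →ₗ[ℂ] ℂ)
  have hΦ : LinearMap.range Φ = ⊤ := by
    by_contra hne
    obtain ⟨ψ, hψ0, hψ⟩ := Submodule.exists_le_ker_of_lt_top _ (lt_top_iff_ne_top.2 hne)
    apply hψ0
    have hψs : ∀ y : ι → ℂ, ψ y = ∑ i, y i * ψ (Pi.single i 1) := by
      intro y
      conv_lhs => rw [← Finset.univ_sum_single y]
      rw [map_sum]
      refine Finset.sum_congr rfl fun l _ => ?_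
      have : (Pi.single l (y l) : ι → ℂ) = y l • (Pi.single l 1 : ι → ℂ) := by
        rw [← Pi.single_smul]; simp
      rw [this, map_smul, smul_eq_mul]
    have h1 : ∑ i, ψ (Pi.single i 1) • φ i = 0 := by
      ext ξ
      have h2 : ψ (Φ ξ) = 0 := hψ ⟨ξ, rfl⟩
      rw [hψs] at h2
      simp only [_root_.sum_apply, ContinuousLinearMap.zero_apply]
      rw [← h2]
      refine Finset.sum_congr rfl fun i _ => ?_
      show ψ (Pi.single i 1) * φ i ξ = φ i ξ * ψ (Pi.single i 1)
      ring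
    have h3 := Fintype.linearIndependent_iff.1 h _ h1
    refine LinearMap.ext fun y => ?_
    rw [hψs]
    simp only [h3, mul_zero, Finset.sum_const_zero, LinearMap.zero_apply]
  intro y
  have : y ∈ LinearMap.range Φ := by rw [hΦ]; trivial
  obtain ⟨ξ, hξ⟩ := this
  exact ⟨ξ, hξ⟩

theorem linearIndependent_of_surjective {ι : Type*} {φ : ι → (E →L[ℂ] ℂ)}
    (h : Function.Surjective (fun (ξ : E) (i : ι) => φ i ξ)) : LinearIndependent ℂ φ := by
  classical
  rw [linearIndependent_iff']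
  intro s g hg i hi
  obtain ⟨ξ, hξ⟩ := h (Pi.single i 1)
  have h1 := congrArg (fun ψ : E →L[ℂ] ℂ => ψ ξ) hg
  simp only [_root_.sum_apply, ContinuousLinearMap.zero_apply] at h1
  rw [Finset.sum_eq_single i] at h1
  · have h2 : g i * φ i ξ = 0 := h1
    have h3 : φ i ξ = 1 := by
      have := congrFun hξ i
      simpa only [Pi.single_eq_same] using this
    rwa [h3, mul_one] at h2
  · intro j _ hj
    have h3 : φ j ξ = 0 := by
      have := congrFun hξ j
      simpa only [ne_eq, hj, not_false_eq_true, Pi.single_eq_of_ne] using this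
    show g j * φ j ξ = 0
    rw [h3, mul_zero]
  · intro h4; exact absurd hi h4

end Lin

section Kod

variable {E : Type} [NormedAddCommGroup E] [NormedSpace ℂ E] {X : Type u} [TopologicalSpace X]
  [ChartedSpace E X]

theorem kod_eq {ι : Type u} (eqn : ι → X → (X → ℂ) → Prop) (c : ι → ℝ) :
    J.kod E eqn c = kod E eqn c := by
  unfold J.kod kod
  congr 1
  funext j
  have h : (∃ (m : ℕ) (k : ι → ℕ) (s : ℕ → X → ℂ) (z : X), 0 < m ∧
    (∀ i, (k i : ℝ) = m * c i) ∧ (∀ b, J.IsSection E eqn m k (s b)) ∧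
    (∀ i, k i ≠ 0 → ∃ g, eqn i z g ∧ g z ≠ 0) ∧ s 0 z ≠ 0 ∧
    Function.Surjective fun (ξ : E) (b : Fin j) => J.dif E (fun w => s (b + 1) w / s 0 w) z ξ) ↔
      KodGE E eqn c j := by
    constructor
    · rintro ⟨m, k, s, z, hm, hk, hs, hg, h0, hsurj⟩
      refine ⟨m, k, fun b => s b, z, hm, hk, fun b => hs b, hg, h0, ?_⟩
      exact linearIndependent_of_surjective hsurj
    · rintro ⟨m, k, s, z, hm, hk, hs, hg, h0, hli⟩
      refine ⟨m, k, fun b => if h : b < j + 1 then s ⟨b, h⟩ else s 0, z, hm, hk, fun b => ?_, hg,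
        ?_, ?_⟩
      · by_cases h : b < j + 1
        · simp only [h, dif_pos]; exact hs _
        · simp only [h, dif_neg, not_false_eq_true]; exact hs _
      · simpa only [lt_add_iff_pos_left, Order.lt_add_one_iff, zero_le, ↓reduceDIte, Fin.zero_eta,
          ne_eq] using h0
      · have := surjective_of_linearIndependent hli
        intro y
        obtain ⟨ξ, hξ⟩ := this y
        refine ⟨ξ, ?_⟩
        rw [← hξ]
        funext b
        have hb : (b : ℕ) + 1 < j + 1 := by omega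
        have h2 : (fun w => (if h : (b : ℕ) + 1 < j + 1 then s ⟨(b : ℕ) + 1, h⟩ else s 0) w /
            (if h : 0 < j + 1 then s ⟨0, h⟩ else s 0) w) = fun w => s b.succ w / s 0 w := by
          funext w
          rw [dif_pos hb, dif_pos (Nat.succ_pos j)]
          rfl
        show J.dif E (fun w => (if h : (b : ℕ) + 1 < j + 1 then s ⟨(b : ℕ) + 1, h⟩ else s 0) w /
            (if h : 0 < j + 1 then s ⟨0, h⟩ else s 0) w) z ξ = _
        rw [h2]
        rfl
  exact iSup_congr_Prop h fun _ => rfl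

theorem snc {Δ : Set X → ℝ} (h : J.IsSNC E Δ) : IsSNCBoundary E Δ where
  finite := h.1
  prime := h.2.1
  rational := h.2.2.1
  snc := fun x g hg => linearIndependent_of_surjective (h.2.2.2 x g hg)

end Kod

section Base

variable {E E' : Type} [NormedAddCommGroup E] [NormedSpace ℂ E]
  [NormedAddCommGroup E'] [NormedSpace ℂ E']
variable {X Y : Type u} [TopologicalSpace X] [ChartedSpace E X]
  [TopologicalSpace Y] [ChartedSpace E' Y]

theorem orbBase_eq (f : X → Y) (Δ : Set X → ℝ) : J.orbBase E E' f Δ = orbBase E E' f Δ := rfl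

theorem linearIndependent_of_dual {K ι : Type*} [AddCommGroup K] [Module ℂ K]
    {φ : ι → (K →ₗ[ℂ] ℂ)} (h : ∀ i, ∃ ξ, φ i ξ = 1 ∧ ∀ j, j ≠ i → φ j ξ = 0) :
    LinearIndependent ℂ φ := by
  rw [linearIndependent_iff']
  intro s a ha i hi
  obtain ⟨ξ, h1, h2⟩ := h i
  have h3 : ∑ j ∈ s, a j * φ j ξ = 0 := by
    have := congrArg (LinearMap.applyₗ (R := ℂ) ξ) ha
    rw [map_sum, map_zero] at this
    exact this
  rw [Finset.sum_eq_single i (fun j _ hj => by rw [h2 j hj, mul_zero])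
    (fun h => absurd hi h), h1, mul_one] at h3
  exact h3

theorem transversal {f : X → Y} {Δ : Set X → ℝ} {y : Y} (h : J.IsTransversal E E' f Δ y) :
    IsTransversal (E := E) (E' := E') f Δ y := by
  classical
  intro x g hx hg
  refine linearIndependent_of_dual fun i => ?_
  obtain ⟨ξ, hξ0, hξ⟩ := h x g hx hg (fun D => if D = i.1 then 1 else 0)
  refine ⟨⟨ξ, hξ0⟩, (hξ i.1 i.2.1 i.2.2).trans (if_pos rfl), fun j hj => ?_⟩
  exact (hξ j.1 j.2.1 j.2.2).trans (if_neg fun h' => hj (Subtype.ext h'))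

end Base

end Vale.Agent.P281.JB

namespace Vale.Agent.P281.JB

open scoped Manifold ContDiff Topology ENNReal
open Set Filter Vale.Agent.P281

set_option linter.unusedSectionVars false
set_option linter.unusedVariables false

universe u

variable {E E' : Type} [NormedAddCommGroup E] [NormedSpace ℂ E]
  [NormedAddCommGroup E'] [NormedSpace ℂ E']
variable {X Y : Type u} [TopologicalSpace X] [ChartedSpace E X]
  [TopologicalSpace Y] [ChartedSpace E' Y]
variable {W : Type} [NormedAddCommGroup W] [NormedSpace ℂ W]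
variable {f : X → Y} {r : ℕ} (φ : W ≃L[ℂ] (Fin (r + 1) → ℂ))

theorem lift_of {π : Y → W → X} {v : X → W} {x : X} (h : J.IsLift E f π v x) :
    IsLift E f (fun y w => π y (φ.symm w)) (fun z => φ (v z)) x := by
  refine ⟨(ContinuousLinearMap.contMDiff (φ : W →L[ℂ] (Fin (r + 1) → ℂ))).contMDiffAt.comp x h.1, ?_⟩
  filter_upwards [h.2] with z hz
  refine ⟨fun h0 => hz.1 (by simpa using h0), ?_⟩
  simpa using hz.2

theorem lift_to {π : Y → W → X} {v : X → (Fin (r + 1) → ℂ)} {x : X}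
    (h : IsLift E f (fun y w => π y (φ.symm w)) v x) :
    J.IsLift E f π (fun z => φ.symm (v z)) x := by
  refine ⟨(ContinuousLinearMap.contMDiff
    (φ.symm : (Fin (r + 1) → ℂ) →L[ℂ] W)).contMDiffAt.comp x h.1, ?_⟩
  filter_upwards [h.2] with z hz
  refine ⟨fun h0 => hz.1 (by simpa using h0), hz.2⟩

variable [IsManifold 𝓘(ℂ, E) ω X] [IsManifold 𝓘(ℂ, E') ω Y]

/-- the bundle in coordinates -/
noncomputable def bundle {ι : Type u} {U : ι → Set Y} {π : ι → Y → W → X}
    (hB : J.IsBundle E E' f U π) : ProjectiveBundle E E' f r where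
  ι := ι
  U := U
  π := fun a y w => π a y (φ.symm w)
  cover := hB.1
  triv := fun a =>
    { isOpen := (hB.2.1 a).1
      proj := fun y hy v hv => ((hB.2.1 a).2.1 y hy (φ.symm v) (by simpa using hv)).1
      hol := fun y hy v hv => by
        have h1 := ((hB.2.1 a).2.1 y hy (φ.symm v) (by simpa using hv)).2.1
        have h2 : ContMDiffAt (𝓘(ℂ, E').prod 𝓘(ℂ, Fin (r + 1) → ℂ)) (𝓘(ℂ, E').prod 𝓘(ℂ, W)) ω
            (fun p : Y × (Fin (r + 1) → ℂ) => (p.1, φ.symm p.2)) (y, v) :=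
          contMDiffAt_fst.prodMk (((ContinuousLinearMap.contMDiff
            (φ.symm : (Fin (r + 1) → ℂ) →L[ℂ] W)).contMDiffAt).comp (y, v) contMDiffAt_snd)
        exact ContMDiffAt.comp (y, v)
          (g := fun p : Y × W => π a p.1 p.2) (f := fun p : Y × (Fin (r + 1) → ℂ) =>
            (p.1, φ.symm p.2)) h1 h2
      eq_iff := fun y hy v hv w hw => by
        have h1 := ((hB.2.1 a).2.1 y hy (φ.symm v) (by simpa using hv)).2.2 (φ.symm w)
          (by simpa using hw)
        rw [h1]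
        constructor
        · rintro ⟨c, hc⟩
          refine ⟨c, ?_⟩
          have := congrArg φ hc
          simpa using this
        · rintro ⟨c, rfl⟩
          exact ⟨c, by simp only [map_smul]⟩
      lift := fun x hx => by
        obtain ⟨v, hv⟩ := (hB.2.1 a).2.2 x hx
        exact ⟨_, lift_of φ hv⟩ }
  trans := fun a b y hy => by
    obtain ⟨g, hg, h⟩ := hB.2.2 a b y hy
    refine ⟨fun y' => LinearMap.toMatrix' ((φ : W →ₗ[ℂ] (Fin (r + 1) → ℂ)) ∘ₗ
      (g y' : W →ₗ[ℂ] W) ∘ₗ (φ.symm : (Fin (r + 1) → ℂ) →ₗ[ℂ] W)), fun i j => ?_, ?_⟩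
    · have h1 : (fun y' => LinearMap.toMatrix' ((φ : W →ₗ[ℂ] (Fin (r + 1) → ℂ)) ∘ₗ
          (g y' : W →ₗ[ℂ] W) ∘ₗ (φ.symm : (Fin (r + 1) → ℂ) →ₗ[ℂ] W)) i j) =
          fun y' => ((ContinuousLinearMap.proj (R := ℂ) (φ := fun _ : Fin (r + 1) => ℂ) i).comp
            (φ : W →L[ℂ] (Fin (r + 1) → ℂ))) (g y' (φ.symm (Pi.single j 1))) := by
        funext y'
        rw [LinearMap.toMatrix'_apply]
        simp
      rw [h1]
      exact (ContinuousLinearMap.contMDiff _).contMDiffAt.comp y (hg _)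
    · filter_upwards [h] with y' hy'
      refine ⟨?_, fun v hv => ?_⟩
      · rw [LinearMap.det_toMatrix']
        have : ((φ : W →ₗ[ℂ] (Fin (r + 1) → ℂ)) ∘ₗ
          (g y' : W →ₗ[ℂ] W) ∘ₗ (φ.symm : (Fin (r + 1) → ℂ) →ₗ[ℂ] W)) =
          ((φ.symm.toLinearEquiv.trans ((g y').trans φ.toLinearEquiv) :
            (Fin (r + 1) → ℂ) ≃ₗ[ℂ] (Fin (r + 1) → ℂ)) :
            (Fin (r + 1) → ℂ) →ₗ[ℂ] (Fin (r + 1) → ℂ)) := rfl
        rw [this]
        exact (LinearEquiv.isUnit_det' _).ne_zero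
      · have h1 := hy' (φ.symm v) (by simpa using hv)
        rw [h1, LinearMap.toMatrix'_mulVec]
        simp

end Vale.Agent.P281.JB

namespace Vale.Agent.P281.GIT

open Vale.Agent.P281

set_option linter.unusedSectionVars false
set_option linter.unusedVariables false

/-- evaluation functionals at a separating family span the dual -/
theorem span_dual {V : Type*} [AddCommGroup V] [Module ℂ V] [FiniteDimensional ℂ V] {S : Type*}
    (ev : S → Module.Dual ℂ V) (h : ∀ x, (∀ s, ev s x = 0) → x = 0) :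
    Submodule.span ℂ (Set.range ev) = ⊤ := by
  have h1 : (Submodule.span ℂ (Set.range ev)).dualCoannihilator = ⊥ := by
    rw [eq_bot_iff]
    intro x hx
    rw [Submodule.mem_dualCoannihilator] at hx
    rw [Submodule.mem_bot]
    exact h x fun s => hx _ (Submodule.subset_span ⟨s, rfl⟩)
  have h2 := Subspace.dualCoannihilator_dualAnnihilator_eq
    (W := Submodule.span ℂ (Set.range ev))
  rw [h1, Submodule.dualAnnihilator_bot] at h2
  exact h2.symm

/-- Tensors representing a form can be computed linearly from finitely many values at nonzero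
vectors. -/
theorem exists_coeff {n d : ℕ} (hn : 0 < n) :
    ∃ c : (Fin d → Fin n) → ({w : Fin n → ℂ // w ≠ 0} →₀ ℂ),
      ∀ (q : (Fin d → Fin n) → ℂ) (v : Fin n → ℂ),
        form (fun J => (c J).sum fun w a => a * form q w.1) v = form q v := by
  classical
  let Φ : ((Fin d → Fin n) → ℂ) →ₗ[ℂ] ((Fin n → ℂ) → ℂ) :=
    { toFun := fun q v => form q v
      map_add' := fun q q' => by
        funext v
        simp only [form, Pi.add_apply, add_mul, Finset.sum_add_distrib]
      map_smul' := fun c q => by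
        funext v
        simp only [form, Pi.smul_apply, smul_eq_mul, RingHom.id_apply, Finset.mul_sum, mul_assoc] }
  have hΦ : ∀ q v, Φ q v = form q v := fun q v => rfl
  obtain ⟨g, hg⟩ := LinearMap.exists_rightInverse_of_surjective Φ.rangeRestrict
    (LinearMap.range_rangeRestrict Φ)
  let ev : {w : Fin n → ℂ // w ≠ 0} → Module.Dual ℂ (LinearMap.range Φ) := fun w =>
    { toFun := fun F => F.1 w.1
      map_add' := fun _ _ => rfl
      map_smul' := fun _ _ => rfl }
  have hne : (Pi.single ⟨0, hn⟩ 1 : Fin n → ℂ) ≠ 0 := by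
    intro h
    have := congrFun h ⟨0, hn⟩
    simp at this
  have hspan := span_dual ev (fun F hF => by
    obtain ⟨F, q, rfl⟩ := F
    apply Subtype.ext
    funext v
    show form q v = 0
    by_cases hv : v = 0
    · subst hv
      by_cases hd : d = 0
      · have h1 := form_smul q (0 : ℂ) (Pi.single ⟨0, hn⟩ 1)
        rw [zero_smul, show (Pi.single ⟨0, hn⟩ 1 : Fin n → ℂ) =
          (⟨Pi.single ⟨0, hn⟩ 1, hne⟩ : {w : Fin n → ℂ // w ≠ 0}).1 from rfl] at h1
        have h2 : form q (⟨Pi.single ⟨0, hn⟩ 1, hne⟩ : {w : Fin n → ℂ // w ≠ 0}).1 = 0 := hF _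
        rw [h1, h2, mul_zero]
      · have h1 := form_smul q (0 : ℂ) (0 : Fin n → ℂ)
        rw [zero_smul, zero_pow hd, zero_mul] at h1
        exact h1
    · exact hF ⟨v, hv⟩)
  have hL : ∀ J : Fin d → Fin n, ∃ c : {w : Fin n → ℂ // w ≠ 0} →₀ ℂ,
      (c.sum fun w a => a • ev w) = (LinearMap.proj J).comp g := by
    intro J
    have : (LinearMap.proj J).comp g ∈ Submodule.span ℂ (Set.range ev) := by
      rw [hspan]; trivial
    exact Finsupp.mem_span_range_iff_exists_finsupp.1 this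
  choose c hc using hL
  refine ⟨c, fun q v => ?_⟩
  have h1 : (fun J => (c J).sum fun w a => a * form q w.1) = g (Φ.rangeRestrict q) := by
    funext J
    have h2 := congrArg (fun ψ : Module.Dual ℂ (LinearMap.range Φ) => ψ (Φ.rangeRestrict q)) (hc J)
    have h3 : ((LinearMap.proj J).comp g : Module.Dual ℂ (LinearMap.range Φ))
      (Φ.rangeRestrict q) = g (Φ.rangeRestrict q) J := rfl
    rw [h3] at h2
    rw [← h2]
    unfold Finsupp.sum
    rw [LinearMap.sum_apply]
    rfl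
  rw [h1]
  have h4 : Φ (g (Φ.rangeRestrict q)) = Φ q := by
    have := congrArg (fun ψ : LinearMap.range Φ →ₗ[ℂ] LinearMap.range Φ =>
      (ψ (Φ.rangeRestrict q)).1) hg
    exact this
  exact congrFun h4 v

end Vale.Agent.P281.GIT

namespace Vale.Agent.P281.JB

open scoped Manifold ContDiff Topology ENNReal
open Set Filter Vale.Agent.P281

set_option linter.unusedSectionVars false
set_option linter.unusedVariables false

universe u

variable {E E' : Type} [NormedAddCommGroup E] [NormedSpace ℂ E]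
  [NormedAddCommGroup E'] [NormedSpace ℂ E']
variable {X Y : Type u} [TopologicalSpace X] [ChartedSpace E X]
  [TopologicalSpace Y] [ChartedSpace E' Y]
variable {W : Type} [NormedAddCommGroup W] [NormedSpace ℂ W]
variable {f : X → Y} {r : ℕ} (φ : W ≃L[ℂ] (Fin (r + 1) → ℂ))
variable [IsManifold 𝓘(ℂ, E) ω X] [IsManifold 𝓘(ℂ, E') ω Y]

theorem holM_point {B : ProjectiveBundle E E' f r} {a : B.ι} {y : Y} (hy : y ∈ B.U a)
    {w : Fin (r + 1) → ℂ} (hw : w ≠ 0) : HolM E' E (fun y' => B.π a y' w) y := by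
  have h1 := (B.triv a).hol y hy w hw
  have h2 : ContMDiffAt 𝓘(ℂ, E') (𝓘(ℂ, E').prod 𝓘(ℂ, Fin (r + 1) → ℂ)) ω
      (fun y' : Y => (y', w)) y := contMDiffAt_id.prodMk contMDiffAt_const
  exact ContMDiffAt.comp y (g := fun p : Y × (Fin (r + 1) → ℂ) => B.π a p.1 p.2)
    (f := fun y' : Y => (y', w)) h1 h2

/-- Relative hypersurfaces in coordinates. -/
theorem relHyp {ι : Type u} {U : ι → Set Y} {π : ι → Y → W → X}
    (hB : J.IsBundle E E' f U π) (hf : Continuous f) {D : Set X}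
    (h : ∃ d : ℕ, ∀ a, ∃ p : Y → W → ℂ,
      (∀ y ∈ U a, ContDiff ℂ ω (p y) ∧ ∀ (c : ℂ) w, p y (c • w) = c ^ d * p y w) ∧
      ∀ x v, f x ∈ U a → J.IsLift E f (π a) v x → J.IsLocalEq E D (fun z => p (f z) (v z)) x) :
    ∃ d, (bundle φ hB).IsRelHypersurface D d := by
  classical
  obtain ⟨d, h⟩ := h
  set B := bundle φ hB with hBdef
  refine ⟨d, fun (a : B.ι) => ?_⟩
  obtain ⟨p, hp, hloc⟩ := h a
  set P : Y → (Fin (r + 1) → ℂ) → ℂ := fun y v => p y (φ.symm v) with hP
  -- forms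
  have hform : ∀ y ∈ U a, ∃ q : (Fin d → Fin (r + 1)) → ℂ, ∀ v, P y v = form q v := by
    intro y hy
    refine GIT.exists_form (P y) ?_ fun c v => ?_
    · have h1 : ContDiff ℂ ω (p y) := (hp y hy).1
      exact h1.comp (φ.symm : (Fin (r + 1) → ℂ) →L[ℂ] W).contDiff
    · simp only [hP, map_smul]
      exact (hp y hy).2 c _
  obtain ⟨c, hc⟩ := GIT.exists_coeff (n := r + 1) (d := d) (Nat.succ_pos r)
  -- local equations
  have hloc' : ∀ x v, f x ∈ U a → IsLift E f (B.π a) v x →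
      IsLocalEq E D (fun z => P (f z) (v z)) x := by
    intro x v hx hv
    exact hloc x _ hx (lift_to φ hv)
  -- values are holomorphic
  have hval : ∀ w : Fin (r + 1) → ℂ, w ≠ 0 → ∀ y ∈ U a, HolV E' (fun y' => P y' w) y := by
    intro w hw y hy
    obtain ⟨v, hv, hvx⟩ := exists_lift_value (B := B) hf (a := a) hy hw
    have hfx : f (B.π a y w) = y := (B.triv a).proj y hy w hw
    have h1 := (hloc' _ v (by rw [hfx]; exact hy) hv)
    have h2 : HolV E (fun z => P (f z) (v z)) (B.π a y w) := by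
      obtain ⟨V, hV, hxV, hV1, -, -⟩ := h1
      exact hV1 _ hxV
    have hs : HolM E' E (fun y' => B.π a y' w) y := holM_point hy hw
    have h3 : HolV E' (fun y' => P (f (B.π a y' w)) (v (B.π a y' w))) y :=
      HolV.comp (h := fun z => P (f z) (v z)) (f := fun y' => B.π a y' w) h2 hs
    have h4 : HolV E' (fun y' => v (B.π a y' w)) y :=
      HolV.comp (h := v) (f := fun y' => B.π a y' w) hv.1 hs
    obtain ⟨i, hi⟩ := Function.ne_iff.1 hw
    have hi' : w i ≠ 0 := hi
    have h5 : HolV E' (fun y' => v (B.π a y' w) i / w i) y := by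
      have : HolV E' (fun y' => v (B.π a y' w) i) y := h4.eval i
      exact HolV.div this (HolV.const _ _) hi'
    have h6 : HolV E' (fun y' => P (f (B.π a y' w)) (v (B.π a y' w)) /
        (v (B.π a y' w) i / w i) ^ d) y := by
      refine HolV.div h3 (h5.pow d) ?_
      rw [hvx, div_self hi', one_pow]
      exact one_ne_zero
    refine h6.congr ?_
    -- near `y`
    have hcont : ContinuousAt (fun y' => B.π a y' w) y := ContMDiffAt.continuousAt hs
    have e1 : ∀ᶠ y' in 𝓝 y, y' ∈ U a := (B.triv a).isOpen.mem_nhds hy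
    have e2 := hcont.eventually hv.2
    have e3 : ∀ᶠ y' in 𝓝 y, v (B.π a y' w) i / w i ≠ 0 := by
      refine h5.continuousAt.eventually_ne ?_
      rw [hvx, div_self hi']
      exact one_ne_zero
    filter_upwards [e1, e2, e3] with y' hy1 hy2 hy3
    have hfy : f (B.π a y' w) = y' := (B.triv a).proj y' hy1 w hw
    rw [hfy] at hy2 ⊢
    obtain ⟨lam, hlam⟩ := ((B.triv a).eq_iff y' hy1 _ hy2.1 w hw).1 hy2.2
    have hlam0 : lam ≠ 0 := by
      rintro rfl
      rw [zero_smul] at hlam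
      exact hw hlam
    have hvw : v (B.π a y' w) = lam⁻¹ • w := by
      calc v (B.π a y' w) = (lam⁻¹ * lam) • v (B.π a y' w) := by
            rw [inv_mul_cancel₀ hlam0, one_smul]
        _ = lam⁻¹ • (lam • v (B.π a y' w)) := mul_smul _ _ _
        _ = lam⁻¹ • w := by rw [← hlam]
    have hli : v (B.π a y' w) i / w i = lam⁻¹ := by
      rw [hvw]
      simp only [Pi.smul_apply, smul_eq_mul, isUnit_iff_ne_zero, ne_eq, hi', not_false_eq_true,
        IsUnit.mul_div_cancel_right]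
    rw [hli, hvw]
    have h7 : P y' (lam⁻¹ • w) = lam⁻¹ ^ d * P y' w := by
      simp only [hP, map_smul]
      exact (hp y' hy1).2 _ _
    rw [h7]
    have : lam⁻¹ ^ d ≠ 0 := pow_ne_zero _ (inv_ne_zero hlam0)
    (clear * - hlam0; field_simp)
  refine ⟨fun J y => (c J).sum fun w a => a * P y w.1, fun J y hy => ?_, fun x v hx hv => ?_⟩
  · have : HolV E' (fun y => ∑ w ∈ (c J).support, (c J) w * P y w.1) y :=
      HolV.sum fun w _ => HolV.mul (HolV.const _ _) (hval w.1 w.2 y hy)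
    exact this
  · refine (hloc' x v hx hv).congr ?_
    have e1 : ∀ᶠ z in 𝓝 x, f z ∈ U a := hf.continuousAt.eventually ((B.triv a).isOpen.mem_nhds hx)
    filter_upwards [e1] with z hz
    obtain ⟨q, hq⟩ := hform (f z) hz
    have h1 := hc q (v z)
    rw [hq (v z), ← h1]
    unfold form
    refine Finset.sum_congr rfl fun J _ => ?_
    congr 1
    refine Finsupp.sum_congr fun w _ => ?_
    rw [hq w.1]
    rfl

end Vale.Agent.P281.JB

namespace Vale.Agent.P281.JB

open scoped Manifold ContDiff Topology ENNReal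
open Set Filter Vale.Agent.P281

set_option linter.unusedSectionVars false
set_option linter.unusedVariables false

universe u

theorem fibre_eq {E E' : Type} [NormedAddCommGroup E] [NormedSpace ℂ E]
    [NormedAddCommGroup E'] [NormedSpace ℂ E'] {X Y : Type u} [TopologicalSpace X]
    [ChartedSpace E X] [TopologicalSpace Y] [ChartedSpace E' Y] {f : X → Y} {r : ℕ}
    (B : ProjectiveBundle E E' f r) {a : B.ι} {y : Y} (hy : y ∈ B.U a) :
    f ⁻¹' {y} = (fun v => B.π a y v) '' {0}ᶜ := by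
  ext x
  constructor
  · intro hx
    have hx' : f x = y := hx
    obtain ⟨v, hv⟩ := (B.triv a).lift x (by rw [hx']; exact hy)
    refine ⟨v x, hv.2.self_of_nhds.1, ?_⟩
    have := hv.2.self_of_nhds.2
    rwa [hx'] at this
  · rintro ⟨v, hv, rfl⟩
    exact (B.triv a).proj y hy v hv

theorem isConnected_fibre {E E' : Type} [NormedAddCommGroup E] [NormedSpace ℂ E]
    [NormedAddCommGroup E'] [NormedSpace ℂ E'] {X Y : Type u} [TopologicalSpace X]
    [ChartedSpace E X] [TopologicalSpace Y] [ChartedSpace E' Y] {f : X → Y} {r : ℕ}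
    (B : ProjectiveBundle E E' f r) (y : Y) : IsConnected (f ⁻¹' {y}) := by
  obtain ⟨a, ha⟩ := B.cover y
  rw [fibre_eq B ha]
  have hrank : 1 < Module.rank ℝ (Fin (r + 1) → ℂ) := by
    rw [← Module.finrank_eq_rank]
    have : Module.finrank ℝ (Fin (r + 1) → ℂ) = (r + 1) * 2 := by
      rw [Module.finrank_pi_fintype]
      simp [Complex.finrank_real_complex]
    rw [this]
    exact_mod_cast (by omega : 1 < (r + 1) * 2)
  refine (isConnected_compl_singleton_of_one_lt_rank hrank 0).image _ fun v hv => ?_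
  have h1 := ((B.triv a).hol y ha v hv).continuousAt
  have h2 : ContinuousAt (fun v : Fin (r + 1) → ℂ => (y, v)) v := by fun_prop
  exact (ContinuousAt.comp (g := fun p : Y × (Fin (r + 1) → ℂ) => B.π a p.1 p.2)
    (f := fun v : Fin (r + 1) → ℂ => (y, v)) h1 h2).continuousWithinAt

theorem main {E E' E₀ W : Type} [NormedAddCommGroup E] [NormedSpace ℂ E] [FiniteDimensional ℂ E]
    [NormedAddCommGroup E'] [NormedSpace ℂ E'] [FiniteDimensional ℂ E']
    [NormedAddCommGroup E₀] [NormedSpace ℂ E₀] [FiniteDimensional ℂ E₀]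
    [NormedAddCommGroup W] [NormedSpace ℂ W] [FiniteDimensional ℂ W]
    {X Y F : Type u} [TopologicalSpace X] [ChartedSpace E X] [IsManifold 𝓘(ℂ, E) ω X]
    [CompactSpace X] [T2Space X] [ConnectedSpace X]
    [TopologicalSpace Y] [ChartedSpace E' Y] [IsManifold 𝓘(ℂ, E') ω Y] [T2Space Y]
    [TopologicalSpace F] [ChartedSpace E₀ F] [IsManifold 𝓘(ℂ, E₀) ω F]
    (hW : 1 < Module.finrank ℂ W)
    (hE : Module.finrank ℂ E + 1 = Module.finrank ℂ E' + Module.finrank ℂ W)
    (f : X → Y) (hf : ContMDiff 𝓘(ℂ, E) 𝓘(ℂ, E') ω f)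
    {ι : Type u} (U : ι → Set Y) (π : ι → Y → W → X) (hB : J.IsBundle E E' f U π)
    (Δ : Set X → ℝ) (hsnc : J.IsSNC E Δ)
    (hΔ : ∀ D, Δ D ≠ 0 → ∃ d : ℕ, ∀ a, ∃ p : Y → W → ℂ,
      (∀ y ∈ U a, ContDiff ℂ ω (p y) ∧ ∀ (c : ℂ) w, p y (c • w) = c ^ d * p y w) ∧
      ∀ x v, f x ∈ U a → J.IsLift E f (π a) v x → J.IsLocalEq E D (fun z => p (f z) (v z)) x)
    (htr : ∃ y, J.IsTransversal E E' f Δ y)
    (y : Y) (i : F → X) (hi : ContMDiff 𝓘(ℂ, E₀) 𝓘(ℂ, E) ω i)
    (hi₁ : Topology.IsEmbedding i) (hi₂ : Set.range i = f ⁻¹' {y})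
    (hi₃ : ∀ p, Function.Injective (mfderiv 𝓘(ℂ, E₀) 𝓘(ℂ, E) i p))
    (hd : Module.finrank ℂ E₀ + 1 = Module.finrank ℂ W) :
    J.kod E₀ (fun (D : Set X) p g => ∃ e, J.IsLocalEq E D e (i p) ∧ ∀ᶠ q in 𝓝 p, g q = e (i q)) Δ +
      J.kod E' (fun (G : Set Y) z g => J.IsLocalEq E' G g z) (J.orbBase E E' f Δ) ≤
      J.kod E (fun (D : Set X) z g => J.IsLocalEq E D g z) Δ := by
  classical
  obtain ⟨r, hr⟩ := Nat.exists_eq_add_of_lt hW
  have hWr : Module.finrank ℂ W = (r + 1) + 1 := by omega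
  have hfinW : Module.finrank ℂ W = Module.finrank ℂ (Fin ((r + 1) + 1) → ℂ) := by
    simp [hWr]
  let φ : W ≃L[ℂ] (Fin ((r + 1) + 1) → ℂ) := ContinuousLinearEquiv.ofFinrankEq hfinW
  let B : ProjectiveBundle E E' f (r + 1) := bundle φ hB
  have hfib : ∀ y, IsConnected (f ⁻¹' {y}) := isConnected_fibre B
  have hsurj : Function.Surjective f := fun y => (hfib y).nonempty
  have : CompactSpace Y := hsurj.compactSpace hf.continuous
  have : ConnectedSpace Y := hsurj.connectedSpace hf.continuous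
  let O : OrbFib.{u} E E' :=
    { X := X, Y := Y, f := f, hol := hf, surj := hsurj, fib := hfib, Δ := Δ, snc := snc hsnc }
  have hdim : Module.finrank ℂ E = Module.finrank ℂ E' + (r + 1) := by (clear * - hE hd hr; omega)
  have hΔ' : ∀ D, O.Δ D ≠ 0 → ∃ d, B.IsRelHypersurface D d := fun D hD =>
    relHyp φ hB hf.continuous (hΔ D hD)
  obtain ⟨fd⟩ := exists_formData B {D | O.Δ D ≠ 0} hΔ'
  obtain ⟨y₁, hy₁⟩ := htr
  obtain ⟨a, ha⟩ := B.cover y₁
  have hfin : {D | O.Δ D ≠ 0}.Finite := O.snc.finite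
  set H : Finset (Set O.X) := hfin.toFinset.filter fun D => 0 < fd.deg D with hH
  have hH' : ∀ D, D ∈ H ↔ O.Δ D ≠ 0 ∧ 0 < fd.deg D := by
    intro D
    rw [hH, Finset.mem_filter, Set.Finite.mem_toFinset]
    rfl
  have htrF : GIT.TrForm (fd.P H a y₁) :=
    trForm_of_transversal O.hol fd (fun D hD => ((hH' D).1 hD).1) (transversal hy₁) ha
  have hfibre : IsFibre O y E₀ i := ⟨hi, hi₁, hi₃, hi₂⟩
  have key := campana_core O (Nat.succ_pos r) hdim B fd hH' (hasTrans_univ B)
    (fun h => hasCov_zero O.hol.continuous O.snc ha htrF h)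
    (fun h => hasCov_pos O.hol.continuous O.snc ha htrF (Nat.succ_pos r) h)
    y E₀ (by (clear * - hE hd; omega)) F i hfibre
  rw [kod_eq, kod_eq, kod_eq]
  exact key

end Vale.Agent.P281.JB
end
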